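import Vale.Agent.P237.All.Middle.ReduceTail
import Vale.Agent.P237.All.CertPotentialFun

/-!
P237, every dimension, middle regime: the potential and the identities of the reduced coefficients
in `X = (p + 2) y ^ 2`, `t = 1 / (p + 2)` (`notes/P237h3/middle-template-b1-02Dec.md`).
-/

noncomputable section

open Real Set Filter Topology

namespace Vale.Agent.P237.All.Transport.Middle

/-- The constants of a cell: the weight, the constant of `ell`, the spline with its two knots, the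
coefficient of the square in the potential, and the two polynomials of the bound. -/
structure RPar where
  g : ℝ
  e : ℝ
  r0 : ℝ
  r1 : ℝ
  r2 : ℝ
  r3 : ℝ
  ka : ℝ
  kb : ℝ
  c : ℝ
  p0 : List ℝ
  p1 : List ℝ

/-- `X ^ 2` up to the knot, linear beyond it. -/
def knot (a X : ℝ) : ℝ := X ^ 2 - (max 0 (X - a)) ^ 2

/-- The derivative of `knot`. -/
def knot' (a X : ℝ) : ℝ := 2 * X - 2 * max 0 (X - a)

theorem hasDerivAt_pos_sq (x : ℝ) : HasDerivAt (fun u : ℝ => (max 0 u) ^ 2) (2 * max 0 x) x := by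
  rcases lt_trichotomy x 0 with h | h | h
  · rw [max_eq_left h.le, mul_zero]
    refine (hasDerivAt_const x (0 : ℝ)).congr_of_eventuallyEq ?_
    filter_upwards [Iio_mem_nhds h] with u hu
    rw [max_eq_left (mem_Iio.1 hu).le]; ring
  · subst h
    rw [max_self, mul_zero, hasDerivAt_iff_isLittleO]
    have h2 : (fun u : ℝ => u ^ 2) =o[𝓝 0] fun u : ℝ => u := by
      simpa using Asymptotics.isLittleO_pow_id (one_lt_two) (𝕜 := ℝ)
    refine Asymptotics.IsBigO.trans_isLittleO ?_ (by simpa using h2)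
    refine Asymptotics.IsBigO.of_bound 1 (Eventually.of_forall fun u => ?_)
    simp only [max_self, sub_zero, smul_zero, Real.norm_eq_abs, one_mul, zero_pow two_ne_zero, abs_pow]
    refine pow_le_pow_left₀ (abs_nonneg _) ?_ 2
    rw [abs_of_nonneg (le_max_left _ _)]
    exact max_le (abs_nonneg _) (le_abs_self _)
  · rw [max_eq_right h.le]
    have := hasDerivAt_pow 2 x
    refine (this.congr_of_eventuallyEq ?_).congr_deriv (by simp)
    filter_upwards [Ioi_mem_nhds h] with u hu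
    rw [max_eq_right (mem_Ioi.1 hu).le]

theorem hasDerivAt_knot (a X : ℝ) : HasDerivAt (knot a) (knot' a X) X := by
  have h := (hasDerivAt_pow 2 X).sub ((hasDerivAt_pos_sq (X - a)).comp X ((hasDerivAt_id X).sub_const a))
  refine h.congr_deriv ?_
  simp [knot']

variable (a : RPar)

/-- The coefficient of `s`, over `t`. -/
def RPar.R (X : ℝ) : ℝ := a.r0 + a.r1 * X + a.r2 * knot a.ka X + a.r3 * knot a.kb X

/-- Its derivative. -/
def RPar.R' (X : ℝ) : ℝ := a.r1 + a.r2 * knot' a.ka X + a.r3 * knot' a.kb X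

/-- `g (1 + 2 t) - 1`. -/
def RPar.te (t : ℝ) : ℝ := a.g * (1 + 2 * t) - 1

/-- The slope of `ζ` besides the spline; `τ = t / (1 - 2 t)`. -/
def RPar.q (t : ℝ) : ℝ := a.g + 5 + 4 * (a.g + 1) * (t / (1 - 2 * t))

/-- The coefficient of `θ`, over `X t / (y (1 - y ^ 2))`. -/
def RPar.L (X t : ℝ) : ℝ :=
  2 * (a.R' X + a.q t) * (1 - X * t) + 2 * a.te t * (2 - t - X) -
    (1 - t) * (a.R X + a.e + X * a.q t)

/-- The cross coefficient. -/
def RPar.C (X t : ℝ) : ℝ := 2 * a.c * (1 - X * t) - 2 * X * a.te t * (t / (1 - 2 * t))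

/-- Minus the coefficient of `φ ^ 2`. -/
def RPar.Q (X t : ℝ) : ℝ := a.c + X * (a.c - (a.g + 1) * (1 + 2 * t))

/-- `majLr / p`. -/
def RPar.K1 (X t : ℝ) : ℝ := 2 * a.te t * (1 - t) + t * (a.e + X * a.q t)

/-- A polynomial. -/
def polyR (X : ℝ) : List ℝ → ℝ
  | [] => 0
  | n :: l => n + X * polyR X l

/-- The weight `1 / (p + 2)`. -/
def tP (p : ℕ) : ℝ := 1 / ((p : ℝ) + 2)

/-- The variable `(p + 2) y ^ 2`. -/
def xP (p : ℕ) (y : ℝ) : ℝ := ((p : ℝ) + 2) * y ^ 2

/-- The potential coefficient of `θ`. -/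
def potA (p : ℕ) (y : ℝ) : ℝ :=
  2 * a.te (tP p) * (1 - tP p) + tP p * (a.R (xP p y) + a.e + xP p y * a.q (tP p))

/-- Its derivative. -/
def potA' (p : ℕ) (y : ℝ) : ℝ := 2 * y * (a.R' (xP p y) + a.q (tP p))

/-- The potential coefficient of `θ ^ 2`. -/
def potW (y : ℝ) : ℝ := a.c * (1 - y ^ 2)

/-- Its derivative. -/
def potW' (y : ℝ) : ℝ := -2 * a.c * y

/-- The multiplier of the common integral. -/
def ellM (p : ℕ) (c2 : ℝ) : ℝ :=
  ((p : ℝ) + 2) * (2 * a.te (tP p) * (1 - tP p) * (1 - 2 * tP p) + 4 - 6 * tP p) + a.g * c2 - 1 +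
    a.e * (1 - 2 * tP p)

theorem hasDerivAt_potA (p : ℕ) (y : ℝ) : HasDerivAt (potA a p) (potA' a p y) y := by
  have hX : HasDerivAt (xP p) (2 * ((p : ℝ) + 2) * y) y :=
    ((hasDerivAt_pow 2 y).const_mul ((p : ℝ) + 2)).congr_deriv (by simp; ring)
  have hR : HasDerivAt a.R (a.R' (xP p y)) (xP p y) :=
    ((((hasDerivAt_id (xP p y)).const_mul a.r1).const_add a.r0).add
      ((hasDerivAt_knot a.ka _).const_mul a.r2)).add ((hasDerivAt_knot a.kb _).const_mul a.r3)
      |>.congr_deriv (by simp [RPar.R'])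
  have h := (((hR.comp y hX).add_const a.e).add (hX.mul_const (a.q (tP p)))).const_mul (tP p)
    |>.const_add (2 * a.te (tP p) * (1 - tP p))
  refine h.congr_deriv ?_
  simp only [potA', tP]
  field_simp

theorem hasDerivAt_potW (y : ℝ) : HasDerivAt (potW a) (potW' a y) y :=
  (((hasDerivAt_pow 2 y).const_sub 1).const_mul a.c).congr_deriv (by simp [potW']; ring)

variable {a} {p : ℕ} {y c2 : ℝ}

theorem tP_pos (p : ℕ) : 0 < tP p := by unfold tP; positivity

theorem xP_mul (p : ℕ) (y : ℝ) : xP p y * tP p = y ^ 2 := by unfold xP tP; field_simp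

theorem maj_re (hp : 1 ≤ p) :
    majRe p a.g 1 1 (ellM a p c2) c2 (potA a p y) y = tP p * a.R (xP p y) := by
  have hp0 : (0 : ℝ) < p := Nat.cast_pos.2 (by omega)
  have h : 1 - 2 * (1 / ((p : ℝ) + 2)) = (p : ℝ) / ((p : ℝ) + 2) := by field_simp; ring
  simp only [majRe, majLr, majC, potA, ellM, RPar.q, RPar.te, xP, tP, h]
  field_simp
  ring

theorem maj_le (hy : y ∈ Ioo (0 : ℝ) 1) :
    majLe p a.g 1 1 (potA' a p y - ((p : ℝ) + 1) * y / (1 - y ^ 2) * potA a p y) y * y * (1 - y ^ 2) =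
      xP p y * tP p * a.L (xP p y) (tP p) := by
  have hS : 1 - y ^ 2 ≠ 0 := by nlinarith [hy.1, hy.2]
  simp only [majLe, majLt, majC, potA', potA, RPar.L, RPar.te, xP, tP]
  field_simp
  ring

theorem maj_cross (hp : 1 ≤ p) (hy : y ∈ Ioo (0 : ℝ) 1) :
    majCross p a.g 1 1 (potW a y / y) y * y = a.C (xP p y) (tP p) := by
  have hp0 : (0 : ℝ) < p := Nat.cast_pos.2 (by omega)
  have hy0 := hy.1.ne'
  have h : 1 - 2 * (1 / ((p : ℝ) + 2)) = (p : ℝ) / ((p : ℝ) + 2) := by field_simp; ring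
  simp only [majCross, majX, majC, potW, RPar.C, RPar.te, xP, tP, h]
  field_simp
  ring

theorem maj_sq (hy : y ∈ Ioo (0 : ℝ) 1) :
    ((a.g + 1) * ((p : ℝ) + 4) +
      (potW' a y / y - potW a y / y ^ 2 - ((p : ℝ) + 1) * potW a y / (1 - y ^ 2))) * y ^ 2 =
      -(a.Q (xP p y) (tP p)) := by
  have hy0 := hy.1.ne'
  have hS : 1 - y ^ 2 ≠ 0 := by nlinarith [hy.1, hy.2]
  simp only [potW, potW', RPar.Q, xP, tP]
  field_simp
  ring

theorem maj_k1 (hp : 1 ≤ p) :
    majLr p a.g 1 1 (ellM a p c2) c2 y / p = a.K1 (xP p y) (tP p) := by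
  have hp0 : (0 : ℝ) < p := Nat.cast_pos.2 (by omega)
  have h : 1 - 2 * (1 / ((p : ℝ) + 2)) = (p : ℝ) / ((p : ℝ) + 2) := by field_simp; ring
  simp only [majLr, majC, ellM, RPar.K1, RPar.q, RPar.te, xP, tP, h]
  field_simp
  ring

/-- The part of the excess weight that depends on `θ`. -/
theorem maj_theta (hp : 1 ≤ p) (hy : y ∈ Ioo (0 : ℝ) 1) {t E : ℝ} (hte : a.te (tP p) ≤ 0)
    (hband : (y - t) * xP p y ≤ E * tP p * (1 - y ^ 2) * y) :
    majX p a.g 1 1 y * (t - y) / p ≤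
      -2 * a.te (tP p) * E * (1 - y ^ 2) * tP p * (tP p / (1 - 2 * tP p)) := by
  have hp0 : (0 : ℝ) < p := Nat.cast_pos.2 (by omega)
  have hy0 := hy.1
  have e : majX p a.g 1 1 y * (t - y) / p =
      -2 * a.te (tP p) * ((y - t) * xP p y) / (y * (p : ℝ)) := by
    simp only [majX, majC, RPar.te, xP, tP]
    field_simp
    ring
  have h : 1 - 2 * tP p = (p : ℝ) / ((p : ℝ) + 2) := by simp only [tP]; field_simp; ring
  rw [e, div_le_iff₀ (by positivity)]
  refine (mul_le_mul_of_nonneg_left hband (by linarith)).trans (le_of_eq ?_)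
  rw [h, tP]
  field_simp

theorem ell_nonneg (hg : a.g ∈ Icc (0 : ℝ) 1) (he : -20 ≤ a.e) (hc2 : 0 ≤ c2) (hp : 20 ≤ p) :
    0 ≤ ellM a p c2 := by
  have hp' : (20 : ℝ) ≤ p := by exact_mod_cast hp
  have ht := tP_pos p
  have ht1 : tP p ≤ 1 / 22 := by unfold tP; exact one_div_le_one_div_of_le (by norm_num) (by linarith)
  have hte : -1 ≤ a.te (tP p) := by
    unfold RPar.te; nlinarith [mul_nonneg hg.1 ht.le, hg.1]
  have h2 : (1 - tP p) * (1 - 2 * tP p) ≤ 1 :=
    mul_le_one₀ (by linarith) (by linarith) (by linarith)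
  have h3 : 0 ≤ (1 - tP p) * (1 - 2 * tP p) := mul_nonneg (by linarith) (by linarith)
  have h1 : 17 / 10 ≤ 2 * a.te (tP p) * (1 - tP p) * (1 - 2 * tP p) + 4 - 6 * tP p := by
    nlinarith only [mul_le_mul_of_nonneg_right hte h3, h2, ht1]
  have := mul_le_mul_of_nonneg_left h1 (show (0 : ℝ) ≤ (p : ℝ) + 2 by positivity)
  have := mul_le_mul_of_nonneg_right he (show (0 : ℝ) ≤ 1 - 2 * tP p by linarith)
  have := mul_nonneg hg.1 hc2
  unfold ellM
  linarith

end Vale.Agent.P237.All.Transport.Middle
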