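import Vale.Agent.P237.All.Mid.Region

/-!
P237, middle cells: the caps on `w` at `y` and from a point below, in the form their boxes check.
-/

noncomputable section

open MeasureTheory Set Filter Real intervalIntegral

namespace Vale.Agent.P237.All.Transport.Middle

open Upper (mills mills_pos mills_mono scaled_mass_mem)
open Mid

variable {p : ℕ} {k y t r lam : ℝ}

/-- The scaled mass of the power `p` from above. -/
theorem mass_scaled_le_half {E : ℝ} (hE : epsP p ≤ E) (hE1 : E ≤ 1) :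
    mass p semi 1 * √((p : ℝ) + 2) ≤ 125332 / 100000 * (1 + E / 2) := by
  obtain ⟨hlo, hhi⟩ := scaled_mass_mem p
  have h0 : 0 < mass p semi 1 * √((p : ℝ) + 2) := lt_of_lt_of_le (by norm_num) hlo
  have hε := eps_pos p
  have e : 1 / (4 * ((p : ℝ) + 1)) = epsP p / 4 := by simp only [epsP]; field_simp
  rw [e] at hhi
  have h2 := (Real.log_le_iff_le_exp h0).1 hhi
  rw [Real.exp_add, Real.exp_log (by norm_num)] at h2
  refine h2.trans (mul_le_mul_of_nonneg_left ?_ (by norm_num))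
  have h3 := (abs_le.1 (Real.abs_exp_sub_one_le (x := epsP p / 4) (by rw [abs_le]; constructor <;> linarith))).2
  rw [abs_of_nonneg (by linarith : 0 ≤ epsP p / 4)] at h3
  linarith

/-- The arithmetic of the cap at `y`. -/
theorem sig_self_arith {C lam W k K γ ε E Q Qm Em ml mx e : ℝ} (hε : 0 < ε) (hεE : ε ≤ E)
    (hk : 0 ≤ k) (hkK : k ≤ K) (hγ : 0 ≤ γ) (hlam1 : 1 ≤ lam) (hlam : lam ≤ 1 + 2 * (k * ε ^ 2))
    (hC : C = lam * (1 + W * Q * ml * Em)) (hW0 : 0 ≤ W) (hW : W ≤ k * γ * ε) (hQ0 : 0 ≤ Q)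
    (hQ : Q ≤ Qm) (hml0 : 0 ≤ ml) (hml : ml ≤ mx) (hE0 : 0 ≤ Em) (hEm : Em ≤ e) :
    C - 1 ≤ K * (2 * E + (1 + 2 * (K * E ^ 2)) * γ * Qm * mx * e) * ε := by
  have hK : 0 ≤ K := hk.trans hkK
  have h1 : W * Q * ml * Em ≤ K * γ * ε * Qm * mx * e := by
    have : 0 ≤ K * γ * ε := by positivity
    have hW' : W ≤ K * γ * ε := hW.trans (by gcongr)
    have : 0 ≤ Qm := hQ0.trans hQ
    have : 0 ≤ mx := hml0.trans hml
    gcongr
  have h0 : 0 ≤ W * Q * ml * Em := by positivity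
  have hl : lam ≤ 1 + 2 * (K * E ^ 2) := hlam.trans (by gcongr)
  have h2 : lam - 1 ≤ 2 * (K * E * ε) := by
    have : k * ε ^ 2 ≤ K * E * ε := by rw [sq, ← mul_assoc]; gcongr
    linarith
  have h3 := mul_le_mul hl h1 h0 (le_trans (by linarith) hl)
  rw [hC]
  linarith

/-- The cap at `y` itself, in `σ`. -/
theorem sig_self (h : Pt p k y t r lam) (hk : 0 ≤ k) (hk2 : k * epsP p < 2) {K E γ x1 X1 t1 e : ℝ}
    (hkK : k ≤ K) (hE : epsP p ≤ E) (hE1 : E ≤ 1) (hK : K * E ^ 2 ≤ 1)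
    (hγ : 1 / (1 + epsP p - k * epsP p / 2) ≤ γ) (hX : XP p y ≤ X1) (hx : XP p y ≤ x1 ^ 2) (hx1 : 0 ≤ x1)
    (ht1 : 1 / ((p : ℝ) + 2) ≤ t1) (hXt : X1 * t1 < 1) (he : exp (X1 / (2 * (1 - X1 * t1))) ≤ e) :
    sig p r ≤ K * (2 * E + (1 + 2 * (K * E ^ 2)) * γ * (125332 / 100000 * (1 + E / 2)) * mills x1 * e) := by
  have hε := eps_pos p
  have hl := Middle.tailCap_self_log' p h.hy h.hr h.hlam h.cap
  have hz : k * epsP p ^ 2 ≤ K * E ^ 2 :=
    mul_le_mul hkK (pow_le_pow_left₀ hε.le hE 2) (sq_nonneg _) (hk.trans hkK)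
  have hlam := lam_le h hk (hz.trans hK)
  have hlp := lam_pow_sub h hk hk2 hγ
  have hQ := mass_scaled_le_half (p := p) hE hE1
  have hy0 := h.hy.1
  have hx0 : 0 ≤ √((p : ℝ) + 2) * y := by positivity
  have hxx : √((p : ℝ) + 2) * y ≤ x1 := by
    rw [sqrt_mul_y p hy0.le, Real.sqrt_le_left hx1]; exact hx
  have hmills := mills_mono hx0 hxx
  have hm0 := mills_pos hx0
  have hexp : (semi y ^ (p + 2))⁻¹ ≤ e := by
    refine (Middle.semi_pow_inv_le p h.hy hX ht1 hXt).trans ((exp_le_exp.2 ?_).trans he)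
    exact div_le_div_of_nonneg_right hX (by linarith)
  have hlp0 : 0 ≤ lam ^ p - 1 := sub_nonneg.2 (one_le_pow₀ h.hlam)
  have hsemi := semi_pos (t := y) ⟨by linarith, h.hy.2⟩
  have hP : 0 ≤ mass p semi 1 * √((p : ℝ) + 2) :=
    mul_nonneg (mass_one_pos isProfile_semi p).le (Real.sqrt_nonneg _)
  have hγ0 : 0 ≤ γ := le_trans (one_div_nonneg.2 (by linarith)) hγ
  set C := lam * (1 + (lam ^ p - 1) * (mass p semi 1 * √((p : ℝ) + 2)) *
    mills (√((p : ℝ) + 2) * y) / semi y ^ (p + 2)) with hC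
  have hC1 : 1 ≤ C := by
    rw [hC]
    refine one_le_mul_of_one_le_of_one_le h.hlam (le_add_of_nonneg_right ?_)
    positivity
  have hw := w_le_of_log h (lt_of_lt_of_le one_pos hC1) hl
  rw [max_eq_right hC1] at hw
  rw [sig, div_le_iff₀ hε]
  rw [div_eq_mul_inv] at hC
  exact le_trans (sub_le_sub_right hw 1) (sig_self_arith hε hE hk hkK hγ0 h.hlam hlam hC hlp0 hlp hP hQ
    hm0.le hmills (by positivity) hexp)

/-- The tail factor above a point. -/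
theorem fac_below_le {a N x t t1 X : ℝ} (ha : 0 < a) (hN : 0 ≤ N) (hx : 0 < x) (hX : 0 ≤ X) (ht : t ≤ t1)
    (hd : 0 < X * (1 - t1) + 3) :
    a * (N / (a * x * (X * (1 - t) + 3))) ≤ N / (x * (X * (1 - t1) + 3)) := by
  have h := mul_le_mul_of_nonneg_left ht hX
  have e : a * (N / (a * x * (X * (1 - t) + 3))) = N / (x * (X * (1 - t) + 3)) := by
    field_simp
  rw [e]
  exact div_le_div_of_nonneg_left hN (by positivity) (mul_le_mul_of_nonneg_left (by linarith) hx.le)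

/-- The arithmetic of the cap from a point below. -/
theorem w_below_arith {lam W k K γ ε E Q Qm Em ml mx e S su F Fm iy sy : ℝ} (hε : 0 < ε) (hεE : ε ≤ E)
    (hk : 0 ≤ k) (hkK : k ≤ K) (hγ : 0 ≤ γ) (hlam0 : 0 ≤ lam) (hlam : lam ≤ 1 + 2 * (k * ε ^ 2))
    (hW0 : 0 ≤ W) (hW : W ≤ k * γ * ε) (hQ0 : 0 ≤ Q) (hQ : Q ≤ Qm) (hml0 : 0 ≤ ml) (hml : ml ≤ mx)
    (hE0 : 0 ≤ Em) (hEm : Em ≤ e) (hS0 : 0 ≤ S) (hS : S ≤ su) (hF0 : 0 ≤ F) (hF : F ≤ Fm)
    (hi0 : 0 ≤ iy) (hi : iy ≤ sy) :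
    lam * ml * (W * Q * Em + S * F) * iy ≤
      (1 + 2 * (K * E ^ 2)) * mx * (K * γ * E * Qm * e + su * Fm) * sy := by
  have hK : 0 ≤ K := hk.trans hkK
  have : 0 ≤ E := hε.le.trans hεE
  have : 0 ≤ Qm := hQ0.trans hQ
  have : 0 ≤ mx := hml0.trans hml
  have : 0 ≤ e := hE0.trans hEm
  have : 0 ≤ su := hS0.trans hS
  have : 0 ≤ Fm := hF0.trans hF
  have hW' : W ≤ K * γ * E := hW.trans (by gcongr)
  have hl : lam ≤ 1 + 2 * (K * E ^ 2) := hlam.trans (by gcongr)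
  gcongr

/-- The cap from a point below, in `w`. -/
theorem w_below (h : Pt p k y t r lam) (hk : 0 ≤ k) (hk2 : k * epsP p < 2)
    {K E γ xu Xu t0 t1 x1 e su sy : ℝ}
    (hkK : k ≤ K) (hE : epsP p ≤ E) (hE1 : E ≤ 1) (hK : K * E ^ 2 ≤ 1)
    (hγ : 1 / (1 + epsP p - k * epsP p / 2) ≤ γ) (hxu : 0 < xu) (hXu : Xu = xu ^ 2)
    (huX : Xu ≤ XP p y) (hx : XP p y ≤ x1 ^ 2) (hx1 : 0 ≤ x1)
    (ht1 : 1 / ((p : ℝ) + 2) ≤ t1) (ht0 : t0 ≤ 1 / ((p : ℝ) + 2)) (ht00 : 0 ≤ t0) (hXt : Xu * t1 < 1)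
    (he : exp (Xu / (2 * (1 - Xu * t1))) ≤ e) (hsu : 1 - Xu * t0 / 2 ≤ su)
    (hsy : 1 ≤ sy ^ 2 * (1 - x1 ^ 2 * t1)) (hsy0 : 0 ≤ sy) :
    (r ^ p)⁻¹ ≤ max 1 ((1 + 2 * (K * E ^ 2)) * mills x1 *
      (K * γ * E * (125332 / 100000 * (1 + E / 2)) * e +
        su * ((Xu + 2) / (xu * (Xu * (1 - t1) + 3)))) * sy) := by
  have hε := eps_pos p
  have hA : (0 : ℝ) < (p : ℝ) + 2 := by positivity
  have hsA : 0 < √((p : ℝ) + 2) := Real.sqrt_pos.2 hA
  have hy0 := h.hy.1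
  set u := xu / √((p : ℝ) + 2) with hu
  have hu0 : 0 < u := by positivity
  have hXu' : ((p : ℝ) + 2) * u ^ 2 = Xu := by
    rw [hu, div_pow, Real.sq_sqrt hA.le, hXu]; field_simp
  have huy : u ≤ y := by
    refine (pow_le_pow_iff_left₀ hu0.le hy0.le two_ne_zero).1 (le_of_mul_le_mul_left ?_ hA)
    rw [hXu']; exact huX
  have hl := capU_log p h.hy hu0 huy h.hr h.hlam h.cap
  have hz : k * epsP p ^ 2 ≤ K * E ^ 2 :=
    mul_le_mul hkK (pow_le_pow_left₀ hε.le hE 2) (sq_nonneg _) (hk.trans hkK)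
  have hlam := lam_le h hk (hz.trans hK)
  have hlp := lam_pow_sub h hk hk2 hγ
  have hQ := mass_scaled_le_half (p := p) hE hE1
  have hxx : √((p : ℝ) + 2) * y ≤ x1 := by
    rw [sqrt_mul_y p hy0.le, Real.sqrt_le_left hx1]; exact hx
  have hmills := mills_mono (mul_nonneg hsA.le hy0.le) hxx
  have hu1 : u < 1 := huy.trans_lt h.hy.2
  have hs := semi_pos (t := u) ⟨by linarith, hu1⟩
  have hy' := semi_pos (t := y) ⟨by linarith, h.hy.2⟩
  have hP : 0 ≤ mass p semi 1 * √((p : ℝ) + 2) :=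
    mul_nonneg (mass_one_pos isProfile_semi p).le (Real.sqrt_nonneg _)
  have hlp0 : 0 ≤ lam ^ p - 1 := sub_nonneg.2 (one_le_pow₀ h.hlam)
  have hm0 := mills_pos (mul_nonneg hsA.le hy0.le)
  have hF := tailFac_pos p hu0
  have hlam0 : 0 < lam := by linarith [h.hlam]
  have hC : 0 < capU p u y lam := by unfold capU; positivity
  have hγ0 : 0 ≤ γ := le_trans (one_div_nonneg.2 (by linarith)) hγ
  have hu2 : u ^ 2 ≤ 1 := by nlinarith
  have hexp : (semi u ^ (p + 1))⁻¹ ≤ e := by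
    refine le_trans ?_ ((Middle.semi_pow_inv_le p ⟨hu0, hu1⟩ hXu'.le ht1 hXt).trans
      ((exp_le_exp.2 (le_of_eq (by rw [hXu']))).trans he))
    refine inv_anti₀ (pow_pos hs _) ?_
    rw [pow_succ _ (p + 1)]
    exact mul_le_of_le_one_right (pow_nonneg hs.le _)
      (Real.sqrt_le_one.2 (by nlinarith [sq_nonneg u]))
  have e1 : u ^ 2 = Xu * (1 / ((p : ℝ) + 2)) := by rw [← hXu']; field_simp
  have hX0 : 0 ≤ Xu := by rw [hXu]; positivity
  have hle : Xu * t0 ≤ u ^ 2 := by rw [e1]; exact mul_le_mul_of_nonneg_left ht0 hX0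
  have hsu' : semi u ≤ su := by
    refine le_trans ?_ hsu
    exact sqrt_one_sub_le (mul_nonneg hX0 ht00) hle hu2
  have hfac : √((p : ℝ) + 2) * tailFac p u ≤ (Xu + 2) / (xu * (Xu * (1 - t1) + 3)) := by
    have eA : ((p : ℝ) + 2) * u = √((p : ℝ) + 2) * xu := by
      rw [hu]; field_simp; rw [Real.sq_sqrt hA.le]
    have eB : ((p : ℝ) + 1) * u ^ 2 = Xu * (1 - 1 / ((p : ℝ) + 2)) := by
      rw [← hXu']; field_simp; ring
    rw [tailFac, hXu', eA, eB]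
    refine fac_below_le hsA (by linarith only [hX0]) hxu hX0 ht1 ?_
    linarith only [mul_comm Xu t1, hXt, hX0]
  have hsy' : (semi y)⁻¹ ≤ sy := by
    rw [inv_le_iff_one_le_mul₀ hy']
    refine (pow_le_pow_iff_left₀ zero_le_one (by positivity) two_ne_zero).1 ?_
    rw [one_pow, mul_pow, semi_sq ⟨by linarith, h.hy.2.le⟩]
    refine hsy.trans (mul_le_mul_of_nonneg_left ?_ (sq_nonneg _))
    have : y ^ 2 ≤ x1 ^ 2 * t1 := by
      rw [show y ^ 2 = XP p y * (1 / ((p : ℝ) + 2)) by rw [XP]; field_simp]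
      exact mul_le_mul hx ht1 (by positivity) (sq_nonneg _)
    linarith
  refine (w_le_of_log h hC hl).trans (max_le_max le_rfl ?_)
  rw [capU, div_eq_mul_inv, div_eq_mul_inv]
  exact w_below_arith hε hE hk hkK hγ0 hlam0.le hlam hlp0 hlp hP hQ hm0.le hmills (by positivity) hexp
    hs.le hsu' (by positivity) hfac (by positivity) hsy'

end Vale.Agent.P237.All.Transport.Middle
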