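import Vale.Agent.P237.All.Middle.Pot
import Vale.Agent.P237.All.Middle.CapPoint
import Vale.Agent.P237.All.Mid.Region
import Vale.Agent.P237.All.High.Tail

/-!
P237, every dimension, middle regime: the pointwise inequality for `X = (p + 2) y ^ 2 ≥ 1024`, where
the spline is constant, by crude bounds.
-/

noncomputable section

open Real Set

namespace Vale.Agent.P237.All.Transport.Middle

open Mid (Pt XP epsP eps_pos)
open Upper (mills mills_pos mills_mono core core_mem core_mono)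

/-- What the constants have to satisfy beyond `X = 1024`. -/
structure Big (a : RPar) : Prop where
  hka : a.ka ≤ 1024
  hkb : a.kb ≤ 1024
  flat : a.r1 + 2 * a.ka * a.r2 + 2 * a.kb * a.r3 = 0
  hR : a.r0 - a.r2 * a.ka ^ 2 - a.r3 * a.kb ^ 2 ∈ Icc (0 : ℝ) 8
  hg : a.g ∈ Icc (1 / 4 : ℝ) (7 / 10)
  he : a.e ∈ Icc (-4 : ℝ) 0
  hc : a.c ∈ Icc (3 / 2 : ℝ) (5 / 2)
  hd : 108 / 100 * a.c ^ 2 ≤ 16 * (11 / 12 * (a.c - (a.g + 1) * (65 / 64)) - 1 / 100)
  p0 : ∀ X : ℝ, 1024 ≤ X → X ^ 4 ≤ polyR X a.p0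
  p1 : ∀ X : ℝ, 1024 ≤ X → 0 ≤ polyR X a.p1

variable {a : RPar}

theorem Big.R_eq (h : Big a) {X : ℝ} (hX : 1024 ≤ X) :
    a.R X = a.r0 - a.r2 * a.ka ^ 2 - a.r3 * a.kb ^ 2 ∧ a.R' X = 0 := by
  have h1 := h.hka
  have h2 := h.hkb
  have e1 : max 0 (X - a.ka) = X - a.ka := max_eq_right (by linarith)
  have e2 : max 0 (X - a.kb) = X - a.kb := max_eq_right (by linarith)
  constructor
  · simp only [RPar.R, knot, e1, e2]
    linear_combination X * h.flat
  · simp only [RPar.R', knot', e1, e2]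
    linear_combination h.flat

/-- The bounds on the coefficients. -/
theorem Big.coef (h : Big a) {X u : ℝ} (hX : 1024 ≤ X) (hu : 0 < u) (hu1 : u ≤ 1 / 129) (hXu : X * u < 1) :
    a.R X ∈ Icc (0 : ℝ) 8 ∧ a.te u ∈ Icc (-(3 / 4) : ℝ) (-(7 / 25)) ∧
      a.L X u ∈ Icc (-6 * X) (-(7 / 2) * X) ∧ a.C X u ∈ Icc (0 : ℝ) (2 * a.c) ∧
      (a.c - (a.g + 1) * (65 / 64)) * X ≤ a.Q X u ∧ u * (a.e + X * a.q u) ≤ 6 * (X * u) := by
  obtain ⟨eR, eR'⟩ := h.R_eq hX
  obtain ⟨hg0, hg1⟩ := h.hg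
  obtain ⟨he0, he1⟩ := h.he
  obtain ⟨hc0, hc1⟩ := h.hc
  have hR := h.hR
  rw [← eR] at hR
  have hX0 : 0 < X := by linarith
  have gu : a.g * u ≤ 7 / 10 * (1 / 129) := mul_le_mul hg1 hu1 hu.le (by norm_num)
  have gu0 : 0 ≤ a.g * u := mul_nonneg (by linarith) hu.le
  have hte : a.te u ∈ Icc (-(3 / 4) : ℝ) (-(7 / 25)) := by
    unfold RPar.te
    constructor <;> linarith
  have hτ0 : 0 ≤ u / (1 - 2 * u) := div_nonneg hu.le (by linarith)
  have hτ : u / (1 - 2 * u) ≤ 1 / 127 := by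
    rw [div_le_div_iff₀ (by linarith) (by norm_num)]; linarith
  have hτ' : u / (1 - 2 * u) ≤ 129 / 127 * u := by
    rw [div_le_iff₀ (by linarith)]; nlinarith only [hu, hu1]
  have hq : a.q u ∈ Icc (21 / 4 : ℝ) (577 / 100) := by
    have := mul_le_mul (show a.g + 1 ≤ 17 / 10 by linarith) hτ hτ0 (by norm_num)
    have := mul_nonneg (show (0 : ℝ) ≤ a.g + 1 by linarith) hτ0
    unfold RPar.q
    constructor <;> linarith
  refine ⟨hR, hte, ?_, ?_, ?_, ?_⟩
  · rw [RPar.L, eR']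
    constructor
    · nlinarith only [hq.1, hq.2, hte.1, hte.2, hR.1, hR.2, he0, he1, hu, hu1, hXu, hX]
    · nlinarith only [hq.1, hq.2, hte.1, hte.2, hR.1, hR.2, he0, he1, hu, hu1, hXu, hX]
  · rw [RPar.C]
    have h1 : 0 ≤ -(2 * X * a.te u * (u / (1 - 2 * u))) :=
      neg_nonneg.2 (mul_nonpos_of_nonpos_of_nonneg
        (mul_nonpos_of_nonneg_of_nonpos (by positivity) (by linarith [hte.2])) hτ0)
    have h2 : -(2 * X * a.te u * (u / (1 - 2 * u))) ≤ 2 * a.c * (X * u) := by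
      have := mul_le_mul (mul_le_mul_of_nonneg_left (show -a.te u ≤ 3 / 4 by linarith [hte.1])
        (show 0 ≤ 2 * X by positivity)) hτ' hτ0 (by positivity)
      have := mul_le_mul_of_nonneg_right hc0 (mul_nonneg hX0.le hu.le)
      nlinarith only [this, ‹_ ≤ 2 * X * (3 / 4) * (129 / 127 * u)›, hu, hX0, hc0]
    constructor
    · nlinarith only [h1, hc0, hXu]
    · linarith only [h2]
  · rw [RPar.Q]
    have : (a.g + 1) * (1 + 2 * u) ≤ (a.g + 1) * (65 / 64) :=
      mul_le_mul_of_nonneg_left (by linarith) (by linarith)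
    nlinarith only [this, hX0, hc0]
  · nlinarith only [mul_le_mul_of_nonneg_left hq.2 (mul_nonneg hX0.le hu.le),
      mul_nonpos_of_nonneg_of_nonpos hu.le he1, hu, hX0]

/-- `wide` for `x ≥ 32`. -/
theorem wide_big {x : ℝ} (hx : 32 ≤ x) : High.wide (124 / 125) x ≤ 4 / 5 * x := by
  refine (High.wide_le (θ := 124 / 125) (by norm_num) (show (0 : ℝ) ≤ 32 by norm_num) hx le_rfl).trans ?_
  have hm : mills x ≤ x + 9 / 5 / 34 :=
    add_le_add le_rfl (div_le_div_of_nonneg_left (by norm_num) (by norm_num) (by linarith))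
  rw [div_le_iff₀ (High.lift_pos (by norm_num) (by norm_num))]
  have hl : (267 : ℝ) / 100 ≤ High.lift (124 / 125) 32 := by
    norm_num [High.lift, core, mills]
  have := mul_le_mul_of_nonneg_left hl (show 0 ≤ 4 / 5 * x by positivity)
  linarith

variable {p : ℕ} {k y t r lam E c2 : ℝ}

/-- The tail beyond `X = 1024` with a cap proportional to `x`. -/
theorem beyond_tail (h : Big a) (hp : 127 ≤ p) (hpt : Pt p k y t r lam)
    (hE : E ∈ Icc (0 : ℝ) 20) (hεL : (p : ℝ) * log lam ≤ E * tP p)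
    (hband : (y - t) * xP p y ≤ E * tP p * (1 - y ^ 2) * y) (hX : 1024 ≤ xP p y) {x : ℝ}
    (hxs : x ^ 2 = xP p y) (hx32 : 32 ≤ x) (hux : tP p * x ≤ 1 / 384) (hy2 : y ^ 2 ≤ 1 / 12)
    (hK0 : majLr p a.g 1 1 (ellM a p c2) c2 y / p + majX p a.g 1 1 y * (t - y) / p ≤ 0)
    (W γ : ℝ) (hW : (r ^ p)⁻¹ ≤ W) (hγ : 0 ≤ γ) (hW15 : 15 ≤ W) (hWx : W ≤ 21 / 25 * x)
    (hγC : γ * xP p y * tP p ≤ a.C (xP p y) (tP p))
    (hh1 : γ * (W - 1) * (1 - y ^ 2) ≤ 2 * xP p y)
    (hh4 : (a.C (xP p y) (tP p) - γ * xP p y * tP p) ^ 2 * W * (W + 1) ≤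
      16 * (xP p y * (11 / 12 * (a.c - (a.g + 1) * (65 / 64)) - 1 / 100))) :
    density p 0 a.g 1 1 (ellM a p c2) lam c2 y t r + semi y ^ (p + 1) *
        ((potA' a p y - ((p : ℝ) + 1) * y / (1 - y ^ 2) * potA a p y) * (t - y) +
          potA a p y * ((r ^ p)⁻¹ - 1) +
          (potW' a y / y - potW a y / y ^ 2 - ((p : ℝ) + 1) * potW a y / (1 - y ^ 2)) * (t - y) ^ 2 +
          2 * (potW a y / y) * (t - y) * ((r ^ p)⁻¹ - 1)) ≤
      semi y ^ (p + 1) * (majZero p a.g 1 c2 y + tP p ^ 2 *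
        ((polyR (xP p y) a.p0 + E * polyR (xP p y) a.p1 * (1 - y ^ 2) ^ 2) / (1 - y ^ 2))) := by
  obtain ⟨hy, ht, hr, hlam, -, hridge, -, -, -⟩ := id hpt
  have hp1 : 1 ≤ p := by omega
  have hp2 : 2 ≤ p := by omega
  have hp' : (127 : ℝ) ≤ p := by exact_mod_cast hp
  have hu := tP_pos p
  have hu1 : tP p ≤ 1 / 129 := one_div_le_one_div_of_le (by norm_num) (by linarith)
  have hu2 : tP p ≤ 1 / 12288 := by
    have := mul_le_mul_of_nonneg_left hx32 hu.le
    linarith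
  have hS0 : 0 < 1 - y ^ 2 := by linarith
  have hXu1 : xP p y * tP p < 1 := by rw [xP_mul]; linarith
  obtain ⟨⟨hR0, hR8⟩, ⟨hte0, hte1⟩, ⟨hL0, hL1⟩, ⟨hC0, hC1⟩, hQ, hqu⟩ := h.coef hX hu hu1 hXu1
  obtain ⟨hg0, hg1⟩ := h.hg
  obtain ⟨hc0, hc1⟩ := h.hc
  have hP0 := h.p0 _ hX
  have hP1 := h.p1 _ hX
  have hX0 : 0 < xP p y := by linarith
  set X := xP p y
  set u := tP p
  have hWu : u * W ≤ 1 / 400 := by
    have := mul_le_mul_of_nonneg_left hWx hu.le
    linarith
  have hρu : u * (a.R X * ((W + 1) / 2)) ≤ 1 / 60 := by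
    have h1 := mul_le_mul_of_nonneg_right hR8 (mul_nonneg hu.le (show 0 ≤ (W + 1) / 2 by linarith))
    linarith
  have hρ0 : 0 ≤ u * (a.R X * ((W + 1) / 2)) := mul_nonneg hu.le (mul_nonneg hR0 (by linarith))
  have hY : X * (11 / 12 * (a.c - (a.g + 1) * (65 / 64)) - 1 / 100) ≤
      a.Q X u * (1 - y ^ 2) - X * (1 / 2 - u + W * u) * (u * (a.R X * ((W + 1) / 2))) := by
    have hd : 0 ≤ (a.c - (a.g + 1) * (65 / 64)) * X := by
      have := h.hd; nlinarith only [this, hX0, sq_nonneg a.c]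
    have h1 := mul_le_mul hQ (show (11 : ℝ) / 12 ≤ 1 - y ^ 2 by linarith) (by norm_num) (hd.trans hQ)
    have h2 := mul_le_mul_of_nonneg_left hρu (show 0 ≤ X * (1 / 2) by positivity)
    have h3 : X * (1 / 2 - u + W * u) * (u * (a.R X * ((W + 1) / 2))) ≤
        X * (1 / 2 + 1 / 400) * (1 / 60) := by
      refine mul_le_mul (mul_le_mul_of_nonneg_left (by linarith) hX0.le) hρu hρ0 (by positivity)
    linarith only [h1, h3, hX0, h2]
  refine tail_le p hp2 (X := X) (tt := u) (S := 1 - y ^ 2) (W := W) (ℓ := W) (Kb := 0)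
    (κT := 4 / (W + 1)) (γ := γ) hy ht hr (by linarith) (by linarith) hlam hridge hE.1 hεL rfl rfl rfl
    (maj_re hp1) (maj_le hy) (maj_cross hp1 hy) (maj_sq hy) (by linarith only [hK0]) le_rfl hband
    (fun _ => hW) (by linarith) ?_ hR0 hγ hγC ?_ ?_ (by simp) (by positivity) (by norm_num) ?_ ?_
  · have := Real.log_le_sub_one_of_pos (show 0 < W by linarith); linarith
  · have h1 : a.R X * ((W + 1) / 2) * (1 - 2 * u + 2 * W * u) ≤ 9 * x := by
      have := mul_le_mul (mul_le_mul hR8 (show (W + 1) / 2 ≤ x by linarith) (by linarith) (by norm_num))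
        (show 1 - 2 * u + 2 * W * u ≤ 9 / 8 by linarith)
        (by nlinarith only [hu, hu1, hW15]) (by positivity)
      linarith
    nlinarith only [h1, hh1, hL1, hxs, hx32]
  · have : 0 ≤ X * (11 / 12 * (a.c - (a.g + 1) * (65 / 64)) - 1 / 100) := by
      have := h.hd; nlinarith only [this, hX0, sq_nonneg a.c]
    linarith only [this, hY]
  · refine le_of_mul_le_mul_right ?_ (show 0 < W + 1 by linarith)
    refine hh4.trans ((mul_le_mul_of_nonneg_left hY (by norm_num)).trans (le_of_eq ?_))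
    field_simp
    ring
  · have e1 : a.R X * ((W + 1) / 2) * E * (1 - y ^ 2) ≤ 160 * x := by
      have := mul_le_mul (mul_le_mul (mul_le_mul hR8 (show (W + 1) / 2 ≤ x by linarith) (by linarith)
        (by norm_num)) hE.2 hE.1 (by positivity))
        (show 1 - y ^ 2 ≤ 1 by nlinarith only [sq_nonneg y]) hS0.le (by positivity)
      linarith
    have e2 : -(a.L X u * E * (1 - y ^ 2)) ≤ 120 * X := by
      have := mul_le_mul (mul_le_mul (show -a.L X u ≤ 6 * X by linarith) hE.2 hE.1 (by positivity))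
        (show 1 - y ^ 2 ≤ 1 by nlinarith only [sq_nonneg y]) hS0.le (by positivity)
      linarith
    have e3 : a.C X u ^ 2 * E ^ 2 * (1 - y ^ 2) ^ 2 / (2 * (4 - 0) * X ^ 2) ≤ 1 := by
      rw [div_le_one (by positivity)]
      have := mul_le_mul (mul_le_mul (pow_le_pow_left₀ hC0 (hC1.trans (show 2 * a.c ≤ 5 by linarith)) 2)
        (pow_le_pow_left₀ hE.1 hE.2 2) (sq_nonneg _) (by norm_num))
        (show (1 - y ^ 2) ^ 2 ≤ 1 from pow_le_one₀ hS0.le (by nlinarith only [sq_nonneg y]))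
        (sq_nonneg _) (by norm_num)
      have := pow_le_pow_left₀ (by norm_num) hX 2
      linarith
    have e4 : 160 * x + 120 * X + 1 ≤ X ^ 4 := by
      have h3 : (1024 : ℝ) ^ 3 ≤ X ^ 3 := pow_le_pow_left₀ (by norm_num) hX 3
      nlinarith only [h3, hX, hxs, hx32]
    linarith only [e1, e2, e3, e4, hP0, mul_nonneg (mul_nonneg hE.1 hP1) (sq_nonneg (1 - y ^ 2))]

/-- The cap from the point `u = 2 / √(p + 2)` for small `t`. -/
theorem w_half (hk : 2 ≤ k) (hk17 : k ≤ 17) (hpt : Pt p k y t r lam) {x : ℝ} (hxs : x ^ 2 = xP p y)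
    (hx32 : 32 ≤ x) (hy2 : y ^ 2 ≤ 1 / 12) (hsmall : tP p ≤ 1 / 10000) (hu : 0 < tP p) :
    (r ^ p)⁻¹ ≤ x / 2 := by
  have hXu : xP p y * tP p = y ^ 2 := xP_mul p y
  have hX : 1024 ≤ xP p y := by
    rw [← hxs]
    have := pow_le_pow_left₀ (by norm_num) hx32 2
    linarith
  have hε : epsP p ≤ 1 / 9998 := by
    have e : epsP p = tP p / (1 - tP p) := by
      have : (p : ℝ) + 2 - 1 = p + 1 := by ring
      simp only [epsP, tP]; field_simp; rw [this, div_self (by positivity)]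
    rw [e, div_le_div_iff₀ (by linarith) (by norm_num)]; linarith
  have hk2 : k * epsP p < 2 := by nlinarith only [hk17, hε, eps_pos p, hk]
  have hγ : 1 / (1 + epsP p - k * epsP p / 2) ≤ 101 / 100 := by
    rw [div_le_iff₀ (by nlinarith only [hk17, hε, eps_pos p, hk])]
    nlinarith only [hk17, hε, eps_pos p, hk]
  have he : exp ((4 : ℝ) / (2 * (1 - 4 * (1 / 10000)))) ≤ 37 / 5 := by
    refine (exp_le_exp.2 (show (4 : ℝ) / (2 * (1 - 4 * (1 / 10000))) ≤ 1 + 1 + 1 / 1000 by norm_num)).trans ?_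
    rw [Real.exp_add, Real.exp_add]
    have h1 := Real.exp_one_lt_d9.le
    have h2 := Real.exp_bound_div_one_sub_of_interval (x := 1 / 1000) (by norm_num) (by norm_num)
    refine (mul_le_mul (mul_le_mul h1 h1 (exp_pos _).le (by norm_num)) h2 (exp_pos _).le
      (by norm_num)).trans (by norm_num)
  have hm : mills x ≤ 501 / 500 * x := by
    have : 9 / 5 / (x + 111 / 50) ≤ 9 / 5 / 34 :=
      div_le_div_of_nonneg_left (by norm_num) (by norm_num) (by linarith)
    rw [mills]; linarith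
  have hsy : (1 : ℝ) ≤ (106 / 100) ^ 2 * (1 - x ^ 2 * tP p) := by
    rw [hxs, hXu]; linarith
  refine (w_below hpt (by linarith) hk2 (K := 17) (E := 1 / 9998) (t1 := tP p) (t0 := 0)
    (x1 := x) (xu := 2) (Xu := 4) (su := 1) (sy := 106 / 100) hk17 hε (by norm_num) (by norm_num)
    hγ two_pos (by norm_num) (by show (4 : ℝ) ≤ xP p y; linarith) hxs.ge (by linarith) le_rfl
    hu.le le_rfl (by linarith) ((exp_le_exp.2 ?_).trans he) (by simp) hsy (by norm_num)).trans
    (max_le (by linarith) ?_)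
  · exact div_le_div_of_nonneg_left (by norm_num) (by norm_num) (by linarith)
  · have hF : (4 + 2) / (2 * (4 * (1 - tP p) + 3)) ≤ (43 : ℝ) / 100 := by
      rw [div_le_iff₀ (by linarith)]; linarith
    refine (mul_le_mul_of_nonneg_right (mul_le_mul (mul_le_mul_of_nonneg_left hm (by norm_num))
      (add_le_add le_rfl (mul_le_mul_of_nonneg_left hF zero_le_one)) ?_ (by positivity))
      (by norm_num)).trans ?_
    · have : 0 ≤ (4 + 2) / (2 * (4 * (1 - tP p) + 3)) := div_nonneg (by norm_num) (by linarith)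
      positivity
    · norm_num; linarith

/-- The inequality beyond `X = 1024`, away from zero. -/
theorem beyond_far (h : Big a) (hp : 127 ≤ p) (hk : 2 ≤ k) (hk17 : k ≤ 17) (hpt : Pt p k y t r lam)
    (hE : E ∈ Icc (0 : ℝ) 20) (hεL : (p : ℝ) * log lam ≤ E * tP p)
    (hband : (y - t) * xP p y ≤ E * tP p * (1 - y ^ 2) * y) (hX : 1024 ≤ xP p y)
    (hfar : 1 / 12 ≤ xP p y * tP p) :
    density p 0 a.g 1 1 (ellM a p c2) lam c2 y t r +
        (potFY p (potA a p) (potA' a p) (potW a) (potW' a) y t +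
          potFT p (potA a p) (potW a) y t / r ^ p) ≤
      semi y ^ (p + 1) * (majZero p a.g 1 c2 y + tP p ^ 2 *
        ((polyR (xP p y) a.p0 + E * polyR (xP p y) a.p1 * (1 - y ^ 2) ^ 2) / (1 - y ^ 2))) := by
  obtain ⟨hy, ht, hr, hlam, -, hridge, -, -, -⟩ := id hpt
  have hp1 : 1 ≤ p := by omega
  have hp2 : 2 ≤ p := by omega
  have hp' : (127 : ℝ) ≤ p := by exact_mod_cast hp
  have hu := tP_pos p
  have hu1 : tP p ≤ 1 / 129 := one_div_le_one_div_of_le (by norm_num) (by linarith)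
  have hS0 : 0 < 1 - y ^ 2 := by nlinarith [hy.1, hy.2]
  have hXu : xP p y * tP p = y ^ 2 := xP_mul p y
  have hXu1 : xP p y * tP p < 1 := by linarith
  obtain ⟨⟨hR0, hR8⟩, ⟨hte0, hte1⟩, ⟨hL0, hL1⟩, ⟨hC0, hC1⟩, hQ, hqu⟩ := h.coef hX hu hu1 hXu1
  obtain ⟨hg0, hg1⟩ := h.hg
  obtain ⟨hc0, hc1⟩ := h.hc
  have hP0 := h.p0 _ hX
  have hP1 := h.p1 _ hX
  have hX0 : 0 < xP p y := by linarith
  set x := √((p : ℝ) + 2) * y with hxd
  have hxs : x ^ 2 = xP p y := by
    rw [hxd, mul_pow, sq_sqrt (by positivity), xP]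
  have hx32 : 32 ≤ x := by
    rw [hxd, Mid.sqrt_mul_y p hy.1.le]; exact Real.le_sqrt_of_sq_le (by rw [show XP p y = xP p y from rfl]; linarith)
  have hθ : High.ThetaOK (124 / 125) (1 / ((p : ℝ) + 2)) := by
    refine Or.inr ?_
    have hu' : tP p ≤ tP p / (1 - tP p) := by rw [le_div_iff₀ (by linarith)]; nlinarith only [hu, hu1]
    show 124 / 125 ≤ 1 - 2 * tP p + 97 / 100 * (tP p / (1 - tP p))
    linarith
  have hwd : (r ^ p)⁻¹ * semi y ≤ 4 / 5 * x :=
    (High.reach_wide hp2 hy hr hpt.reach (by norm_num) hθ).trans (wide_big hx32)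
  have hθm := maj_theta (a := a) hp1 hy (by linarith) hband
  have hτ : tP p / (1 - 2 * tP p) ≤ 1 / 127 := by
    rw [div_le_div_iff₀ (by linarith) (by norm_num)]; linarith
  have hτ0 : 0 ≤ tP p / (1 - 2 * tP p) := div_nonneg hu.le (by linarith)
  have hθb : -2 * a.te (tP p) * E * (1 - y ^ 2) * tP p * (tP p / (1 - 2 * tP p)) ≤ 1 / 500 := by
    have e1 : -2 * a.te (tP p) * E * (1 - y ^ 2) ≤ 30 := by
      have := mul_le_mul (mul_le_mul (show -2 * a.te (tP p) ≤ 3 / 2 by linarith) hE.2 hE.1 (by norm_num))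
        (show 1 - y ^ 2 ≤ 1 by nlinarith only [sq_nonneg y]) hS0.le (by norm_num)
      linarith
    exact (mul_le_mul (mul_le_mul e1 hu1 hu.le (by norm_num)) hτ hτ0 (by norm_num)).trans (by norm_num)
  have hK1 : a.K1 (xP p y) (tP p) ≤ 2 * a.te (tP p) * (1 - tP p) + 6 * (xP p y * tP p) := by
    rw [RPar.K1]; linarith
  rw [Mid.pot_eq hy hr]
  refine far_le p hp2 (X := xP p y) (tt := tP p) (S := 1 - y ^ 2) (wd := 4 / 5 * x) (k := 7) hy hr
    (by linarith) (by linarith) hE.1 rfl rfl rfl (maj_re hp1) (maj_le hy) (maj_cross hp1 hy) (maj_sq hy)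
    ?_ (by norm_num) ht.2 hband (fun _ => hwd) (by positivity) hR0 hC0 (le_trans ?_ hQ) ?_ ?_
  · rw [maj_k1 hp1]
    nlinarith only [hθm, hθb, hK1, hte1, hu1, hu, hXu1]
  · have := h.hd
    nlinarith only [this, hX0, sq_nonneg a.c]
  · have e1 := mul_le_mul_of_nonneg_left hL1 (mul_nonneg hX0.le hu.le)
    have e2 := mul_le_mul_of_nonneg_right hfar (show 0 ≤ 7 / 2 * xP p y by positivity)
    have e3 := mul_le_mul_of_nonneg_right (hC1.trans (show 2 * a.c ≤ 5 by linarith))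
      (show 0 ≤ 4 / 5 * x by positivity)
    nlinarith only [e1, e2, e3, hxs, hx32]
  · set u := tP p
    set X := xP p y
    have e1 : (u * a.R X + 7) * (4 / 5 * x) ≤ 6 * x := by
      have := mul_le_mul hu1 hR8 hR0 (by norm_num)
      nlinarith only [this, hx32]
    have e2 : a.C X u * E * u * (1 - y ^ 2) ^ 2 / X ≤ 1 := by
      rw [div_le_one hX0]
      have := mul_le_mul (mul_le_mul (mul_le_mul (hC1.trans (show 2 * a.c ≤ 5 by linarith)) hE.2 hE.1
        (by norm_num)) hu1 hu.le (by norm_num))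
        (show (1 - y ^ 2) ^ 2 ≤ 1 from pow_le_one₀ hS0.le (by nlinarith only [sq_nonneg y]))
        (sq_nonneg _) (by norm_num)
      linarith
    have e3 : -(u ^ 2 * a.L X u * E * (1 - y ^ 2)) ≤ 120 * (u ^ 2 * X) := by
      have := mul_le_mul (mul_le_mul (show -a.L X u ≤ 6 * X by linarith) hE.2 hE.1 (by positivity))
        (show 1 - y ^ 2 ≤ 1 by nlinarith only [sq_nonneg y]) hS0.le (by positivity)
      nlinarith only [mul_le_mul_of_nonneg_left this (sq_nonneg u)]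
    have e4 : X ^ 2 / 144 ≤ u ^ 2 * X ^ 4 := by
      have := mul_self_le_mul_self (by norm_num) hfar
      nlinarith only [mul_le_mul_of_nonneg_left this (sq_nonneg X)]
    have e5 : 7 * x + 8 ≤ X ^ 2 / 288 := by
      nlinarith only [hxs, hx32, pow_le_pow_left₀ (by norm_num) hx32 3]
    have e6 : 240 * (u ^ 2 * X) ≤ u ^ 2 * X ^ 4 := by
      have : 240 ≤ X ^ 3 := le_trans (by norm_num) (pow_le_pow_left₀ (by norm_num) hX 3)
      nlinarith only [mul_le_mul_of_nonneg_left this (mul_nonneg (sq_nonneg u) hX0.le)]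
    have e7 : u ^ 2 * X ^ 4 ≤ u ^ 2 * (polyR X a.p0 + E * polyR X a.p1 * (1 - y ^ 2) ^ 2) :=
      mul_le_mul_of_nonneg_left (hP0.trans (le_add_of_nonneg_right
        (mul_nonneg (mul_nonneg hE.1 hP1) (sq_nonneg _)))) (sq_nonneg u)
    linarith only [e1, e2, e3, e4, e5, e6, e7, hx32]

/-- The inequality beyond `X = 1024`. -/
theorem beyond (h : Big a) (hp : 127 ≤ p) (hk : 2 ≤ k) (hk17 : k ≤ 17) (hpt : Pt p k y t r lam)
    (hE : E ∈ Icc (0 : ℝ) 20) (hεL : (p : ℝ) * log lam ≤ E * tP p)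
    (hband : (y - t) * xP p y ≤ E * tP p * (1 - y ^ 2) * y) (hX : 1024 ≤ xP p y) :
    density p 0 a.g 1 1 (ellM a p c2) lam c2 y t r +
        (potFY p (potA a p) (potA' a p) (potW a) (potW' a) y t +
          potFT p (potA a p) (potW a) y t / r ^ p) ≤
      semi y ^ (p + 1) * (majZero p a.g 1 c2 y + tP p ^ 2 *
        ((polyR (xP p y) a.p0 + E * polyR (xP p y) a.p1 * (1 - y ^ 2) ^ 2) / (1 - y ^ 2))) := by
  obtain ⟨hy, ht, hr, hlam, -, hridge, -, -, -⟩ := id hpt
  have hp1 : 1 ≤ p := by omega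
  have hp2 : 2 ≤ p := by omega
  have hp' : (127 : ℝ) ≤ p := by exact_mod_cast hp
  have hu := tP_pos p
  have hu1 : tP p ≤ 1 / 129 := one_div_le_one_div_of_le (by norm_num) (by linarith)
  have hS0 : 0 < 1 - y ^ 2 := by nlinarith [hy.1, hy.2]
  have hXu : xP p y * tP p = y ^ 2 := xP_mul p y
  have hXu1 : xP p y * tP p < 1 := by linarith
  obtain ⟨⟨hR0, hR8⟩, ⟨hte0, hte1⟩, ⟨hL0, hL1⟩, ⟨hC0, hC1⟩, hQ, hqu⟩ := h.coef hX hu hu1 hXu1
  obtain ⟨hg0, hg1⟩ := h.hg
  obtain ⟨hc0, hc1⟩ := h.hc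
  have hP0 := h.p0 _ hX
  have hP1 := h.p1 _ hX
  have hX0 : 0 < xP p y := by linarith
  set x := √((p : ℝ) + 2) * y with hxd
  have hxs : x ^ 2 = xP p y := by
    rw [hxd, mul_pow, sq_sqrt (by positivity), xP]
  have hx32 : 32 ≤ x := by
    rw [hxd, Mid.sqrt_mul_y p hy.1.le]; exact Real.le_sqrt_of_sq_le (by rw [show XP p y = xP p y from rfl]; linarith)
  have hθ : High.ThetaOK (124 / 125) (1 / ((p : ℝ) + 2)) := by
    refine Or.inr ?_
    have hu' : tP p ≤ tP p / (1 - tP p) := by rw [le_div_iff₀ (by linarith)]; nlinarith only [hu, hu1]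
    show 124 / 125 ≤ 1 - 2 * tP p + 97 / 100 * (tP p / (1 - tP p))
    linarith
  have hwd : (r ^ p)⁻¹ * semi y ≤ 4 / 5 * x :=
    (High.reach_wide hp2 hy hr hpt.reach (by norm_num) hθ).trans (wide_big hx32)
  have hθm := maj_theta (a := a) hp1 hy (by linarith) hband
  have hτ : tP p / (1 - 2 * tP p) ≤ 1 / 127 := by
    rw [div_le_div_iff₀ (by linarith) (by norm_num)]; linarith
  have hτ0 : 0 ≤ tP p / (1 - 2 * tP p) := div_nonneg hu.le (by linarith)
  have hθb : -2 * a.te (tP p) * E * (1 - y ^ 2) * tP p * (tP p / (1 - 2 * tP p)) ≤ 1 / 500 := by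
    have e1 : -2 * a.te (tP p) * E * (1 - y ^ 2) ≤ 30 := by
      have := mul_le_mul (mul_le_mul (show -2 * a.te (tP p) ≤ 3 / 2 by linarith) hE.2 hE.1 (by norm_num))
        (show 1 - y ^ 2 ≤ 1 by nlinarith only [sq_nonneg y]) hS0.le (by norm_num)
      linarith
    exact (mul_le_mul (mul_le_mul e1 hu1 hu.le (by norm_num)) hτ hτ0 (by norm_num)).trans (by norm_num)
  have hK1 : a.K1 (xP p y) (tP p) ≤ 2 * a.te (tP p) * (1 - tP p) + 6 * (xP p y * tP p) := by
    rw [RPar.K1]; linarith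
  rw [Mid.pot_eq hy hr]
  rcases le_total (1 / 12) (xP p y * tP p) with hfar | hnear
  · rw [← Mid.pot_eq hy hr]
    exact beyond_far h hp hk hk17 hpt hE hεL hband hX hfar
  · have hy2 : y ^ 2 ≤ 1 / 12 := hXu ▸ hnear
    have hux : tP p * x ≤ 1 / 384 := by
      have : tP p * x * 32 ≤ xP p y * tP p := by
        rw [← hxs]; nlinarith only [hx32, mul_nonneg hu.le (show 0 ≤ x by linarith)]
      linarith
    have hK0 : majLr p a.g 1 1 (ellM a p c2) c2 y / p + majX p a.g 1 1 y * (t - y) / p ≤ 0 := by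
      rw [maj_k1 hp1]
      nlinarith only [hθm, hθb, hK1, hte1, hu1, hu, hnear]
    have hs : 957 / 1000 ≤ semi y := by
      refine Real.le_sqrt_of_sq_le ?_
      linarith
    have key := beyond_tail (c2 := c2) h hp hpt hE hεL hband hX hxs hx32 hux hy2 hK0
    rcases le_total (tP p) (1 / 10000) with hsmall | hbig
    · have hw := w_half hk hk17 hpt hxs hx32 hy2 hsmall hu
      refine key (x / 2) 0 hw le_rfl (by linarith) (by linarith) (by simpa using hC0) (by simpa using hX0.le) ?_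
      have h1 := mul_le_mul (pow_le_pow_left₀ hC0 hC1 2)
        (show x / 2 * (x / 2 + 1) ≤ 27 / 100 * xP p y by nlinarith only [hxs, hx32])
        (by positivity) (sq_nonneg _)
      have h2 := mul_le_mul_of_nonneg_left h.hd hX0.le
      simp only [zero_mul, sub_zero]
      linarith only [h1, h2]
    · set γ := a.C (xP p y) (tP p) / (xP p y * tP p) with hγd
      have hγ0 : 0 ≤ γ := div_nonneg hC0 (by positivity)
      have hγe : γ * xP p y * tP p = a.C (xP p y) (tP p) := by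
        rw [hγd, mul_assoc, div_mul_cancel₀ _ (by positivity)]
      have hw : (r ^ p)⁻¹ ≤ 21 / 25 * x := by
        have h1 := mul_le_mul_of_nonneg_left hs (inv_nonneg.2 (pow_nonneg hr.le p))
        linarith only [hwd, h1, hx32]
      refine key (21 / 25 * x) γ hw hγ0 (by linarith) le_rfl hγe.le ?_ ?_
      · refine le_of_mul_le_mul_right ?_ (show 0 < xP p y * tP p by positivity)
        rw [show γ * (21 / 25 * x - 1) * (1 - y ^ 2) * (xP p y * tP p) =
          γ * xP p y * tP p * ((21 / 25 * x - 1) * (1 - y ^ 2)) by ring, hγe]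
        have h1 := mul_le_mul (hC1.trans (show 2 * a.c ≤ 5 by linarith))
          (mul_le_mul (show 21 / 25 * x - 1 ≤ x by linarith)
            (show 1 - y ^ 2 ≤ 1 by nlinarith only [sq_nonneg y]) hS0.le (by linarith))
          (mul_nonneg (by linarith) hS0.le) (by norm_num)
        have h2 := mul_le_mul_of_nonneg_left hbig (show 0 ≤ 2 * xP p y * xP p y by positivity)
        have h3 : 5 * x ≤ xP p y * xP p y / 5000 := by
          nlinarith only [hxs, hx32, pow_le_pow_left₀ (by norm_num) hx32 3]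
        linarith only [h1, h2, h3]
      · rw [hγe, sub_self]
        have := h.hd
        nlinarith only [this, hX0, sq_nonneg a.c]

end Vale.Agent.P237.All.Transport.Middle
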