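import Vale.Agent.P237.All.Middle.CapSound

/-!
P237, every dimension, middle regime: a box that passes the test gives the pointwise inequality of
the certificate.
-/

noncomputable section

open Real Set

namespace Vale.Agent.P237.All.Transport.Middle

open Mid (Sg AF U U_pos U_ne Pt XP iA epsP eps_pos ups)

/-- A point that a profile failing the bound can reach, with the parameters of a cell. -/
structure Hyp (c : Cell) (p : ℕ) (k y t r lam E : ℝ) : Prop where
  hp : 127 ≤ p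
  hk : 2 ≤ k
  hkK : k ≤ rn c.K
  hK : c.K ≤ 285212672
  hg : rv c.a.g ∈ Icc (0 : ℝ) 1
  pt : Pt p k y t r lam
  hEk : k / (1 - k * tP p / 2) ≤ E
  hE : E ∈ Icc (rn c.E0) (rn c.E1)

/-- The pointwise inequality of the certificate. -/
def Target (a : RPar) (p : ℕ) (c2 y t r lam E : ℝ) : Prop :=
  density p 0 a.g 1 1 (ellM a p c2) lam c2 y t r +
      (potFY p (potA a p) (potA' a p) (potW a) (potW' a) y t +
        potFT p (potA a p) (potW a) y t / r ^ p) ≤
    semi y ^ (p + 1) * (majZero p a.g 1 c2 y + tP p ^ 2 *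
      ((polyR (xP p y) a.p0 + E * polyR (xP p y) a.p1 * (1 - y ^ 2) ^ 2) / (1 - y ^ 2)))

variable {c : Cell} {p : ℕ} {k y t r lam E : ℝ}

theorem rn_K_le (h : Hyp c p k y t r lam E) : k ≤ 17 := h.hkK.trans (K_le h.hK)

/-- The band behind `y` and the bound on `log lam`. -/
theorem Hyp.facts (h : Hyp c p k y t r lam E) :
    0 ≤ E ∧ (p : ℝ) * log lam ≤ E * tP p ∧
      (y - t) * xP p y ≤ E * tP p * (1 - y ^ 2) * y := by
  have hk0 : 0 ≤ k := le_trans (by norm_num) h.hk
  have hk17 := rn_K_le h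
  have hp : (127 : ℝ) ≤ p := by exact_mod_cast h.hp
  have hu := tP_pos p
  have hd : 0 < 1 - k * tP p / 2 := by
    have : tP p ≤ 1 / 129 := one_div_le_one_div_of_le (by norm_num) (by linarith)
    nlinarith [mul_le_mul hk17 this hu.le (by norm_num : (0 : ℝ) ≤ 17)]
  have hE0 : k ≤ E := le_trans (le_div_self hk0 hd (by linarith [mul_nonneg hk0 hu.le])) h.hEk
  refine ⟨hk0.trans hE0, ?_, ?_⟩
  · have hl0 : 0 < lam := lt_of_lt_of_le one_pos h.pt.hlam
    have hl := (Real.log_le_iff_le_exp (pow_pos hl0 _)).2 h.pt.hpow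
    rw [Real.log_pow] at hl
    push_cast at hl
    rw [le_div_iff₀ (by positivity)] at hl
    have hlog := Real.log_nonneg h.pt.hlam
    rw [tP, mul_one_div, le_div_iff₀ (by positivity)]
    refine le_trans ?_ hE0
    calc (p : ℝ) * log lam * ((p : ℝ) + 2) ≤ ((p : ℝ) + 1) * log lam * ((p : ℝ) + 1) := by
          linarith [hlog]
      _ ≤ k := hl
  · have hε := eps_pos p
    have he : epsP p ≤ 1 / 128 := one_div_le_one_div_of_le (by norm_num) (by linarith)
    have hk2 : k * epsP p < 2 := by nlinarith [mul_le_mul hk17 he hε.le (by norm_num : (0 : ℝ) ≤ 17)]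
    obtain ⟨hb, -⟩ := Mid.band h.pt hk0 hk2 (le_refl (1 / (1 + epsP p - k * epsP p / 2)))
    have hy := h.pt.hy.1
    have hX : 0 < xP p y := by unfold xP; positivity
    have hden : 0 < (p : ℝ) + 2 - k / 2 := by linarith
    have key : k * (1 / (1 + epsP p - k * epsP p / 2)) * epsP p = k / (1 - k * tP p / 2) * tP p := by
      simp only [epsP, tP]
      have e1 : 1 + 1 / ((p : ℝ) + 1) - k * (1 / ((p : ℝ) + 1)) / 2 =
          ((p : ℝ) + 2 - k / 2) / ((p : ℝ) + 1) := by field_simp; ring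
      have e2 : 1 - k * (1 / ((p : ℝ) + 2)) / 2 = ((p : ℝ) + 2 - k / 2) / ((p : ℝ) + 2) := by
        field_simp
      rw [e1, e2]; field_simp
    have h1 := mul_le_mul_of_nonneg_right hb (show 0 ≤ epsP p * y * xP p y by positivity)
    have e3 : -ups p y t * (epsP p * y * xP p y) = (y - t) * xP p y := by
      simp only [ups]; field_simp; ring
    have e4 : k * (1 / (1 + epsP p - k * epsP p / 2)) * (1 / XP p y - iA (epsP p)) *
        (epsP p * y * xP p y) = k / (1 - k * tP p / 2) * tP p * (1 - y ^ 2) * y := by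
      rw [← key, show XP p y = xP p y from rfl, Mid.eps_iA, show (1 : ℝ) / ((p : ℝ) + 2) = tP p from rfl,
        ← xP_mul p y]
      field_simp
    rw [e3, e4] at h1
    refine h1.trans (mul_le_mul_of_nonneg_right (mul_le_mul_of_nonneg_right
      (mul_le_mul_of_nonneg_right h.hEk hu.le) ?_) hy.le)
    nlinarith [h.pt.hy.1, h.pt.hy.2]

theorem mkBox_X {xl xh tl th : ℕ} {x : ℝ} (hl : xl ≤ xh) (h0 : rn xl ≤ x) (h1 : x ≤ rn xh) :
    x ∈ (mkBox c.a xl xh tl th).X := by
  have ha : (xl + xh) / 2 ≤ xh := by omega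
  have hb : 2 * (((xl + xh) / 2 : ℕ) : ℝ) ≤ xl + xh := by
    exact_mod_cast (Nat.mul_div_le (xl + xh) 2)
  simp only [Box.X, mkBox, Nat.add_eq, show ∀ a b, Nat.div a b = a / b from fun _ _ => rfl, Nat.sub_eq, Nat.cast_sub ha]
  constructor
  · refine le_trans (div_le_div_of_nonneg_right ?_ U_pos.le) h0
    linarith
  · refine h1.trans (le_of_eq ?_)
    simp [rn]

theorem mkBox_T {xl xh tl th : ℕ} {x : ℝ} (hl : tl ≤ th) (h0 : rn tl ≤ x) (h1 : x ≤ rn th) :
    x ∈ (mkBox c.a xl xh tl th).T := by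
  have ha : (tl + th) / 2 ≤ th := by omega
  have hb : 2 * (((tl + th) / 2 : ℕ) : ℝ) ≤ tl + th := by
    exact_mod_cast (Nat.mul_div_le (tl + th) 2)
  simp only [Box.T, mkBox, Nat.add_eq, show ∀ a b, Nat.div a b = a / b from fun _ _ => rfl, Nat.sub_eq, Nat.cast_sub ha]
  constructor
  · refine le_trans (div_le_div_of_nonneg_right ?_ U_pos.le) h0
    linarith
  · refine h1.trans (le_of_eq ?_)
    simp [rn]

variable {S T : ℝ}

theorem sideOk_sound (hS : |S| ≤ 1) (hT : |T| ≤ 1) {fR fC fB fS fQ fk fP : AF}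
    {R C B Sv Q κ P : ℝ} (hR : fR.Has S T R) (hC : fC.Has S T C) (hB : fB.Has S T B)
    (hS' : fS.Has S T Sv) (hQ : fQ.Has S T Q) (hk : fk.Has S T κ) (hP : fP.Has S T P)
    (h : sideOk fR fC fB (fB.mul fB) fS fQ fk fP = true) : Side R C B Sv Q κ P := by
  simp only [sideOk, AF.force_eq, Bool.and_eq_true, Bool.or_eq_true] at h
  obtain ⟨⟨⟨h1, h2⟩, h3⟩, h4⟩ := h
  have hB2 := hB.mul hB hS hT
  have hD := (has_scale ((hk.mul hS' hS hT).mul hQ hS hT) hS hT 4).sub (hC.mul hC hS hT)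
  have hCB := hC.mul hB hS hT
  have a2 := ps_sound h2 hD hS hT
  have a3 := nn_sound h3 ((has_scale ((hQ.mul hS' hS hT).mul hP hS hT) hS hT 4).sub hB2) hS hT
  push_cast at a2 a3
  refine ⟨ps_sound h1 hQ hS hT, by linarith only [a2, sq C], by linarith only [a3, sq B], ?_⟩
  rcases h4 with h4 | h4
  · left
    have a4 := nn_sound h4 ((has_scale ((hQ.mul hR hS hT).mul hS' hS hT) hS hT 2).add hCB).neg hS hT
    push_cast at a4
    linarith only [a4]
  · right
    have a4 := nn_sound h4 ((hD.mul hP hS hT).sub (((((hS'.mul hQ hS hT).mul (hR.mul hR hS hT) hS hT)).add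
      (hR.mul hCB hS hT)).add (hk.mul hB2 hS hT))) hS hT
    push_cast at a4
    linarith only [a4, sq R, sq B, sq C, mul_comm (κ * Sv * Q) P]

/-- A convex quadratic in `E` is bounded by its ends. -/
theorem convex_end {a b P E E0 E1 : ℝ} (ha : 0 ≤ a) (hE : E ∈ Icc E0 E1)
    (h0 : b * E0 + a * (E0 * E0) ≤ P) (h1 : b * E1 + a * (E1 * E1) ≤ P) :
    b * E + a * (E * E) ≤ P := by
  rcases eq_or_lt_of_le (hE.1.trans hE.2) with e | hlt
  · rw [show E = E0 from le_antisymm (e ▸ hE.2) hE.1]; exact h0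
  · refine le_of_mul_le_mul_left ?_ (sub_pos.2 hlt)
    nlinarith [mul_le_mul_of_nonneg_left h0 (sub_nonneg.2 hE.2),
      mul_le_mul_of_nonneg_left h1 (sub_nonneg.2 hE.1),
      mul_nonneg (mul_nonneg ha (sub_pos.2 hlt).le) (mul_nonneg (sub_nonneg.2 hE.1) (sub_nonneg.2 hE.2))]

/-- A box that passes gives the inequality at its points. -/
theorem boxOk_sound {c2 : ℝ} (h : Hyp c p k y t r lam E) {xl xh tl th : ℕ}
    (hth : th ≤ 131072) (hC : CapCst c.K th) (hxl : rn xl ≤ xP p y) (hxh : xP p y ≤ rn xh)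
    (htl : rn tl ≤ tP p) (hth' : tP p ≤ rn th) (hxle : xl ≤ xh) (htle : tl ≤ th) {pc : Piece}
    (hb : boxOk c xl xh tl th pc = true) : Target c.a.real p c2 y t r lam E := by
  obtain ⟨hE0, hεL, hband⟩ := h.facts
  obtain ⟨hy, ht, hr, hlam, -, hridge, -, -, -⟩ := id h.pt
  have hp1 : 1 ≤ p := le_trans (by norm_num) h.hp
  have hp2 : 2 ≤ p := le_trans (by norm_num) h.hp
  have hg0 : 0 ≤ c.a.real.g := h.hg.1
  have hg1 : c.a.real.g ≤ 1 := h.hg.2
  have hS0 : 0 < 1 - y ^ 2 := by nlinarith [hy.1, hy.2]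
  have hu := tP_pos p
  have hx0 : 0 < xP p y := by have := hy.1; unfold xP; positivity
  have hSx : 1 - xP p y * tP p = 1 - y ^ 2 := by rw [xP_mul]
  have hτ : tP p / (1 - 2 * tP p) = 1 / (p : ℝ) := by
    have : (0 : ℝ) < p := Nat.cast_pos.2 (by omega)
    have e : 1 - 2 * tP p = (p : ℝ) / ((p : ℝ) + 2) := by simp only [tP]; field_simp; ring
    rw [e, tP]; field_simp
  cases pc with
  | skip =>
    exfalso
    simp only [boxOk] at hb
    have := le_of_nn hb (((has_cst xl).mul (has_cst tl) z0 z0).sub has_one)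
    have := mul_le_mul hxl htl (rn_nonneg tl) hx0.le
    linarith only [hSx, hS0, this, le_of_nn hb (((has_cst xl).mul (has_cst tl) z0 z0).sub has_one)]
  | bulk W cp M kh kl =>
    simp only [boxOk, withVals, Bool.and_eq_true] at hb
    obtain ⟨hcap, ⟨hpiece, hv⟩, hv'⟩ := hb
    obtain ⟨V, hVk, S, T, hS, hT, hV⟩ := vals_sound c.a _ hpiece hv (mkBox_X (tl := tl) (th := th) hxle hxl hxh)
      (mkBox_T (xl := xl) (xh := xh) htle htl hth')
    rw [hVk] at hv'
    simp only [bulkOk, AF.force_eq, Bool.and_eq_true] at hv'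
    obtain ⟨⟨⟨⟨⟨⟨⟨⟨⟨b1, b2⟩, b3⟩, b4⟩, b5⟩, b6⟩, b7⟩, b8⟩, b9⟩, b10⟩ := hv'
    obtain ⟨gX, gt, -, gτ, gte, gS, gR, gL, gC, gQ, gK, gP0, gP1⟩ := hV
    rw [hSx] at gS
    have hte : c.a.real.te (tP p) ≤ 0 := neg_nonneg.1 (nn_sound b1 gte.neg hS hT)
    have hP1 : 0 ≤ polyR (xP p y) c.a.real.p1 := nn_sound b2 gP1 hS hT
    have cW := has_cst (S := S) (T := T) W
    have h1' : (cN 1).Has S T 1 := has_one
    have h4' : (cN 4).Has S T 4 := by simpa using has_cN (S := S) (T := T) 4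
    have hW1 : 1 ≤ rn W := sub_nonneg.1 (nn_sound b5 (cW.sub h1') hS hT)
    have hθf : (thetaAF V c.E1).Has S T
        (2 * c.a.real.te (tP p) * rn c.E1 * ((1 - y ^ 2) * tP p) * (tP p / (1 - 2 * tP p))) := by
      have := (((has_scale gte hS hT 2).mul (has_cst c.E1) hS hT).mul (gS.mul gt hS hT) hS hT).mul gτ hS hT
      push_cast at this
      exact this
    have b6' := nn_sound b6 (((has_cst M).mul gS hS hT).sub
      (((has_scale gS hS hT 4).add gK).sub hθf)) hS hT
    have b7' := nn_sound b7 (((h4'.add (gτ.mul (has_scale (cW.inv hS hT (ps_posPart b3)) hS hT 4) hS hT)).sub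
      ((has_cst M).mul ((cW.mul ((cW.add h1').inv hS hT (ps_posPart b4)) hS hT).add
        (gτ.mul has_half hS hT)) hS hT)).sub ((has_cst kh).mul cW hS hT)) hS hT
    have b8' := nn_sound b8 (((h4'.add (has_scale gτ hS hT 4)).sub
      ((has_cst M).mul (has_half.add (gτ.mul has_half hS hT)) hS hT)).sub (has_cst kl)) hS hT
    have hB := gX.mul (gL.add (gS.mul gP1 hS hT)) hS hT
    have hhi := sideOk_sound hS hT gR gC hB gS gQ (has_cst kh) gP0 b9
    have hlo := sideOk_sound hS hT gR.neg gC.neg hB gS (gQ.add (has_scale (gX.mul gt hS hT) hS hT 4))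
      (has_cst kl) gP0 b10
    push_cast at b6' b7' b8' hlo
    rw [hτ] at b7' b8'
    rw [← mul_assoc 4] at hlo
    have hcW := capOk_sound h.pt h.hp h.hk h.hkK h.hK hth hC hth' htl hxl hxh hW1 hcap
    unfold Target
    rw [Mid.pot_eq hy hr]
    refine bulk_le p hp2 hy hr hg0 hg1 rfl rfl rfl (maj_re hp1) (maj_le hy) (maj_cross hp1 hy) (maj_sq hy)
      ?_ (rn_nonneg M) hband hP1 (fun _ => hcW) hW1 (rn_nonneg kh) (rn_nonneg kl)
      ?_ ?_ hhi hlo
    · rw [majKw, maj_k1 hp1, show majKp 1 1 y (t - y) = 4 * (1 - y ^ 2) by rw [majKp, majC]; ring]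
      have h1 := maj_theta hp1 hy hte hband
      have h2 : -2 * c.a.real.te (tP p) * E * (1 - y ^ 2) * tP p * (tP p / (1 - 2 * tP p)) ≤
          -2 * c.a.real.te (tP p) * rn c.E1 * (1 - y ^ 2) * tP p * (tP p / (1 - 2 * tP p)) := by
        have : 0 ≤ tP p / (1 - 2 * tP p) := hτ ▸ by positivity
        refine mul_le_mul_of_nonneg_right (mul_le_mul_of_nonneg_right (mul_le_mul_of_nonneg_right
          (mul_le_mul_of_nonneg_left h.hE.2 (by linarith only [hte])) hS0.le) hu.le) this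
      linarith only [h1, h2, b6']
    · rw [show 1 / (2 * (p : ℝ)) = 1 / (p : ℝ) * (1 / 2) by field_simp]
      linarith only [b8']
    · rw [show 1 / (2 * (p : ℝ)) = 1 / (p : ℝ) * (1 / 2) by field_simp,
        show 1 / ((p : ℝ) * rn W) = 1 / (p : ℝ) * (rn W)⁻¹ by field_simp,
        div_eq_mul_inv (rn W)]
      linarith only [b7']
  | tail W cp Kb l kT gm =>
    simp only [boxOk, withVals, Bool.and_eq_true] at hb
    obtain ⟨hcap, ⟨hpiece, hv⟩, hv'⟩ := hb
    obtain ⟨V, hVk, S, T, hS, hT, hV⟩ := vals_sound c.a _ hpiece hv (mkBox_X (tl := tl) (th := th) hxle hxl hxh)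
      (mkBox_T (xl := xl) (xh := xh) htle htl hth')
    rw [hVk] at hv'
    simp only [tailOk, AF.force_eq, Bool.and_eq_true] at hv'
    obtain ⟨⟨⟨⟨⟨⟨⟨⟨⟨⟨⟨⟨⟨⟨b1, b2⟩, b3⟩, b4⟩, b5⟩, b6⟩, b7⟩, b8⟩, b9⟩, b10⟩, b11⟩, b12⟩, b13⟩, b14⟩, b15⟩ := hv'
    obtain ⟨gX, gt, -, gτ, gte, gS, gR, gL, gC, gQ, gK, gP0, gP1⟩ := hV
    rw [hSx] at gS
    have hte : c.a.real.te (tP p) ≤ 0 := neg_nonneg.1 (nn_sound b1 gte.neg hS hT)
    have hR : 0 ≤ c.a.real.R (xP p y) := nn_sound b2 gR hS hT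
    have cW := has_cst (S := S) (T := T) W
    have cKb := has_cst (S := S) (T := T) Kb
    have h1' : (cN 1).Has S T 1 := has_one
    have h4' : (cN 4).Has S T 4 := by simpa using has_cN (S := S) (T := T) 4
    have hW1 : 1 ≤ rn W := sub_nonneg.1 (nn_sound b4 (cW.sub h1') hS hT)
    have hlog := logOk_sound b5 (by linarith only [hW1])
    have hθf : (thetaAF V c.E1).Has S T
        (2 * c.a.real.te (tP p) * rn c.E1 * ((1 - y ^ 2) * tP p) * (tP p / (1 - 2 * tP p))) := by
      have := (((has_scale gte hS hT 2).mul (has_cst c.E1) hS hT).mul (gS.mul gt hS hT) hS hT).mul gτ hS hT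
      push_cast at this
      exact this
    have hρ := (cW.add h1').mul has_half hS hT
    have hR1 := gR.mul hρ hS hT
    have hlt := (has_cst l).mul gt hS hT
    have hXt := gX.mul gt hS hT
    have hcc := gC.sub ((has_cst gm).mul hXt hS hT)
    have hY := (gQ.mul gS hS hT).sub ((gX.mul ((has_half.sub gt).add hlt) hS hT).mul
      (gt.mul hR1 hS hT) hS hT)
    have hb' := ((hR1.sub gL).mul gS hS hT).sub (gP1.mul (gS.mul gS hS hT) hS hT)
    have hcf := (gC.mul gS hS hT).mul (gX.inv hS hT (ps_posPart b3)) hS hT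
    have hd := has_scale (h4'.sub cKb) hS hT 2
    have b7' := ps_sound b7 hd hS hT
    have hcf2 := (hcf.mul hcf hS hT).mul (hd.inv hS hT (ps_posPart b7)) hS hT
    have b8' := nn_sound b8 ((cKb.mul gS hS hT).sub (gK.sub hθf)) hS hT
    have b9' := nn_sound b9 (((has_scale ((cW.add h1').inv hS hT (ps_posPart b6)) hS hT 4).sub
      (cKb.mul ((cW.mul ((cW.add h1').inv hS hT (ps_posPart b6)) hS hT).add
        (gτ.mul has_half hS hT)) hS hT)).sub (has_cst kT)) hS hT
    have b10' := nn_sound b10 ((gL.add (hR1.mul ((h1'.sub (gt.add gt)).add (hlt.add hlt)) hS hT)).add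
      (((has_cst gm).mul (cW.sub h1') hS hT).mul gS hS hT)).neg hS hT
    have b11' := nn_sound b11 hcc hS hT
    have b12' := nn_sound b12 hY hS hT
    have b13' := nn_sound b13 ((has_scale ((has_cst kT).mul hY hS hT) hS hT 4).sub
      ((hcc.mul hcc hS hT).mul cW hS hT)) hS hT
    have e0 := has_cst (S := S) (T := T) c.E0
    have e1 := has_cst (S := S) (T := T) c.E1
    have b14' := nn_sound b14 (gP0.sub ((hb'.mul e0 hS hT).add
      (hcf2.mul (e0.mul e0 hS hT) hS hT))) hS hT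
    have b15' := nn_sound b15 (gP0.sub ((hb'.mul e1 hS hT).add
      (hcf2.mul (e1.mul e1 hS hT) hS hT))) hS hT
    push_cast at b7' b9' b13' b14' b15'
    rw [hτ] at b9'
    have hKb4 : rn Kb < 4 := by linarith only [b7']
    have hcap' := capOk_sound h.pt h.hp h.hk h.hkK h.hK hth hC hth' htl hxl hxh hW1 hcap
    unfold Target
    rw [Mid.pot_eq hy hr]
    refine tail_le p hp2 (X := xP p y) (tt := tP p) (S := 1 - y ^ 2) (W := rn W) (ℓ := rn l) (Kb := rn Kb) (κT := rn kT) (γ := rn gm) hy ht hr hg0 hg1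
      hlam hridge hE0 hεL rfl rfl rfl (maj_re hp1) (maj_le hy) (maj_cross hp1 hy) (maj_sq hy)
      ?_ (rn_nonneg Kb) hband (fun _ => hcap') hW1 hlog hR (rn_nonneg gm) ?_ ?_ ?_ ?_ (rn_nonneg kT) hKb4 ?_ ?_
    · rw [maj_k1 hp1]
      have h1 := maj_theta hp1 hy hte hband
      have h2 : -2 * c.a.real.te (tP p) * E * (1 - y ^ 2) * tP p * (tP p / (1 - 2 * tP p)) ≤
          -2 * c.a.real.te (tP p) * rn c.E1 * (1 - y ^ 2) * tP p * (tP p / (1 - 2 * tP p)) := by
        have : 0 ≤ tP p / (1 - 2 * tP p) := hτ ▸ by positivity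
        refine mul_le_mul_of_nonneg_right (mul_le_mul_of_nonneg_right (mul_le_mul_of_nonneg_right
          (mul_le_mul_of_nonneg_left h.hE.2 (by linarith only [hte])) hS0.le) hu.le) this
      linarith only [h1, h2, b8']
    · linarith only [b11']
    · linarith only [b10']
    · linarith only [b12']
    · rw [show 1 / (2 * (p : ℝ)) = 1 / (p : ℝ) * (1 / 2) by field_simp, div_eq_mul_inv 4,
        div_eq_mul_inv (rn W)]
      linarith only [b9']
    · refine le_trans (le_of_eq ?_) ((sub_nonneg.1 b13').trans (le_of_eq ?_)) <;> ring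
    · set bb := (c.a.real.R (xP p y) * ((rn W + 1) * (1 / 2)) - c.a.real.L (xP p y) (tP p)) * (1 - y ^ 2) -
        polyR (xP p y) c.a.real.p1 * ((1 - y ^ 2) * (1 - y ^ 2)) with hbb
      set aa := c.a.real.C (xP p y) (tP p) * (1 - y ^ 2) * (xP p y)⁻¹ *
        (c.a.real.C (xP p y) (tP p) * (1 - y ^ 2) * (xP p y)⁻¹) * (2 * (4 - rn Kb))⁻¹ with haa
      have ha : 0 ≤ aa := mul_nonneg (mul_self_nonneg _) (inv_nonneg.2 b7'.le)
      have hcv := convex_end ha h.hE (sub_nonneg.1 b14') (sub_nonneg.1 b15')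
      have e : c.a.real.C (xP p y) (tP p) ^ 2 * E ^ 2 * (1 - y ^ 2) ^ 2 /
          (2 * (4 - rn Kb) * xP p y ^ 2) = aa * (E * E) := by
        rw [haa]; field_simp
      rw [e, hbb] at *
      linarith only [hcv]
  | far x0 x1 wd kk =>
    simp only [boxOk, withVals, Bool.and_eq_true] at hb
    obtain ⟨⟨hpiece, hv⟩, hv'⟩ := hb
    obtain ⟨V, hVk, S, T, hS, hT, hV⟩ := vals_sound c.a _ hpiece hv (mkBox_X (tl := tl) (th := th) hxle hxl hxh)
      (mkBox_T (xl := xl) (xh := xh) htle htl hth')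
    rw [hVk] at hv'
    simp only [farOk, AF.force_eq, wideUp_eq, Bool.and_eq_true] at hv'
    obtain ⟨⟨⟨⟨⟨⟨⟨⟨⟨⟨⟨⟨⟨b0, a1⟩, a2⟩, a3⟩, a4⟩, b1⟩, b2⟩, b3⟩, b4⟩, b5⟩, b6⟩, b7⟩, b8⟩, b9⟩ := hv'
    obtain ⟨gX, gt, -, gτ, gte, gS, gR, gL, gC, gQ, gK, gP0, gP1⟩ := hV
    rw [hSx] at gS
    have h1 := le_of_nn a1 (((has_cst x1).mul (has_cst x1) z0 z0).sub (has_cst xh))
    have h2 := le_of_nn a2 ((has_cst xl).sub ((has_cst x0).mul (has_cst x0) z0 z0))
    obtain ⟨hw, -, hwle⟩ := wide_sound b0 h.pt h.hp (le_trans (by linarith only [h2, sq (rn x0)]) hxl)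
      (hxh.trans (by linarith only [h1, sq (rn x1)]))
    have h3 := le_of_nn a3 ((has_cst wd).sub hw)
    have hc0 : 0 ≤ c.a.real.c := by
      have := Sg.le_iff a4
      rw [Sg.ofN_v, Nat.cast_zero] at this
      exact div_nonneg this U_pos.le
    have hte : c.a.real.te (tP p) ≤ 0 := neg_nonneg.1 (nn_sound b1 gte.neg hS hT)
    have hR : 0 ≤ c.a.real.R (xP p y) := nn_sound b2 gR hS hT
    have hQ : 0 ≤ c.a.real.Q (xP p y) (tP p) := nn_sound b3 gQ hS hT
    have ck := has_cst (S := S) (T := T) kk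
    have cw := has_cst (S := S) (T := T) wd
    have hθf : (thetaAF V c.E1).Has S T
        (2 * c.a.real.te (tP p) * rn c.E1 * ((1 - y ^ 2) * tP p) * (tP p / (1 - 2 * tP p))) := by
      have := (((has_scale gte hS hT 2).mul (has_cst c.E1) hS hT).mul (gS.mul gt hS hT) hS hT).mul gτ hS hT
      push_cast at this
      exact this
    have hti := gt.inv hS hT (ps_posPart b5)
    have hS2 := gS.mul gS hS hT
    have ha0 := (((((gt.mul gR hS hT).add ck).mul cw hS hT).add
      ((ck.mul ck hS hT).mul (has_cst 2097152) hS hT)).mul hti hS hT).mul hti hS hT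
    have hb' := (((gC.mul hS2 hS hT).mul (gX.inv hS hT (ps_posPart b4)) hS hT).mul hti hS hT).sub
      ((gL.mul gS hS hT).add (gP1.mul hS2 hS hT))
    have b6' := nn_sound b6 (ck.sub (gK.sub hθf)) hS hT
    have b7' := nn_sound b7 (((gX.mul gt hS hT).mul gL hS hT).add (gC.mul cw hS hT)).neg hS hT
    have b8' := nn_sound b8 (gP0.sub (ha0.add (hb'.mul (has_cst c.E0) hS hT))) hS hT
    have b9' := nn_sound b9 (gP0.sub (ha0.add (hb'.mul (has_cst c.E1) hS hT))) hS hT
    have hC0 : 0 ≤ c.a.real.C (xP p y) (tP p) := by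
      rw [RPar.C, hSx]
      have : 0 ≤ tP p / (1 - 2 * tP p) := hτ ▸ by positivity
      have h1 : 0 ≤ 2 * c.a.real.c * (1 - y ^ 2) := by positivity
      have h2 : 2 * xP p y * c.a.real.te (tP p) * (tP p / (1 - 2 * tP p)) ≤ 0 :=
        mul_nonpos_of_nonpos_of_nonneg (mul_nonpos_of_nonneg_of_nonpos (by positivity) hte) this
      linarith only [h1, h2]
    unfold Target
    rw [Mid.pot_eq hy hr]
    refine far_le p hp2 (X := xP p y) (tt := tP p) (S := 1 - y ^ 2) (wd := rn wd) (k := rn kk) hy hr hg0 hg1 hE0 rfl rfl rfl (maj_re hp1) (maj_le hy)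
      (maj_cross hp1 hy) (maj_sq hy) ?_ (rn_nonneg kk) ht.2 hband
      (fun _ => hwle.trans (by linarith only [h3])) (rn_nonneg wd) hR hC0 hQ ?_ ?_
    · rw [maj_k1 hp1]
      have h1 := maj_theta hp1 hy hte hband
      have h2 : -2 * c.a.real.te (tP p) * E * (1 - y ^ 2) * tP p * (tP p / (1 - 2 * tP p)) ≤
          -2 * c.a.real.te (tP p) * rn c.E1 * (1 - y ^ 2) * tP p * (tP p / (1 - 2 * tP p)) := by
        have : 0 ≤ tP p / (1 - 2 * tP p) := hτ ▸ by positivity
        refine mul_le_mul_of_nonneg_right (mul_le_mul_of_nonneg_right (mul_le_mul_of_nonneg_right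
          (mul_le_mul_of_nonneg_left h.hE.2 (by linarith only [hte])) hS0.le) hu.le) this
      linarith only [h1, h2, b6']
    · linarith only [b7']
    · set a0 := ((tP p * c.a.real.R (xP p y) + rn kk) * rn wd + rn kk * rn kk * rn 2097152) *
        (tP p)⁻¹ * (tP p)⁻¹ with ha0
      set bb := c.a.real.C (xP p y) (tP p) * ((1 - y ^ 2) * (1 - y ^ 2)) * (xP p y)⁻¹ * (tP p)⁻¹ -
        (c.a.real.L (xP p y) (tP p) * (1 - y ^ 2) +
          polyR (xP p y) c.a.real.p1 * ((1 - y ^ 2) * (1 - y ^ 2))) with hbb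
      have hcv := convex_end (le_refl (0 : ℝ)) h.hE (b := bb) (P := polyR (xP p y) c.a.real.p0 - a0)
        (by linarith only [b8']) (by linarith only [b9'])
      have hm := mul_le_mul_of_nonneg_left hcv (sq_nonneg (tP p))
      have e : tP p ^ 2 * (polyR (xP p y) c.a.real.p0 + E * polyR (xP p y) c.a.real.p1 * (1 - y ^ 2) ^ 2) -
          ((tP p * c.a.real.R (xP p y) + rn kk) * rn wd +
            c.a.real.C (xP p y) (tP p) * E * tP p * (1 - y ^ 2) ^ 2 / xP p y + rn kk ^ 2 / 8 -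
            tP p ^ 2 * c.a.real.L (xP p y) (tP p) * E * (1 - y ^ 2)) =
          tP p ^ 2 * (polyR (xP p y) c.a.real.p0 - a0) - tP p ^ 2 * (bb * E + 0 * (E * E)) := by
        rw [ha0, hbb, show rn 2097152 = 1 / 8 by norm_num [rn, U]]
        field_simp
        ring
      linarith only [hm, e]

/-- A slice that passes gives the inequality at its points. -/
theorem sliceOk_sound {c2 : ℝ} (h : Hyp c p k y t r lam E) {tl th top : ℕ}
    (hth : th ≤ 131072) (hC : CapCst c.K th) (htl : rn tl ≤ tP p) (hth' : tP p ≤ rn th)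
    (hx : xP p y ≤ rn top) :
    ∀ (L : List (ℕ × Piece)) (lo : ℕ), sliceOk c tl th top L lo = true → rn lo ≤ xP p y →
      Target c.a.real p c2 y t r lam E ∨ xP p y = rn top
  | [], lo, hs, hlo => Or.inr (le_antisymm hx ((rn_le (Nat.le_of_ble_eq_true hs)).trans hlo))
  | (hi, pc) :: L, lo, hs, hlo => by
    simp only [sliceOk, Bool.and_eq_true] at hs
    obtain ⟨⟨h1, h2⟩, h3⟩ := hs
    rcases le_total (xP p y) (rn hi) with hxi | hxi
    · have htle : tl ≤ th := by
        have := htl.trans hth'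
        rw [rn, rn, div_le_div_iff_of_pos_right U_pos, Nat.cast_le] at this
        exact this
      exact Or.inl (boxOk_sound h hth hC hlo hxi htl hth' (Nat.le_of_ble_eq_true h1) htle h2)
    · exact sliceOk_sound h hth hC htl hth' hx L hi h3 hxi

end Vale.Agent.P237.All.Transport.Middle
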