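import Vale.Agent.P237.All.Middle.CapSound
import Vale.Agent.P237.All.CertTools

/-!
P237, every dimension, middle regime: the integral of the bound is negative.  The moments of
`X = (p + 2) y ^ 2` against `semi ^ (p - 1)` are products of `(2 j + 1) / (1 + 2 j t)`; the test runs
over intervals of `t` at the two ends of `k`.
-/

noncomputable section

open Real Set MeasureTheory intervalIntegral

namespace Vale.Agent.P237.All.Transport.Middle

open Mid (Sg AF U)

/-- The moment of order `s`. -/
def momR (t : ℝ) : ℕ → ℝ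
  | 0 => 1
  | s + 1 => momR t s * ((2 * (s : ℝ) + 1) / (1 + 2 * (s : ℝ) * t))

/-- A polynomial against the moments, from order `s` on. -/
def momSumR (t : ℝ) : List ℝ → ℕ → ℝ
  | [], _ => 0
  | n :: l, s => n * momR t s + momSumR t l (s + 1)

theorem momR_pos {t : ℝ} (ht : 0 ≤ t) : ∀ s, 0 < momR t s
  | 0 => one_pos
  | s + 1 => mul_pos (momR_pos ht s) (by positivity)

/-- The value of the moment in forms. -/
def momAF (t : AF) : ℕ → AF
  | 0 => cN 1
  | s + 1 => (momAF t s).mul ((cN (2 * s + 1)).mul ((cN 1).add (t.scale (2 * s) 1)).inv)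

/-- The denominators are positive. -/
def momOk (t : AF) : ℕ → Bool
  | 0 => true
  | s + 1 => momOk t s && ps ((cN 1).add (t.scale (2 * s) 1))

/-- The sum in forms. -/
def momSumAF (t : AF) : List Sg → ℕ → AF
  | [], _ => AF.const ⟨0, 0⟩
  | n :: l, s => ((AF.const n).mul (momAF t s)).add (momSumAF t l (s + 1))

/-- The test of the budget on an interval of `t` at the end `k`. -/
def budgetOk (a : Par) (sg k tl th : ℕ) : Bool :=
  (AF.force ⟨⟨Nat.div (Nat.add tl th) 2, 0⟩, ⟨0, 0⟩, ⟨Nat.sub th (Nat.div (Nat.add tl th) 2), 0⟩, 0⟩) fun t =>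
  momOk t (List.length a.p0) && momOk t (Nat.add (List.length a.p1) 2) &&
  ps ((((AF.const a.g).mul (cst k)).scale 2 1).sub ((momSumAF t a.p0 0).add (((cst k).mul (cst sg)).mul
    (((momSumAF t a.p1 0).sub ((t.scale 2 1).mul (momSumAF t a.p1 1))).add
      ((t.mul t).mul (momSumAF t a.p1 2))))))

variable {S T : ℝ}

theorem momOk_le {t : AF} : ∀ {n : ℕ}, momOk t n = true → ∀ m ≤ n, momOk t m = true
  | 0, h, m, hm => by rw [Nat.le_zero.1 hm]; exact h
  | n + 1, h, m, hm => by
    rcases Nat.eq_or_lt_of_le hm with e | e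
    · exact e ▸ h
    · simp only [momOk, Bool.and_eq_true] at h
      exact momOk_le h.1 m (Nat.lt_succ_iff.1 e)

theorem has_momAF (hS : |S| ≤ 1) (hT : |T| ≤ 1) {t : AF} {u : ℝ} (ht : t.Has S T u) :
    ∀ s, momOk t s = true → (momAF t s).Has S T (momR u s)
  | 0, _ => has_one
  | s + 1, h => by
    simp only [momOk, Bool.and_eq_true] at h
    have hd := has_one.add (has_scale ht hS hT (2 * s))
    have := (has_momAF hS hT ht s h.1).mul ((has_cN (2 * s + 1)).mul
      (hd.inv hS hT (ps_posPart h.2)) hS hT) hS hT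
    push_cast at this
    rwa [← div_eq_mul_inv] at this

theorem has_momSum (hS : |S| ≤ 1) (hT : |T| ≤ 1) {t : AF} {u : ℝ} (ht : t.Has S T u) :
    ∀ (l : List Sg) (s n : ℕ), momOk t n = true → s + l.length ≤ n →
      (momSumAF t l s).Has S T (momSumR u (l.map rv) s)
  | [], _, _, _, _ => by simpa [momSumR, momSumAF, rv, Sg.v] using has_c (S := S) (T := T) ⟨0, 0⟩
  | a :: l, s, n, h, hl => by
    simp only [List.length_cons] at hl
    exact ((has_c a).mul (has_momAF hS hT ht s (momOk_le h s (by omega))) hS hT).add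
      (has_momSum hS hT ht l (s + 1) n h (by omega))

/-- The mean of `P0 + E P1 S ^ 2`. -/
def meanPi (a : RPar) (E u : ℝ) : ℝ :=
  momSumR u a.p0 0 + E * (momSumR u a.p1 0 - 2 * u * momSumR u a.p1 1 + u * u * momSumR u a.p1 2)

theorem budgetOk_sound {a : Par} {sg k tl th : ℕ} (h : budgetOk a sg k tl th = true) (htl : tl ≤ th)
    {u : ℝ} (h0 : rn tl ≤ u) (h1 : u ≤ rn th) :
    meanPi a.real (rn k * rn sg) u < 2 * a.real.g * rn k := by
  have ha : (tl + th) / 2 ≤ th := by omega
  obtain ⟨T, hT, eT⟩ := param_mem (c := (tl + th) / 2) (h := th - (tl + th) / 2) (x := u) (by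
    have hb : 2 * (((tl + th) / 2 : ℕ) : ℝ) ≤ tl + th := by
      exact_mod_cast (Nat.mul_div_le (tl + th) 2)
    rw [Nat.cast_sub ha]
    constructor
    · refine le_trans (div_le_div_of_nonneg_right ?_ Mid.U_pos.le) h0
      linarith
    · refine h1.trans (le_of_eq ?_)
      simp [rn])
  have hS : |(0 : ℝ)| ≤ 1 := z0
  have ht : (⟨⟨(tl + th) / 2, 0⟩, ⟨0, 0⟩, ⟨th - (tl + th) / 2, 0⟩, 0⟩ : AF).Has 0 T u := by
    simp [AF.Has, Sg.v, eT]
  simp only [budgetOk, AF.force_eq, Bool.and_eq_true] at h
  simp only [Nat.add_eq, show ∀ a b, Nat.div a b = a / b from fun _ _ => rfl, Nat.sub_eq] at h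
  obtain ⟨⟨m0, m1⟩, h3⟩ := h
  have hsum : ∀ (l : List Sg) (s n : ℕ), momOk _ n = true → s + l.length ≤ n → _ :=
    has_momSum hS hT ht
  have := ps_sound h3 ((has_scale ((has_c a.g).mul (has_cst k) hS hT) hS hT 2).sub
    ((hsum a.p0 0 _ m0 (by omega)).add ((((has_cst k).mul (has_cst sg) hS hT)).mul
      ((((hsum a.p1 0 _ m1 (by omega))).sub ((has_scale ht hS hT 2).mul (hsum a.p1 1 _ m1 (by omega))
        hS hT)).add ((ht.mul ht hS hT).mul (hsum a.p1 2 _ m1 (by omega)) hS hT)) hS hT))) hS hT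
  push_cast at this
  simp only [meanPi, Par.real]
  linarith

/-- A polynomial in `X` against `semi ^ q`. -/
theorem integral_poly (q : ℕ) : ∀ (l : List ℝ) (s : ℕ),
    ∫ y in (0 : ℝ)..1, (((q : ℝ) + 3) * y ^ 2) ^ s * polyR (((q : ℝ) + 3) * y ^ 2) l * semi y ^ q =
      momSumR (1 / ((q : ℝ) + 3)) l s * mass q semi 1
  | [], s => by simp [polyR, momSumR]
  | n :: l, s => by
    have hs := semi_continuous
    have hpoly : Continuous fun y : ℝ => polyR (((q : ℝ) + 3) * y ^ 2) l := by
      induction l with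
      | nil => simp only [polyR]; exact continuous_const
      | cons a l ih => simp only [polyR]; fun_prop
    have e : (fun y : ℝ => (((q : ℝ) + 3) * y ^ 2) ^ s * polyR (((q : ℝ) + 3) * y ^ 2) (n :: l) *
        semi y ^ q) = fun y => n * ((((q : ℝ) + 3) * y ^ 2) ^ s * semi y ^ q) +
          (((q : ℝ) + 3) * y ^ 2) ^ (s + 1) * polyR (((q : ℝ) + 3) * y ^ 2) l * semi y ^ q := by
      funext y; simp only [polyR]; ring
    have hmom : ∀ j : ℕ, ∫ y in (0 : ℝ)..1, (((q : ℝ) + 3) * y ^ 2) ^ j * semi y ^ q =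
        momR (1 / ((q : ℝ) + 3)) j * mass q semi 1 := by
      intro j
      induction j with
      | zero => simp [momR, mass_semi]
      | succ j ih =>
        have h := moment_step q (2 * j)
        have e1 : ∀ i : ℕ, ∫ y in (0 : ℝ)..1, (((q : ℝ) + 3) * y ^ 2) ^ i * semi y ^ q =
            ((q : ℝ) + 3) ^ i * ∫ y in (0 : ℝ)..1, y ^ (2 * i) * semi y ^ q := by
          intro i
          rw [← intervalIntegral.integral_const_mul]
          congr 1; funext y; rw [mul_pow, ← pow_mul]; ring
        have e2 : ∫ y in (0 : ℝ)..1, y ^ (2 * j) * semi y ^ (q + 2) =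
            (∫ y in (0 : ℝ)..1, y ^ (2 * j) * semi y ^ q) -
              ∫ y in (0 : ℝ)..1, y ^ (2 * j + 2) * semi y ^ q := by
          rw [← intervalIntegral.integral_sub
            ((show Continuous fun y : ℝ => y ^ (2 * j) * semi y ^ q by fun_prop).intervalIntegrable _ _)
            ((show Continuous fun y : ℝ => y ^ (2 * j + 2) * semi y ^ q by fun_prop).intervalIntegrable _ _)]
          refine intervalIntegral.integral_congr fun y hy => ?_
          rw [uIcc_of_le zero_le_one] at hy
          simp only [pow_add, semi_sq (t := y) ⟨by linarith [hy.1], hy.2⟩]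
          ring
        rw [e2] at h
        push_cast at h
        rw [e1] at ih
        rw [e1, momR, show 2 * (j + 1) = 2 * j + 2 by ring, pow_succ]
        generalize ∫ y in (0 : ℝ)..1, y ^ (2 * j + 2) * semi y ^ q = A at h ⊢
        generalize ∫ y in (0 : ℝ)..1, y ^ (2 * j) * semi y ^ q = B at h ih
        have hd : 0 < (q : ℝ) + 3 + 2 * j := by positivity
        have hA : A = (2 * (j : ℝ) + 1) / ((q : ℝ) + 3 + 2 * j) * B := by
          field_simp; linarith
        rw [hA]
        have e3 : (2 * (j : ℝ) + 1) / (1 + 2 * (j : ℝ) * (1 / ((q : ℝ) + 3))) =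
            ((q : ℝ) + 3) * ((2 * (j : ℝ) + 1) / ((q : ℝ) + 3 + 2 * j)) := by
          field_simp
        rw [e3]
        linear_combination (((q : ℝ) + 3) * ((2 * (j : ℝ) + 1) / ((q : ℝ) + 3 + 2 * j))) * ih
    rw [e, intervalIntegral.integral_add
      ((show Continuous _ by fun_prop).intervalIntegrable _ _)
      ((show Continuous _ by fun_prop).intervalIntegrable _ _),
      intervalIntegral.integral_const_mul, hmom, integral_poly q l (s + 1), momSumR]
    ring

end Vale.Agent.P237.All.Transport.Middle
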