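import Vale.Agent.P237.All.TailExplicit

/-!
P237, every dimension, middle regime: the cap on `w` that `TailCap` gives at the point `y` itself,
and the elementary bounds that make it rational (`notes/P237h3/middle-template-b1-02Dec.md`).
-/

noncomputable section

open MeasureTheory Set Filter Real intervalIntegral

namespace Vale.Agent.P237.All.Transport.Middle

open Upper (mills mills_pos tail_ge2)

/-- The cap on `w` at the point `y` itself. -/
def capSelf (p : ℕ) (y lam : ℝ) : ℝ :=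
  lam * (1 + (lam ^ p - 1) * (mass p semi 1 * √((p : ℝ) + 2)) * mills (√((p : ℝ) + 2) * y) /
    semi y ^ (p + 2))

theorem capSelf_pos (p : ℕ) {y lam : ℝ} (hy : y ∈ Ioo (0 : ℝ) 1) (hlam : 1 ≤ lam) :
    0 < capSelf p y lam := by
  have hs := semi_pos (t := y) ⟨by linarith [hy.1], hy.2⟩
  have hε : 0 ≤ lam ^ p - 1 := sub_nonneg.2 (one_le_pow₀ hlam)
  have hP := mass_one_pos isProfile_semi p
  have hA : 0 < √((p : ℝ) + 2) := Real.sqrt_pos.2 (by positivity)
  have hM := mills_pos (mul_nonneg hA.le hy.1.le)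
  unfold capSelf
  positivity

/-- `TailCap` at `u = y` bounds `(p + 1) / p * log w`. -/
theorem tailCap_self_log (p : ℕ) {y r lam : ℝ} (hy : y ∈ Ioo (0 : ℝ) 1) (hr : 0 < r) (hlam : 1 ≤ lam)
    (hcap : TailCap p y r lam) : -(((p : ℝ) + 1) * log r) ≤ log (capSelf p y lam) := by
  have hs := semi_pos (t := y) ⟨by linarith [hy.1], hy.2⟩
  have hP := mass_one_pos isProfile_semi p
  have hlp : 1 ≤ lam ^ p := one_le_pow₀ hlam
  have hsA : 0 < √((p : ℝ) + 2) := Real.sqrt_pos.2 (by positivity)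
  have hM := mills_pos (mul_nonneg hsA.le hy.1.le)
  have h0 : 0 ≤ mass p semi y := intervalIntegral.integral_nonneg hy.1.le fun v _ =>
    pow_nonneg (Real.sqrt_nonneg _) _
  have h := hcap y ⟨hy.1.le, hy.2⟩ (le_mul_of_one_le_left h0 hlp)
  have hV : semi y ^ (p + 2) / (√((p : ℝ) + 2) * mills (√((p : ℝ) + 2) * y)) ≤
      mass p semi 1 - mass p semi y := by
    have h2 := tail_ge2 p (Ioo_subset_Icc_self hy)
    rw [tailFrac, mul_assoc, mul_comm (mass p semi 1), ← div_div] at h2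
    exact (div_le_div_iff_of_pos_right hP).1 h2
  set T := mass p semi 1 - mass p semi y with hT
  have hT0 : 0 < T := lt_of_lt_of_le (by positivity) hV
  have e : lam ^ p * mass p semi 1 - mass p semi y = (lam ^ p - 1) * mass p semi 1 + T := by
    rw [hT]; ring
  rw [e] at h
  have hlam0 : 0 < lam := by linarith
  have hR : (r ^ (p + 1))⁻¹ ≤ capSelf p y lam := by
    rw [inv_le_iff_one_le_mul₀ (by positivity)]
    have h1 : 1 ≤ lam * (1 + (lam ^ p - 1) * mass p semi 1 / T) * r ^ (p + 1) := by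
      have e2 : lam * (1 + (lam ^ p - 1) * mass p semi 1 / T) * r ^ (p + 1) =
          (lam * semi y * r) ^ (p + 1) * ((lam ^ p - 1) * mass p semi 1 + T) /
            (semi y ^ (p + 1) * (lam ^ p * T)) := by
        rw [mul_pow, mul_pow]
        field_simp
        ring
      rw [e2, le_div_iff₀ (by positivity), one_mul]
      exact h
    refine h1.trans (mul_le_mul_of_nonneg_right (mul_le_mul_of_nonneg_left (add_le_add_right ?_ 1)
      hlam0.le) (pow_nonneg hr.le _))
    refine (div_le_div_of_nonneg_left (mul_nonneg (sub_nonneg.2 hlp) hP.le) (by positivity) hV).trans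
      (le_of_eq ?_)
    rw [div_div_eq_mul_div]
    ring
  have hl := Real.log_le_log (by positivity) hR
  rw [Real.log_inv, Real.log_pow] at hl
  push_cast at hl
  exact hl

/-- `TailCap` at `u = y` bounds `log w`. -/
theorem tailCap_self_log' (p : ℕ) {y r lam : ℝ} (hy : y ∈ Ioo (0 : ℝ) 1) (hr : 0 < r) (hlam : 1 ≤ lam)
    (hcap : TailCap p y r lam) :
    -((p : ℝ) * log r) ≤ max 0 (log (lam * (1 + (lam ^ p - 1) * (mass p semi 1 * √((p : ℝ) + 2)) *
      mills (√((p : ℝ) + 2) * y) / semi y ^ (p + 2)))) := by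
  have h := tailCap_self_log p hy hr hlam hcap
  have hp : (0 : ℝ) ≤ p := Nat.cast_nonneg p
  rcases le_total (log r) 0 with h0 | h0
  · exact le_max_of_le_right (by rw [capSelf] at h; linarith)
  · exact le_max_of_le_left (neg_nonpos.2 (mul_nonneg hp h0))

/-- The semicircle does not fall faster than a Gaussian of a slightly smaller variance. -/
theorem semi_pow_inv_le (p : ℕ) {y X1 t1 : ℝ} (hy : y ∈ Ioo (0 : ℝ) 1)
    (hX : ((p : ℝ) + 2) * y ^ 2 ≤ X1) (ht : 1 / ((p : ℝ) + 2) ≤ t1) (h1 : X1 * t1 < 1) :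
    (semi y ^ (p + 2))⁻¹ ≤ exp (((p : ℝ) + 2) * y ^ 2 / (2 * (1 - X1 * t1))) := by
  have hs := semi_pos (t := y) ⟨by linarith [hy.1], hy.2⟩
  have hA : (0 : ℝ) < (p : ℝ) + 2 := by positivity
  have hd : 0 < 1 - y ^ 2 := by nlinarith [hy.1, hy.2]
  have hyt : y ^ 2 ≤ X1 * t1 := by
    have hX0 : 0 ≤ X1 := le_trans (by positivity) hX
    refine le_trans (le_of_eq ?_) (mul_le_mul hX ht (by positivity) hX0)
    field_simp
  have hl := Real.one_sub_inv_le_log_of_pos hd
  have hb : -log (1 - y ^ 2) ≤ y ^ 2 / (1 - X1 * t1) := by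
    refine le_trans ?_ (div_le_div_of_nonneg_left (sq_nonneg y) (by linarith)
      (show 1 - X1 * t1 ≤ 1 - y ^ 2 by linarith))
    have e : y ^ 2 / (1 - y ^ 2) = (1 - y ^ 2)⁻¹ - 1 := by field_simp; ring
    linarith
  refine (Real.log_le_iff_le_exp (by positivity)).1 ?_
  rw [Real.log_inv, Real.log_pow, show semi y = √(1 - y ^ 2) from rfl, Real.log_sqrt hd.le]
  push_cast
  have h2 := mul_le_mul_of_nonneg_left hb (show (0 : ℝ) ≤ ((p : ℝ) + 2) / 2 by positivity)
  calc -(((p : ℝ) + 2) * (log (1 - y ^ 2) / 2)) = ((p : ℝ) + 2) / 2 * -log (1 - y ^ 2) := by ring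
    _ ≤ ((p : ℝ) + 2) / 2 * (y ^ 2 / (1 - X1 * t1)) := h2
    _ = ((p : ℝ) + 2) * y ^ 2 / (2 * (1 - X1 * t1)) := by field_simp

/-- The excess of `lam ^ p` over one is rational in `k t`, `t = 1 / (p + 2)`. -/
theorem excess_lam_le (p : ℕ) {lam k : ℝ} (hlam : 1 ≤ lam) (hk : 0 ≤ k)
    (hk2 : k / ((p : ℝ) + 2) < 2) (h : lam ^ (p + 1) ≤ exp (k / ((p : ℝ) + 1))) :
    lam ^ p - 1 ≤ k / ((p : ℝ) + 2) / (1 - k / ((p : ℝ) + 2) / 2) := by
  set z := k / ((p : ℝ) + 2) with hz
  have hz0 : 0 ≤ z := by positivity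
  have hp : (0 : ℝ) ≤ p := Nat.cast_nonneg p
  have hl0 : 0 < lam := by linarith
  have h1 : lam ^ p ≤ exp z := by
    refine (Real.log_le_iff_le_exp (by positivity)).1 ?_
    rw [Real.log_pow]
    have hlog := (Real.log_le_iff_le_exp (pow_pos hl0 _)).2 h
    rw [Real.log_pow] at hlog
    push_cast at hlog
    have h2 : (p : ℝ) * log lam ≤ (p : ℝ) / ((p : ℝ) + 1) * (k / ((p : ℝ) + 1)) := by
      rw [div_mul_eq_mul_div, le_div_iff₀ (show (0 : ℝ) < (p : ℝ) + 1 by linarith)]
      have := mul_le_mul_of_nonneg_left hlog hp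
      linarith
    refine h2.trans ?_
    rw [hz, div_mul_div_comm, div_le_div_iff₀ (by positivity) (by positivity)]
    nlinarith
  have hd : 0 < 1 - z / 2 := by linarith
  have h3 : (2 + z) / (2 - z) = z / (1 - z / 2) + 1 := by
    have : 2 - z ≠ 0 := by linarith
    field_simp
    ring
  linarith [Real.exp_le_two_add_div_two_sub hz0 hk2]

end Vale.Agent.P237.All.Transport.Middle
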