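import Vale.Agent.P237.All.Middle.Check
import Vale.Agent.P237.All.Middle.CapPoint

/-!
P237, every dimension, middle regime: the tests of the caps on `w` mean what they say.
-/

noncomputable section

open Real Set

namespace Vale.Agent.P237.All.Transport.Middle

open Mid (Sg AF U U_pos U_ne Pt XP epsP sig eps_pos)
open Upper (mills mills_pos mills_mono core core_mem core_mono)

/-- The real number of a natural constant. -/
def rn (n : ℕ) : ℝ := n / U

theorem rn_nonneg (n : ℕ) : 0 ≤ rn n := div_nonneg (Nat.cast_nonneg n) U_pos.le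

theorem rn_le {m n : ℕ} (h : m ≤ n) : rn m ≤ rn n :=
  div_le_div_of_nonneg_right (Nat.cast_le.2 h) U_pos.le

theorem has_cst {S T : ℝ} (n : ℕ) : (cst n).Has S T (rn n) :=
  AF.has_const (by rw [rn, div_mul_cancel₀ _ U_ne, Sg.ofN_v])

theorem has_half {S T : ℝ} : cHalf.Has S T (1 / 2) := by
  have := has_cst (S := S) (T := T) 8388608
  rwa [show rn 8388608 = 1 / 2 by norm_num [rn, U]] at this

theorem has_one {S T : ℝ} : (cN 1).Has S T 1 := by simpa using has_cN (S := S) (T := T) 1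

/-- The thirty-second power as a value. -/
def pow32V (x : AF) : AF :=
  let a := x.mul x
  let b := a.mul a
  let c := b.mul b
  let d := c.mul c
  d.mul d

theorem pow32_eq {α : Type} (x : AF) (k : AF → α) : pow32 x k = k (pow32V x) := by
  simp only [pow32, pow32V, AF.force_eq]

theorem has_pow32 {S T : ℝ} (hS : |S| ≤ 1) (hT : |T| ≤ 1) {x : AF} {v : ℝ} (h : x.Has S T v) :
    (pow32V x).Has S T (v ^ 32) := by
  have step : ∀ (f : AF) (n : ℕ), f.Has S T (v ^ n) → (f.mul f).Has S T (v ^ (n + n)) :=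
    fun f n hf => by rw [pow_add]; exact hf.mul hf hS hT
  exact step _ 16 (step _ 8 (step _ 4 (step _ 2 (step _ 1 (by rwa [pow_one])))))

theorem z0 : |(0 : ℝ)| ≤ 1 := by norm_num

theorem le_of_nn {f : AF} {u : ℝ} (h : nn f = true) (hf : f.Has 0 0 u) : 0 ≤ u := nn_sound h hf z0 z0

theorem pos_of_ps {f : AF} {u : ℝ} (h : ps f = true) (hf : f.Has 0 0 u) : 0 < u := ps_sound h hf z0 z0

theorem exp_two_mul_le {h : ℝ} (h0 : 0 ≤ h) (h1 : h < 1) : exp (2 * h) ≤ (1 + h) / (1 - h) := by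
  have hd : 0 < 1 - h := sub_pos.2 h1
  have hl := Real.le_log_one_add_of_nonneg (show 0 ≤ 2 * h / (1 - h) by positivity)
  have e1 : 1 + 2 * h / (1 - h) = (1 + h) / (1 - h) := by field_simp; ring
  have e2 : 2 * (2 * h / (1 - h)) / (2 * h / (1 - h) + 2) = 2 * h := by field_simp; ring
  rw [e1, e2] at hl
  exact (Real.le_log_iff_exp_le (div_pos (by linarith) hd)).1 hl

theorem expOk_sound {z e : ℕ} (h : expOk z e = true) : exp (rn z) ≤ rn e := by
  simp only [expOk, AF.force_eq, pow32_eq, Bool.and_eq_true] at h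
  set hh := rn z / 64 with hhd
  have hh' : ((cst z).mul (cst 262144)).Has 0 0 hh := by
    convert (has_cst z).mul (has_cst 262144) z0 z0 using 1
    rw [hhd, rn, rn]; norm_num [U]; ring
  have hd := has_one.sub hh'
  have h1 := pos_of_ps h.1 hd
  have h2 := le_of_nn h.2 (((has_cst e).mul (has_pow32 z0 z0 hd) z0 z0).sub
    (has_pow32 z0 z0 (has_one.add hh')))
  have h0 : 0 ≤ hh := div_nonneg (rn_nonneg z) (by norm_num)
  rw [show rn z = (32 : ℕ) * (2 * hh) by rw [hhd]; push_cast; ring, Real.exp_nat_mul]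
  refine (pow_le_pow_left₀ (exp_pos _).le (exp_two_mul_le h0 (by linarith)) 32).trans ?_
  rw [div_pow, div_le_iff₀ (by positivity)]
  linarith

theorem logOk_sound {W l : ℕ} (h : logOk W l = true) (hW : 0 < rn W) : log (rn W) ≤ rn l := by
  simp only [logOk, AF.force_eq, pow32_eq] at h
  set hh := rn l / 32 with hhd
  have hh' : ((cst l).mul (cst 524288)).Has 0 0 hh := by
    convert (has_cst l).mul (has_cst 524288) z0 z0 using 1
    rw [hhd, rn, rn]; norm_num [U]; ring
  have h2 := le_of_nn h ((has_pow32 z0 z0 ((has_one.add hh').add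
    ((hh'.mul hh' z0 z0).mul has_half z0 z0))).sub (has_cst W))
  have h0 : 0 ≤ hh := div_nonneg (rn_nonneg l) (by norm_num)
  rw [Real.log_le_iff_le_exp hW, show rn l = (32 : ℕ) * hh by rw [hhd]; push_cast; ring,
    Real.exp_nat_mul]
  refine le_trans ?_ (pow_le_pow_left₀ (by positivity) (Real.quadratic_le_exp_of_nonneg h0) 32)
  rw [show 1 + hh + hh ^ 2 / 2 = 1 + hh + hh * hh * (1 / 2) by ring]
  linarith

/-- The bound on `mills x`, over the reals. -/
def millsR (x : ℕ) : ℝ := rn x + rn 30198989 * (rn x + rn 37245419)⁻¹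

theorem has_mills {x : ℕ} (hx : ps ((cst x).add (cst 37245419)) = true) :
    (millsUp x).Has 0 0 (millsR x) :=
  (has_cst x).add ((has_cst 30198989).mul
    (((has_cst x).add (has_cst 37245419)).inv z0 z0 (ps_posPart hx)) z0 z0)

theorem mills_le_millsR (x : ℕ) : mills (rn x) ≤ millsR x := by
  have := rn_nonneg x
  rw [mills, millsR, ← div_eq_mul_inv]
  refine add_le_add le_rfl (div_le_div₀ (rn_nonneg _) ?_ ?_ ?_)
  · norm_num [rn, U]
  · have : 0 < rn 37245419 := by norm_num [rn, U]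
    linarith
  · refine add_le_add le_rfl ?_
    norm_num [rn, U]

/-- The excess of the top of `t`. -/
def epsR (th : ℕ) : ℝ := rn th * (1 - rn th)⁻¹

/-- The factor of the excess of `lam`. -/
def gamR (K th : ℕ) : ℝ := (1 + epsR th - rn K * epsR th * (1 / 2))⁻¹

/-- The bound on the mass. -/
def massR (th : ℕ) : ℝ := rn 21027221 * (1 + epsR th * (1 / 2))

/-- The bound on `lam`. -/
def lamR (K th : ℕ) : ℝ := 1 + 2 * (rn K * (epsR th * epsR th))

variable {K th : ℕ}

theorem th_le (hth : th ≤ 131072) : rn th ≤ 1 / 128 := by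
  refine (rn_le hth).trans (le_of_eq ?_)
  norm_num [rn, U]

theorem epsR_mem (hth : th ≤ 131072) : 0 ≤ epsR th ∧ epsR th ≤ 1 / 127 := by
  have h := th_le hth
  have h0 := rn_nonneg th
  rw [epsR, ← div_eq_mul_inv]
  refine ⟨div_nonneg h0 (by linarith), ?_⟩
  rw [div_le_div_iff₀ (by linarith) (by norm_num)]
  linarith

theorem K_le (hK : K ≤ 285212672) : rn K ≤ 17 := by
  refine (rn_le hK).trans (le_of_eq ?_)
  norm_num [rn, U]

theorem gam_den (hth : th ≤ 131072) (hK : K ≤ 285212672) :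
    1 / 2 ≤ 1 + epsR th - rn K * epsR th * (1 / 2) := by
  obtain ⟨h0, h1⟩ := epsR_mem hth
  nlinarith [mul_le_mul_of_nonneg_right (K_le hK) h0]

/-- The constants of the caps. -/
structure CapCst (K th : ℕ) : Prop where
  eps : (epsUp th).Has 0 0 (epsR th)
  gam : (gamUp K th).Has 0 0 (gamR K th)
  mass : (massUp th).Has 0 0 (massR th)
  lam : (lamUp K th).Has 0 0 (lamR K th)

theorem capCst (h1 : ps ((cN 1).sub (cst th)) = true)
    (h2 : ps (((cN 1).add (epsUp th)).sub (((cst K).mul (epsUp th)).mul cHalf)) = true) :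
    CapCst K th := by
  have he : (epsUp th).Has 0 0 (epsR th) :=
    (has_cst th).mul ((has_one.sub (has_cst th)).inv z0 z0 (ps_posPart h1)) z0 z0
  refine ⟨he, ((has_one.add he).sub (((has_cst K).mul he z0 z0).mul has_half z0 z0)).inv z0 z0
    (ps_posPart h2), (has_cst _).mul (has_one.add (he.mul has_half z0 z0)) z0 z0, ?_⟩
  have := has_one.add (has_scale (((has_cst K).mul (he.mul he z0 z0) z0 z0)) z0 z0 2)
  push_cast at this
  exact this

variable {p : ℕ} {k y t r lam : ℝ} {xl xh tl : ℕ}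

/-- The facts about a point that the caps use. -/
theorem point_facts (hp : 127 ≤ p) (hk : 2 ≤ k) (hkK : k ≤ rn K) (hK : K ≤ 285212672)
    (hth : th ≤ 131072) (ht : tP p ≤ rn th) :
    epsP p ≤ epsR th ∧ rn K * epsR th ^ 2 ≤ 1 ∧ k * epsP p < 2 ∧
      1 / (1 + epsP p - k * epsP p / 2) ≤ gamR K th ∧
      125332 / 100000 * (1 + epsR th / 2) ≤ massR th := by
  obtain ⟨h0, h1⟩ := epsR_mem hth
  have hK17 := K_le hK
  have he : epsP p ≤ epsR th := by
    have e : epsP p = tP p / (1 - tP p) := by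
      have : (p : ℝ) + 2 - 1 = p + 1 := by ring
      simp only [epsP, tP]; field_simp; rw [this, div_self (by positivity)]
    have := th_le hth
    rw [e, epsR, ← div_eq_mul_inv]
    exact div_le_div₀ (rn_nonneg th) ht (by linarith) (by linarith)
  have he0 := eps_pos p
  refine ⟨he, ?_, ?_, ?_, ?_⟩
  · nlinarith [mul_le_mul_of_nonneg_right hK17 (sq_nonneg (epsR th)),
      pow_le_pow_left₀ h0 h1 2]
  · nlinarith [mul_le_mul (hkK.trans hK17) (he.trans h1) he0.le (by norm_num)]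
  · rw [gamR, ← one_div]
    refine one_div_le_one_div_of_le (by linarith [gam_den hth hK]) ?_
    nlinarith [mul_le_mul_of_nonneg_right (sub_le_sub_right hkK 2) h0,
      mul_le_mul_of_nonneg_left he (sub_nonneg.2 hk)]
  · rw [massR, show epsR th * (1 / 2) = epsR th / 2 by ring]
    exact mul_le_mul_of_nonneg_right (by norm_num [rn, U]) (by linarith)

theorem semi_inv_le {x1 sy : ℕ} (hy : y ∈ Ioo (0 : ℝ) 1) (ht : tP p ≤ rn th)
    (hx : xP p y ≤ rn x1 ^ 2)
    (h : nn ((((cst sy).mul (cst sy)).mul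
      ((cN 1).sub (((cst x1).mul (cst x1)).mul (cst th)))).sub (cN 1)) = true) :
    1 ≤ rn sy ^ 2 * (1 - rn x1 ^ 2 * rn th) ∧ (semi y)⁻¹ ≤ rn sy := by
  have h1 := le_of_nn h ((((has_cst sy).mul (has_cst sy) z0 z0).mul (has_one.sub
    (((has_cst x1).mul (has_cst x1) z0 z0).mul (has_cst th) z0 z0)) z0 z0).sub has_one)
  have h2 : 1 ≤ rn sy ^ 2 * (1 - rn x1 ^ 2 * rn th) := by
    rw [sq, sq]; linarith
  refine ⟨h2, ?_⟩
  have hy' := semi_pos (t := y) ⟨by linarith [hy.1], hy.2⟩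
  rw [inv_le_iff_one_le_mul₀ hy']
  refine (pow_le_pow_iff_left₀ zero_le_one (mul_nonneg (rn_nonneg sy) hy'.le) two_ne_zero).1 ?_
  rw [one_pow, mul_pow, semi_sq ⟨by linarith [hy.1], hy.2.le⟩]
  refine h2.trans (mul_le_mul_of_nonneg_left ?_ (sq_nonneg _))
  have : y ^ 2 ≤ rn x1 ^ 2 * rn th := by
    rw [← xP_mul p y]
    exact mul_le_mul hx ht (tP_pos p).le (sq_nonneg _)
  linarith

/-- The bound on `w semi y` from `Reach`, over the reals. -/
def wideR (x0 x1 : ℕ) : ℝ :=
  rn 34670117 * millsR x1 *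
    (let d := (1 + rn x0 * rn x0 * (1 / 2) + rn x0 * rn x0 * (rn x0 * rn x0) * rn 2097152) *
        rn 21026884 * (rn x0 + rn 30198988 * (rn x0 + rn 37245420)⁻¹)
      let q := rn 16642998 * (1 - d⁻¹)
      1 + q + q * q * (1 / 2) + q * q * q * rn 2796202 + q * q * (q * q) * rn 699050)⁻¹

/-- The value computed by `wideUp`. -/
def wideV (x0 x1 : ℕ) : Bool × AF :=
  let x2 := (cst x0).mul (cst x0)
  let d := (((((cN 1).add (x2.mul cHalf)).add ((x2.mul x2).mul (cst 2097152))).mul (cst 21026884))).mul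
    ((cst x0).add ((cst 30198988).mul ((cst x0).add (cst 37245420)).inv))
  let q := (cst 16642998).mul ((cN 1).sub d.inv)
  let l := ((((cN 1).add q).add ((q.mul q).mul cHalf)).add (((q.mul q).mul q).mul (cst 2796202))).add
    (((q.mul q).mul (q.mul q)).mul (cst 699050))
  (ps ((cst x0).add (cst 37245420)) && ps ((cst x1).add (cst 37245419)) &&
      nn (d.sub (cN 1)) && ps d && ps l, ((cst 34670117).mul (millsUp x1)).mul l.inv)

theorem wideUp_eq {α : Type} (x0 x1 : ℕ) (k : Bool → AF → α) :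
    wideUp x0 x1 k = k (wideV x0 x1).1 (wideV x0 x1).2 := by
  simp only [wideUp, wideV, AF.force_eq]

theorem wide_sound {x0 x1 : ℕ} (hok : (wideV x0 x1).1 = true)
    (h : Pt p k y t r lam) (hp : 127 ≤ p) (hx0 : rn x0 ^ 2 ≤ xP p y) (hx1 : xP p y ≤ rn x1 ^ 2) :
    (wideV x0 x1).2.Has 0 0 (wideR x0 x1) ∧ 0 ≤ wideR x0 x1 ∧
      (r ^ p)⁻¹ * semi y ≤ wideR x0 x1 := by
  simp only [wideV, Bool.and_eq_true] at hok
  obtain ⟨⟨⟨⟨ha, hb⟩, hd1⟩, hd⟩, hl⟩ := hok
  set X := rn x0 * rn x0 with hX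
  set dR := (1 + X * (1 / 2) + X * X * rn 2097152) * rn 21026884 *
    (rn x0 + rn 30198988 * (rn x0 + rn 37245420)⁻¹) with hdR
  set qR := rn 16642998 * (1 - dR⁻¹) with hqR
  set lR := 1 + qR + qR * qR * (1 / 2) + qR * qR * qR * rn 2796202 +
    qR * qR * (qR * qR) * rn 699050 with hlR
  have e : wideR x0 x1 = rn 34670117 * millsR x1 * lR⁻¹ := rfl
  have hx2 := (has_cst (S := 0) (T := 0) x0).mul (has_cst x0) z0 z0
  have hdH := (((has_one.add (hx2.mul has_half z0 z0)).add
    ((hx2.mul hx2 z0 z0).mul (has_cst 2097152) z0 z0)).mul (has_cst 21026884) z0 z0).mul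
      ((has_cst x0).add ((has_cst 30198988).mul
        (((has_cst x0).add (has_cst 37245420)).inv z0 z0 (ps_posPart ha)) z0 z0)) z0 z0
  have hq := (has_cst (S := 0) (T := 0) 16642998).mul
    (has_one.sub (hdH.inv z0 z0 (ps_posPart hd))) z0 z0
  have hqq := hq.mul hq z0 z0
  have hlH := (((has_one.add hq).add (hqq.mul has_half z0 z0)).add
    ((hqq.mul hq z0 z0).mul (has_cst 2796202) z0 z0)).add
      ((hqq.mul hqq z0 z0).mul (has_cst 699050) z0 z0)
  have hm := has_mills hb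
  have hd0 : 1 ≤ dR := sub_nonneg.1 (le_of_nn hd1 (hdH.sub has_one))
  have hl0 : 0 < lR := pos_of_ps hl hlH
  have hm0 : 0 ≤ millsR x1 := (mills_pos (rn_nonneg x1)).le.trans (mills_le_millsR x1)
  refine ⟨e ▸ ((has_cst _).mul hm z0 z0).mul (hlH.inv z0 z0 (ps_posPart hl)) z0 z0,
    e ▸ mul_nonneg (mul_nonneg (rn_nonneg _) hm0) (inv_nonneg.2 hl0.le), ?_⟩
  have hp' : (127 : ℝ) ≤ p := by exact_mod_cast hp
  have hθ0 : 0 ≤ rn 16642998 := rn_nonneg _
  have hθ : High.ThetaOK (rn 16642998) (1 / ((p : ℝ) + 2)) := by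
    have hu : 1 / ((p : ℝ) + 2) ≤ 1 / 129 := one_div_le_one_div_of_le (by norm_num) (by linarith)
    have hu0 : (0 : ℝ) ≤ 1 / ((p : ℝ) + 2) := by positivity
    refine Or.inr ?_
    have h1 : 1 / ((p : ℝ) + 2) ≤ 1 / ((p : ℝ) + 2) / (1 - 1 / ((p : ℝ) + 2)) := by
      rw [le_div_iff₀ (by linarith only [hu])]; nlinarith only [hu0, hu]
    have h2 : rn 16642998 ≤ 99201 / 100000 := by norm_num [rn, U]
    linarith only [hu, hu0, h1, h2]
  have hy0 := h.hy.1
  have hxs : √((p : ℝ) + 2) * y = √(xP p y) := Mid.sqrt_mul_y p hy0.le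
  have hlo : rn x0 ≤ √((p : ℝ) + 2) * y := hxs ▸ Real.le_sqrt_of_sq_le hx0
  have hhi : √((p : ℝ) + 2) * y ≤ rn x1 := by
    rw [hxs, Real.sqrt_le_left (rn_nonneg x1)]; exact hx1
  refine (High.reach_wide (by omega) h.hy h.hr h.reach hθ0 hθ).trans
    ((High.wide_le hθ0 (rn_nonneg x0) hlo hhi).trans ?_)
  rw [e, div_eq_mul_inv]
  have hc : 20665 / 10000 * mills (rn x1) ≤ rn 34670117 * millsR x1 :=
    mul_le_mul (by norm_num [rn, U]) (mills_le_millsR x1) (mills_pos (rn_nonneg x1)).le (rn_nonneg _)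
  refine mul_le_mul hc (inv_anti₀ hl0 ?_) (inv_nonneg.2 (High.lift_pos hθ0 (rn_nonneg x0)).le)
    (mul_nonneg (rn_nonneg _) hm0)
  have hq0 : 0 ≤ qR := mul_nonneg hθ0 (sub_nonneg.2 (inv_le_one_of_one_le₀ hd0))
  have hqc : qR ≤ rn 16642998 * core (rn x0) := by
    refine mul_le_mul_of_nonneg_left ?_ hθ0
    rw [core, one_div]
    refine sub_le_sub_left (inv_anti₀ (by linarith) ?_) 1
    rw [mills, hdR]
    have hx00 := rn_nonneg x0
    have hc1 : rn 21026884 ≤ 12533 / 10000 := by norm_num [rn, U]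
    have hc2 : rn 30198988 * (rn x0 + rn 37245420)⁻¹ ≤ 9 / 5 / (rn x0 + 111 / 50) := by
      rw [← div_eq_mul_inv]
      refine div_le_div₀ (by norm_num) (by norm_num [rn, U]) (by linarith)
        (add_le_add le_rfl (by norm_num [rn, U]))
    have hc8 : rn 2097152 = 1 / 8 := by norm_num [rn, U]
    have : 0 ≤ rn x0 + rn 37245420 := by linarith [rn_nonneg 37245420]
    refine mul_le_mul (mul_le_mul (le_of_eq ?_) hc1 (rn_nonneg _) (by positivity))
      (add_le_add le_rfl hc2) (add_nonneg hx00 (mul_nonneg (rn_nonneg _) (inv_nonneg.2 this)))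
      (by positivity)
    rw [hX, hc8]; ring
  unfold High.lift
  set Q := rn 16642998 * core (rn x0)
  have hQ0 : 0 ≤ Q := hq0.trans hqc
  have h6 : rn 2796202 ≤ 1 / 6 := by norm_num [rn, U]
  have h24 : rn 699050 ≤ 1 / 24 := by norm_num [rn, U]
  have e2 : qR * qR ≤ Q * Q := mul_self_le_mul_self hq0 hqc
  have e3 := mul_le_mul e2 hqc hq0 (mul_self_nonneg Q)
  have e4 := mul_le_mul e2 e2 (mul_self_nonneg qR) (mul_self_nonneg Q)
  have e3' := mul_le_mul e3 h6 (rn_nonneg _) (by positivity)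
  have e4' := mul_le_mul e4 h24 (rn_nonneg _) (by positivity)
  rw [show Q ^ 2 = Q * Q by ring, show Q ^ 3 = Q * Q * Q by ring, show Q ^ 4 = Q * Q * (Q * Q) by ring]
  linarith

/-- What a test of a cap gives. -/
theorem capOk_sound {W : ℕ} {c : Cap} (h : Pt p k y t r lam) (hp : 127 ≤ p) (hk : 2 ≤ k)
    (hkK : k ≤ rn K) (hK : K ≤ 285212672) (hth : th ≤ 131072)
    (hC : CapCst K th) (ht : tP p ≤ rn th) (ht0 : rn tl ≤ tP p)
    (hxl : rn xl ≤ xP p y) (hxh : xP p y ≤ rn xh) (hW1 : 1 ≤ rn W)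
    (hc : capOk K xl xh tl th W c = true) : (r ^ p)⁻¹ ≤ rn W := by
  obtain ⟨hε, hKE, hk2, hγ, hQ⟩ := point_facts hp hk hkK hK hth ht
  obtain ⟨hE0, hE1⟩ := epsR_mem hth
  have hE1' : epsR th ≤ 1 := hE1.trans (by norm_num)
  have hk0 : 0 ≤ k := by linarith
  have hγ0 : 0 ≤ gamR K th := inv_nonneg.2 (by linarith [gam_den hth hK])
  have hlam : 1 + 2 * (rn K * epsR th ^ 2) = lamR K th := by rw [lamR, sq]
  have hK0 := rn_nonneg K
  have hlam0 : 0 ≤ lamR K th := by rw [← hlam]; positivity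
  have hQ0 : 0 ≤ massR th := le_trans (by positivity) hQ
  cases c with
  | self x1 z e =>
    simp only [capOk, AF.force_eq, Bool.and_eq_true] at hc
    obtain ⟨⟨⟨⟨⟨a1, a2⟩, a3⟩, a4⟩, a5⟩, a6⟩ := hc
    have hd := has_one.sub ((has_cst xh).mul (has_cst th) z0 z0)
    have h1 := le_of_nn a1 (((has_cst x1).mul (has_cst x1) z0 z0).sub (has_cst xh))
    have h2 := pos_of_ps a2 hd
    have h3 := le_of_nn a3 (((has_scale (has_cst z) z0 z0 2).mul hd z0 z0).sub (has_cst xh))
    have h6 := le_of_nn a6 ((has_cst W).sub (has_one.add (hC.eps.mul ((has_cst K).mul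
      ((hC.eps.add hC.eps).add (((((hC.lam.mul hC.gam z0 z0).mul hC.mass z0 z0).mul
        (has_mills a5) z0 z0)).mul (has_cst e) z0 z0)) z0 z0) z0 z0)))
    push_cast at h3
    have he : exp (rn xh / (2 * (1 - rn xh * rn th))) ≤ rn e := by
      refine (exp_le_exp.2 ?_).trans (expOk_sound a4)
      rw [div_le_iff₀ (by linarith)]; linarith
    have hs := sig_self h hk0 hk2 hkK hε hE1' hKE hγ hxh
      (hxh.trans (by linarith only [h1, sq (rn x1)])) (rn_nonneg x1) ht (by linarith) he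
    rw [sig, div_le_iff₀ (eps_pos p), hlam] at hs
    have hm := mills_le_millsR x1
    have hm0 := (mills_pos (rn_nonneg x1)).le
    have hbound : 2 * epsR th + lamR K th * gamR K th * (125332 / 100000 * (1 + epsR th / 2)) *
        mills (rn x1) * rn e ≤
        epsR th + epsR th + lamR K th * gamR K th * massR th * millsR x1 * rn e := by
      refine add_le_add (le_of_eq (two_mul _)) (mul_le_mul_of_nonneg_right
        (mul_le_mul (mul_le_mul_of_nonneg_left hQ (mul_nonneg hlam0 hγ0)) hm hm0 ?_) (rn_nonneg e))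
      positivity
    have hB : 0 ≤ epsR th + epsR th + lamR K th * gamR K th * massR th * millsR x1 * rn e := by
      have := hm0.trans hm
      have := rn_nonneg e
      positivity
    have := hs.trans (mul_le_mul (mul_le_mul_of_nonneg_left hbound hK0) hε (eps_pos p).le
      (mul_nonneg hK0 hB))
    linarith
  | shift xu x1 z e sy =>
    simp only [capOk, AF.force_eq, Bool.and_eq_true] at hc
    obtain ⟨⟨⟨⟨⟨⟨⟨⟨⟨a1, a2⟩, a3⟩, a4⟩, a5⟩, a6⟩, a7⟩, a8⟩, a9⟩, a10⟩ := hc
    have hXu := (has_cst (S := 0) (T := 0) xu).mul (has_cst xu) z0 z0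
    have hd := has_one.sub (hXu.mul (has_cst th) z0 z0)
    have h3' : (cN 3).Has (0 : ℝ) 0 3 := by simpa using has_cN (S := 0) (T := 0) 3
    have h2' : (cN 2).Has (0 : ℝ) 0 2 := by simpa using has_cN (S := 0) (T := 0) 2
    have hden := (has_cst (S := 0) (T := 0) xu).mul
      ((hXu.mul (has_one.sub (has_cst th)) z0 z0).add h3') z0 z0
    have h1 := le_of_nn a1 (((has_cst x1).mul (has_cst x1) z0 z0).sub (has_cst xh))
    have h4 := pos_of_ps a4 (has_cst xu)
    have h5 := le_of_nn a5 ((has_cst xl).sub hXu)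
    have h6 := le_of_nn a6 (((has_scale (has_cst z) z0 z0 2).mul hd z0 z0).sub hXu)
    have h2 := pos_of_ps a2 hd
    have hx1 : xP p y ≤ rn x1 ^ 2 := hxh.trans (by linarith only [h1, sq (rn x1)])
    obtain ⟨hsy, -⟩ := semi_inv_le h.hy ht hx1 a9
    have h10 := le_of_nn a10 ((has_cst W).sub (((hC.lam.mul (has_mills a8) z0 z0).mul
      (((((((has_cst K).mul hC.gam z0 z0).mul hC.eps z0 z0).mul hC.mass z0 z0).mul (has_cst e) z0 z0)).add
        ((has_one.sub ((hXu.mul (has_cst tl) z0 z0).mul has_half z0 z0)).mul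
          ((hXu.add h2').mul (hden.inv z0 z0 (ps_posPart a3)) z0 z0) z0 z0)) z0 z0).mul
            (has_cst sy) z0 z0))
    push_cast at h6
    have he : exp (rn xu * rn xu / (2 * (1 - rn xu * rn xu * rn th))) ≤ rn e := by
      refine (exp_le_exp.2 ?_).trans (expOk_sound a7)
      rw [div_le_iff₀ (by linarith)]; linarith
    have hm := mills_le_millsR x1
    have hm0 := (mills_pos (rn_nonneg x1)).le
    refine (w_below h hk0 hk2 hkK hε hE1' hKE hγ h4 (sq (rn xu)).symm
      (le_trans (by linarith only [h5]) hxl) hx1 (rn_nonneg x1) ht ht0 (rn_nonneg tl)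
      (by linarith) he le_rfl hsy (rn_nonneg sy)).trans (max_le hW1 ?_)
    refine le_trans ?_ (sub_nonneg.1 h10)
    rw [hlam, ← div_eq_mul_inv]
    have hden0 : 0 < rn xu * (rn xu * rn xu * (1 - rn th) + 3) := pos_of_ps a3 hden
    have he0 := (exp_pos (rn xu * rn xu / (2 * (1 - rn xu * rn xu * rn th)))).le.trans he
    have hsu : 0 ≤ 1 - rn xu * rn xu * rn tl / 2 := by
      have := mul_le_mul_of_nonneg_left (ht0.trans ht) (mul_self_nonneg (rn xu))
      linarith
    have hF0 : 0 ≤ (rn xu * rn xu + 2) / (rn xu * (rn xu * rn xu * (1 - rn th) + 3)) :=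
      div_nonneg (by positivity) hden0.le
    refine mul_le_mul_of_nonneg_right (mul_le_mul (mul_le_mul_of_nonneg_left hm hlam0)
      (add_le_add (mul_le_mul_of_nonneg_right (mul_le_mul_of_nonneg_left hQ (by positivity)) he0)
        (le_of_eq ?_)) ?_ (mul_nonneg hlam0 (hm0.trans hm))) (rn_nonneg sy)
    · ring
    · positivity
  | wide x0 x1 sy =>
    simp only [capOk, wideUp_eq, Bool.and_eq_true] at hc
    obtain ⟨⟨⟨⟨a0, a1⟩, a2⟩, a3⟩, a4⟩ := hc
    have h1 := le_of_nn a1 (((has_cst x1).mul (has_cst x1) z0 z0).sub (has_cst xh))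
    have h2 := le_of_nn a2 ((has_cst xl).sub ((has_cst x0).mul (has_cst x0) z0 z0))
    have hx1 : xP p y ≤ rn x1 ^ 2 := hxh.trans (by linarith only [h1, sq (rn x1)])
    obtain ⟨hw, hw0, hwle⟩ := wide_sound a0 h hp
      (le_trans (by linarith only [h2, sq (rn x0)]) hxl) hx1
    obtain ⟨-, hsy⟩ := semi_inv_le h.hy ht hx1 a3
    have h4 := le_of_nn a4 ((has_cst W).sub (hw.mul (has_cst sy) z0 z0))
    have hy' := semi_pos (t := y) ⟨by linarith [h.hy.1], h.hy.2⟩
    calc (r ^ p)⁻¹ = (r ^ p)⁻¹ * semi y * (semi y)⁻¹ := by field_simp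
      _ ≤ wideR x0 x1 * rn sy :=
          mul_le_mul hwle hsy (inv_nonneg.2 hy'.le) hw0
      _ ≤ rn W := by linarith

end Vale.Agent.P237.All.Transport.Middle
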