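import Vale.Agent.P237.All.Middle.BoxSound
import Vale.Agent.P237.All.Middle.Budget
import Vale.Agent.P237.All.Middle.Beyond
import Vale.Agent.P237.All.Bounds

/-!
P237, every dimension, middle regime: a certificate from a cell whose boxes, budget and constants
pass the tests.
-/

noncomputable section

open Real Set MeasureTheory intervalIntegral

namespace Vale.Agent.P237.All.Transport.Middle

open Mid (Sg AF U U_pos Pt)

/-- The test of the constants that the caps divide by. -/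
def cstOk (K th : ℕ) : Bool :=
  Nat.ble th 131072 && ps ((cN 1).sub (cst th)) &&
    ps (((cN 1).add (epsUp th)).sub (((cst K).mul (epsUp th)).mul cHalf))

/-- The test of a slice besides its boxes. -/
def sideCond (c : Cell) (k0 sg tl th : ℕ) : Bool :=
  Nat.ble tl th && cstOk c.K th && budgetOk c.a sg k0 tl th && budgetOk c.a sg c.K tl th

/-- Slices cover an interval of `t`. -/
def Covers (c : Cell) (k0 sg a b : ℕ) : Prop :=
  ∀ u : ℝ, rn a ≤ u → u ≤ rn b → ∃ tl th L, rn tl ≤ u ∧ u ≤ rn th ∧ sideCond c k0 sg tl th = true ∧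
    sliceOk c tl th 17179869184 L 0 = true

theorem covers_one {c : Cell} {k0 sg tl th : ℕ} {L : List (ℕ × Piece)}
    (hs : sideCond c k0 sg tl th = true) (hL : sliceOk c tl th 17179869184 L 0 = true) :
    Covers c k0 sg tl th :=
  fun _ h0 h1 => ⟨tl, th, L, h0, h1, hs, hL⟩

theorem Covers.append {c : Cell} {k0 sg a b d : ℕ} (h : Covers c k0 sg a b) (h' : Covers c k0 sg b d) :
    Covers c k0 sg a d := fun u h0 h1 => by
  rcases le_total u (rn b) with hb | hb
  · exact h u h0 hb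
  · exact h' u hb h1

/-- What a cell has to satisfy on `t` in `[t0, t1]` for `k` in `[k0, K]`. -/
structure CellOk (c : Cell) (k0 sg t0 t1 : ℕ) : Prop where
  hk0 : 33554432 ≤ k0
  hK : c.K ≤ 285212672
  hE0 : c.E0 * 16777216 ≤ k0 * sg
  hE1 : c.K * sg ≤ c.E1 * 16777216
  hE1' : c.E1 ≤ 335544320
  hsg : 9444732965739290427392 + sg * (c.K * t1) ≤ sg * 562949953421312
  big : Big c.a.real
  covers : Covers c k0 sg t0 t1

theorem poly_big {a0 a1 a2 a3 a4 a5 a6 : ℝ} (h6 : 0 ≤ a6) (h5 : 0 ≤ a6 * 1024 + a5)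
    (h : 1 + |a3| / 1024 + |a2| / 1024 ^ 2 + |a1| / 1024 ^ 3 + |a0| / 1024 ^ 4 ≤
      1024 * (a6 * 1024 + a5) + a4) {X : ℝ} (hX : 1024 ≤ X) :
    X ^ 4 ≤ polyR X [a0, a1, a2, a3, a4, a5, a6] := by
  have hX0 : 0 < X := by linarith
  have low : ∀ (v : ℝ) (i j : ℕ), i + j = 4 → -(|v| / 1024 ^ j * X ^ 4) ≤ v * X ^ i := by
    intro v i j e
    have h1 : X ^ i ≤ X ^ 4 / 1024 ^ j := by
      rw [le_div_iff₀ (by positivity), ← e, pow_add]
      exact mul_le_mul_of_nonneg_left (pow_le_pow_left₀ (by norm_num) hX j) (by positivity)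
    have h2 := mul_le_mul_of_nonneg_left h1 (abs_nonneg v)
    have h3 := mul_le_mul_of_nonneg_right (neg_abs_le v) (show 0 ≤ X ^ i by positivity)
    rw [mul_div_assoc'] at h2
    rw [div_mul_eq_mul_div]
    linarith
  have t3 := low a3 3 1 rfl
  have t2 := low a2 2 2 rfl
  have t1 := low a1 1 3 rfl
  have t0 := low a0 0 4 rfl
  have t6 : 1024 * (a6 * 1024 + a5) ≤ X * (a6 * X + a5) := by
    exact mul_le_mul hX (by linarith [mul_le_mul_of_nonneg_left hX h6]) h5 hX0.le
  have t := mul_le_mul_of_nonneg_right (h.trans (add_le_add t6 le_rfl)) (show 0 ≤ X ^ 4 by positivity)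
  simp only [polyR]
  linarith

theorem cubic_big {b0 b1 b2 b3 : ℝ} (h3 : 0 ≤ b3)
    (h : |b1| / 1024 + |b0| / 1024 ^ 2 ≤ b3 * 1024 + b2) {X : ℝ} (hX : 1024 ≤ X) :
    0 ≤ polyR X [b0, b1, b2, b3] := by
  have hX0 : 0 < X := by linarith
  have t3 := mul_le_mul_of_nonneg_left hX h3
  have t := mul_le_mul_of_nonneg_right (h.trans (add_le_add t3 le_rfl)) (sq_nonneg X)
  have h1 : |b1| * X ≤ |b1| / 1024 * X ^ 2 := by
    rw [div_mul_eq_mul_div, le_div_iff₀ (by norm_num)]
    nlinarith [mul_le_mul_of_nonneg_left hX (mul_nonneg (abs_nonneg b1) hX0.le)]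
  have h0 : |b0| ≤ |b0| / 1024 ^ 2 * X ^ 2 := by
    rw [div_mul_eq_mul_div, le_div_iff₀ (by norm_num)]
    exact mul_le_mul_of_nonneg_left (pow_le_pow_left₀ (by norm_num) hX 2) (abs_nonneg b0)
  have h1' := mul_le_mul_of_nonneg_right (neg_abs_le b1) hX0.le
  simp only [polyR]
  linarith [neg_abs_le b0]

/-- The bound of the certificate. -/
def middlePi (a : RPar) (p : ℕ) (c2 E y : ℝ) : ℝ :=
  semi y ^ (p + 1) * majZero p a.g 1 c2 y + tP p ^ 2 * (semi y ^ (p - 1) *
    (polyR (xP p y) a.p0 + E * polyR (xP p y) a.p1 * (1 - y ^ 2) ^ 2))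

theorem polyR_continuous (l : List ℝ) : Continuous fun x : ℝ => polyR x l := by
  induction l with
  | nil => simp only [polyR]; exact continuous_const
  | cons a l ih => simp only [polyR]; fun_prop

theorem middlePi_cont (a : RPar) (p : ℕ) (c2 E : ℝ) : Continuous (middlePi a p c2 E) := by
  have := semi_continuous
  have h0 : Continuous fun y => polyR (xP p y) a.p0 :=
    (polyR_continuous a.p0).comp (by unfold xP; fun_prop)
  have h1 : Continuous fun y => polyR (xP p y) a.p1 :=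
    (polyR_continuous a.p1).comp (by unfold xP; fun_prop)
  unfold middlePi majZero
  fun_prop

theorem middlePi_integral (a : RPar) (q : ℕ) (c2 E : ℝ) :
    ∫ y in (0 : ℝ)..1, middlePi a (q + 1) c2 E y =
      (tP (q + 1) ^ 2 * meanPi a E (tP (q + 1)) - a.g * (c2 - 1) * (((q : ℝ) + 2) / ((q : ℝ) + 3))) *
        mass q semi 1 := by
  have hs := semi_continuous
  have hi : ∀ {f : ℝ → ℝ}, Continuous f → IntervalIntegrable f volume 0 1 := fun h =>
    h.intervalIntegrable _ _
  have hx : xP (q + 1) = fun y => ((q : ℝ) + 3) * y ^ 2 := by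
    funext y; simp only [xP]; push_cast; ring
  have ht : tP (q + 1) = 1 / ((q : ℝ) + 3) := by simp only [tP]; push_cast; ring
  have hp0 : Continuous fun y : ℝ => polyR (((q : ℝ) + 3) * y ^ 2) a.p0 :=
    (polyR_continuous a.p0).comp (by fun_prop)
  have hp1 : Continuous fun y : ℝ => polyR (((q : ℝ) + 3) * y ^ 2) a.p1 :=
    (polyR_continuous a.p1).comp (by fun_prop)
  have e : middlePi a (q + 1) c2 E = fun y =>
      (a.g + 1) * ((((q : ℝ) + 5) * (y ^ 2 * semi y ^ (q + 2))) - semi y ^ (q + 2)) -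
        a.g * (c2 - 1) * semi y ^ (q + 2) +
      tP (q + 1) ^ 2 * ((((q : ℝ) + 3) * y ^ 2) ^ 0 * polyR (((q : ℝ) + 3) * y ^ 2) a.p0 * semi y ^ q +
        E * ((((q : ℝ) + 3) * y ^ 2) ^ 0 * polyR (((q : ℝ) + 3) * y ^ 2) a.p1 * semi y ^ q -
          2 * tP (q + 1) * ((((q : ℝ) + 3) * y ^ 2) ^ 1 * polyR (((q : ℝ) + 3) * y ^ 2) a.p1 * semi y ^ q) +
          tP (q + 1) * tP (q + 1) *
            ((((q : ℝ) + 3) * y ^ 2) ^ 2 * polyR (((q : ℝ) + 3) * y ^ 2) a.p1 * semi y ^ q))) := by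
    funext y
    have e1 : tP (q + 1) * (((q : ℝ) + 3) * y ^ 2) = y ^ 2 := by rw [ht]; field_simp
    simp only [middlePi, majZero, hx, Nat.add_sub_cancel, pow_zero, pow_one, one_mul]
    push_cast
    rw [show 1 - y ^ 2 = 1 - tP (q + 1) * (((q : ℝ) + 3) * y ^ 2) by rw [e1]]
    have : y ^ 2 * semi y ^ (q + 2) = semi y ^ (q + 2) * (tP (q + 1) * (((q : ℝ) + 3) * y ^ 2)) := by
      rw [e1]; ring
    generalize semi y ^ q = s
    generalize semi y ^ (q + 2) = s2 at this ⊢
    linear_combination (2 * s2) * e1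
  rw [e, intervalIntegral.integral_add (hi (by fun_prop)) (hi (by fun_prop)),
    intervalIntegral.integral_sub (hi (by fun_prop)) (hi (by fun_prop)),
    intervalIntegral.integral_const_mul, intervalIntegral.integral_sub (hi (by fun_prop)) (hi (by fun_prop)),
    intervalIntegral.integral_const_mul, intervalIntegral.integral_const_mul, moment_two, ← mass_semi,
    intervalIntegral.integral_const_mul,
    intervalIntegral.integral_add (hi (by fun_prop)) (hi (by fun_prop)),
    intervalIntegral.integral_const_mul,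
    intervalIntegral.integral_add (hi (by fun_prop)) (hi (by fun_prop)),
    intervalIntegral.integral_sub (hi (by fun_prop)) (hi (by fun_prop)),
    intervalIntegral.integral_const_mul, intervalIntegral.integral_const_mul,
    integral_poly, integral_poly, integral_poly, integral_poly, mass_semi_step, meanPi, ht]
  push_cast
  field_simp
  ring

variable {c : Cell} {k0 sg t0 t1 : ℕ} {p : ℕ}

/-- The certificate of a cell. -/
theorem hasCert_cell (h : CellOk c k0 sg t0 t1) (hp : 127 ≤ p) (ht0 : rn t0 ≤ tP p) (ht1 : tP p ≤ rn t1)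
    (J : ℝ) (hJ0 : exp (rn k0 / ((p : ℝ) + 1)) * (2 * mass (p + 1) semi 1) ≤ J)
    (hJ1 : J ≤ exp (rn c.K / ((p : ℝ) + 1)) * (2 * mass (p + 1) semi 1)) : HasCert p J := by
  set a := c.a.real with ha
  have hg0 : 0 ≤ a.g := le_trans (by norm_num) h.big.hg.1
  have hg1 : a.g ≤ 1 := h.big.hg.2.trans (by norm_num)
  have hP := mass_one_pos isProfile_semi (p + 1)
  have hp' : (127 : ℝ) ≤ p := by exact_mod_cast hp
  set Q := J / (2 * mass (p + 1) semi 1) with hQ
  have hQ0 : exp (rn k0 / ((p : ℝ) + 1)) ≤ Q := by rwa [hQ, le_div_iff₀ (by positivity)]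
  have hQ1 : Q ≤ exp (rn c.K / ((p : ℝ) + 1)) := by rwa [hQ, div_le_iff₀ (by positivity)]
  have hQp : 0 < Q := (exp_pos _).trans_le hQ0
  set k := ((p : ℝ) + 1) * log Q with hk
  have hk0 : rn k0 ≤ k := by
    rw [hk, ← div_le_iff₀' (by positivity)]; exact (Real.le_log_iff_exp_le hQp).2 hQ0
  have hk1 : k ≤ rn c.K := by
    rw [hk, ← le_div_iff₀' (by positivity)]; exact (Real.log_le_iff_le_exp hQp).2 hQ1
  have hk2 : 2 ≤ k := le_trans (le_trans (by norm_num [rn, U]) (rn_le h.hk0)) hk0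
  have hk17 : k ≤ 17 := hk1.trans (K_le h.hK)
  set E := k * rn sg with hE
  have hsg0 : 0 ≤ rn sg := rn_nonneg _
  have hu := tP_pos p
  have hu1 : tP p ≤ 1 / 129 := one_div_le_one_div_of_le (by norm_num) (by linarith)
  have hEI : E ∈ Icc (rn c.E0) (rn c.E1) := by
    have h0 : ((c.E0 * 16777216 : ℕ) : ℝ) ≤ ((k0 * sg : ℕ) : ℝ) := Nat.cast_le.2 h.hE0
    have h1 : ((c.K * sg : ℕ) : ℝ) ≤ ((c.E1 * 16777216 : ℕ) : ℝ) := Nat.cast_le.2 h.hE1
    push_cast at h0 h1
    constructor
    · refine le_trans ?_ (mul_le_mul_of_nonneg_right hk0 hsg0)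
      simp only [rn, U]; norm_num; linarith
    · refine le_trans (mul_le_mul_of_nonneg_right hk1 hsg0) ?_
      simp only [rn, U]; norm_num; linarith
  have hE20 : E ∈ Icc (0 : ℝ) 20 := by
    refine ⟨(rn_nonneg _).trans hEI.1, hEI.2.trans ((rn_le h.hE1').trans ?_)⟩
    norm_num [rn, U]
  have hEk : k / (1 - k * tP p / 2) ≤ E := by
    have hd : 1 ≤ rn sg * (1 - rn c.K * rn t1 / 2) := by
      have h0 : ((9444732965739290427392 + sg * (c.K * t1) : ℕ) : ℝ) ≤ ((sg * 562949953421312 : ℕ) : ℝ) :=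
        Nat.cast_le.2 h.hsg
      push_cast at h0
      simp only [rn, U]; norm_num; linarith
    have hd' : 1 - rn c.K * rn t1 / 2 ≤ 1 - k * tP p / 2 := by
      linarith [mul_le_mul hk1 ht1 hu.le (rn_nonneg _)]
    have hd0 : 0 < 1 - rn c.K * rn t1 / 2 := pos_of_mul_pos_right (one_pos.trans_le hd) hsg0
    rw [div_le_iff₀ (hd0.trans_le hd'), hE, mul_assoc]
    refine le_mul_of_one_le_right (by linarith) (hd.trans ?_)
    exact mul_le_mul_of_nonneg_left hd' hsg0
  set c2 := (J / ∫ s in (-1 : ℝ)..1, semi s ^ (p + 1)) ^ (2 / ((p : ℝ) + 2)) with hc2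
  have hc2' : 2 * k / (((p : ℝ) + 1) * ((p : ℝ) + 2)) ≤ c2 - 1 := by
    rw [hc2, integral_even isProfile_semi (p + 1), ← hQ, Real.rpow_def_of_pos hQp]
    have e : 2 * k / (((p : ℝ) + 1) * ((p : ℝ) + 2)) = log Q * (2 / ((p : ℝ) + 2)) := by
      rw [hk]; field_simp
    linarith [Real.add_one_le_exp (log Q * (2 / ((p : ℝ) + 2)))]
  have hc20 : 0 ≤ c2 := by
    have : 0 ≤ 2 * k / (((p : ℝ) + 1) * ((p : ℝ) + 2)) := by positivity
    linarith
  have hA : ∀ y, HasDerivAt (potA a p) (potA' a p y) y := hasDerivAt_potA a p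
  have hW : ∀ y, HasDerivAt (potW a) (potW' a y) y := hasDerivAt_potW a
  have hPineg : ∫ y in (0 : ℝ)..1, middlePi a p c2 E y < 0 := by
    obtain ⟨q, rfl⟩ : ∃ q, p = q + 1 := ⟨p - 1, by omega⟩
    obtain ⟨tl, th, L, htl, hth, hside, -⟩ := h.covers (tP (q + 1)) ht0 ht1
    simp only [sideCond, Bool.and_eq_true] at hside
    have hle := Nat.le_of_ble_eq_true hside.1.1.1
    have b0 := budgetOk_sound hside.1.2 hle htl hth
    have b1 := budgetOk_sound hside.2 hle htl hth
    have hb : meanPi a E (tP (q + 1)) < 2 * a.g * k := by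
      simp only [meanPi] at b0 b1 ⊢
      rw [hE]
      set M0 := momSumR (tP (q + 1)) a.p0 0
      set M1 := momSumR (tP (q + 1)) a.p1 0 - 2 * tP (q + 1) * momSumR (tP (q + 1)) a.p1 1 +
        tP (q + 1) * tP (q + 1) * momSumR (tP (q + 1)) a.p1 2
      rcases le_total (rn sg * M1) (2 * a.g) with hs | hs
      · nlinarith only [mul_le_mul_of_nonneg_left hk0 (sub_nonneg.2 hs), b0]
      · nlinarith only [mul_le_mul_of_nonneg_left hk1 (sub_nonneg.2 hs), b1]
    rw [middlePi_integral]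
    refine mul_neg_of_neg_of_pos ?_ (mass_one_pos isProfile_semi q)
    have h1 := mul_lt_mul_of_pos_left hb (pow_pos hu 2)
    have h2 := mul_le_mul_of_nonneg_left hc2' (mul_nonneg hg0
      (show 0 ≤ ((q : ℝ) + 2) / ((q : ℝ) + 3) by positivity))
    have e : a.g * (((q : ℝ) + 2) / ((q : ℝ) + 3)) *
        (2 * k / ((((q + 1 : ℕ) : ℝ) + 1) * (((q + 1 : ℕ) : ℝ) + 2))) =
        tP (q + 1) ^ 2 * (2 * a.g * k) := by
      simp only [tP]; push_cast; field_simp; ring
    rw [e] at h2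
    linarith only [h1, h2]
  refine ⟨0, a.g, 1, le_rfl, hg0, zero_le_one, ⟨{
    β := 1
    ell := ellM a p c2
    ell_nonneg := ell_nonneg ⟨hg0, hg1⟩ (le_trans (by norm_num) h.big.he.1) hc20 (by omega)
    V := potF p (potA a p) (potW a)
    Vy := potFY p (potA a p) (potA' a p) (potW a) (potW' a)
    Vt := potFT p (potA a p) (potW a)
    Pi := middlePi a p c2 E
    chain := fun Z Z' t _ hy hZ => potF_chain _ _ _ _ (fun y _ => hA y) (fun y _ => hW y) Z Z' t hy hZ
    along := fun Z hZ h0 hα h1 => potF_along _ _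
      (fun y _ => (hA y).continuousAt.continuousWithinAt)
      (fun y _ => (hW y).continuousAt.continuousWithinAt) Z hZ h0 hα h1
    V_zero := potF_zero _ _
    V_one := potF_one _ _
    Pi_cont := (middlePi_cont a p c2 E).continuousOn
    Pi_neg := hPineg
    point := ?_ }⟩⟩
  intro y hy t ht r lam hr hlam hlp hridge hreach _ hback hcap
  have hpow : lam ^ (p + 1) ≤ exp (k / ((p : ℝ) + 1)) := by
    rw [hk, mul_div_cancel_left₀ _ (by positivity), Real.exp_log hQp, hQ, le_div_iff₀ (by positivity)]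
    exact hlp
  have hpt : Pt p k y t r lam := ⟨hy, ht, hr, hlam, hpow, hridge, hback, hcap, hreach⟩
  have hyp : Hyp c p k y t r lam E := ⟨hp, hk2, hk1, h.hK, ⟨hg0, hg1⟩, hpt, hEk, hEI⟩
  have htarget : Target a p c2 y t r lam E := by
    obtain ⟨-, hεL, hband⟩ := hyp.facts
    have hbey : 1024 ≤ xP p y → Target a p c2 y t r lam E := fun hX =>
      beyond h.big hp hk2 hk17 hpt hE20 hεL hband hX
    rcases le_total (xP p y) 1024 with hX | hX
    · obtain ⟨tl, th, L, htl, hth, hside, hL⟩ := h.covers (tP p) ht0 ht1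
      simp only [sideCond, cstOk, Bool.and_eq_true] at hside
      obtain ⟨⟨⟨-, ⟨⟨hc1, hc2'⟩, hc3⟩⟩, -⟩, -⟩ := hside
      have h0 : rn 0 ≤ xP p y := by
        have : rn 0 = 0 := by simp [rn]
        rw [this]; unfold xP; positivity
      have htop : xP p y ≤ rn 17179869184 := by
        refine hX.trans (le_of_eq ?_); norm_num [rn, U]
      rcases sliceOk_sound hyp (Nat.le_of_ble_eq_true hc1) (capCst hc2' hc3) htl hth htop L 0 hL h0 with
        h' | h'
      · exact h'
      · exact hbey (le_of_eq_of_le (by norm_num [rn, U]) h'.ge)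
    · exact hbey hX
  have e : middlePi a p c2 E y = semi y ^ (p + 1) * (majZero p a.g 1 c2 y + tP p ^ 2 *
      ((polyR (xP p y) a.p0 + E * polyR (xP p y) a.p1 * (1 - y ^ 2) ^ 2) / (1 - y ^ 2))) := by
    have hS : 0 < 1 - y ^ 2 := by nlinarith [hy.1, hy.2]
    rw [middlePi, show p + 1 = p - 1 + 2 by omega, pow_add, semi_sq ⟨by linarith [hy.1], hy.2.le⟩]
    field_simp
  rw [e, ← hc2, add_assoc]
  exact htarget

end Vale.Agent.P237.All.Transport.Middle
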