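import Vale.Agent.P237.All.Middle.CellCert
import Vale.Agent.P237.All.Middle.Data1
import Vale.Agent.P237.All.Middle.Data2
import Vale.Agent.P237.All.Middle.Data3
import Vale.Agent.P237.All.Middle.Data4

/-!
P237, every dimension, middle regime: certificates for `k` in `[5/2, 17]` in dimension at least `128`.
-/

noncomputable section

open Real Set

namespace Vale.Agent.P237.All.Transport.Middle

open Mid (Sg U)

theorem big1 : Big cell1.a.real := by
  refine ⟨?_, ?_, ?_, ?_, ?_, ?_, ?_, ?_, fun X hX => ?_, fun X hX => ?_⟩
  case refine_9 =>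
    simp only [cell1, Par.real, List.map]
    refine poly_big ?_ ?_ ?_ hX <;> norm_num [rv, Sg.v, U]
  case refine_10 =>
    simp only [cell1, Par.real, List.map]
    refine cubic_big ?_ ?_ hX <;> norm_num [rv, Sg.v, U]
  all_goals norm_num [cell1, Par.real, rv, Sg.v, U, Set.mem_Icc]

theorem cellOk1 : CellOk cell1 41943040 16889106 0 67108 where
  hk0 := by decide +kernel
  hK := by decide +kernel
  hE0 := by decide +kernel
  hE1 := by decide +kernel
  hE1' := by decide +kernel
  hsg := by decide +kernel
  big := big1
  covers :=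
    ((covers_one (by decide +kernel) row1_0_ok).append
      ((covers_one (by decide +kernel) row1_1_ok).append
      ((covers_one (by decide +kernel) row1_2_ok).append
      ((covers_one (by decide +kernel) row1_3_ok).append
      (covers_one (by decide +kernel) row1_4_ok)))))

theorem big2 : Big cell2.a.real := by
  refine ⟨?_, ?_, ?_, ?_, ?_, ?_, ?_, ?_, fun X hX => ?_, fun X hX => ?_⟩
  case refine_9 =>
    simp only [cell2, Par.real, List.map]
    refine poly_big ?_ ?_ ?_ hX <;> norm_num [rv, Sg.v, U]
  case refine_10 =>
    simp only [cell2, Par.real, List.map]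
    refine cubic_big ?_ ?_ hX <;> norm_num [rv, Sg.v, U]
  all_goals norm_num [cell2, Par.real, rv, Sg.v, U, Set.mem_Icc]

theorem cellOk2 : CellOk cell2 41943040 16995424 67108 130056 where
  hk0 := by decide +kernel
  hK := by decide +kernel
  hE0 := by decide +kernel
  hE1 := by decide +kernel
  hE1' := by decide +kernel
  hsg := by decide +kernel
  big := big2
  covers :=
    ((covers_one (by decide +kernel) row2_0_ok).append
      (covers_one (by decide +kernel) row2_1_ok))

theorem big3 : Big cell3.a.real := by
  refine ⟨?_, ?_, ?_, ?_, ?_, ?_, ?_, ?_, fun X hX => ?_, fun X hX => ?_⟩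
  case refine_9 =>
    simp only [cell3, Par.real, List.map]
    refine poly_big ?_ ?_ ?_ hX <;> norm_num [rv, Sg.v, U]
  case refine_10 =>
    simp only [cell3, Par.real, List.map]
    refine cubic_big ?_ ?_ hX <;> norm_num [rv, Sg.v, U]
  all_goals norm_num [cell3, Par.real, rv, Sg.v, U, Set.mem_Icc]

theorem cellOk3 : CellOk cell3 55574528 16933854 0 67108 where
  hk0 := by decide +kernel
  hK := by decide +kernel
  hE0 := by decide +kernel
  hE1 := by decide +kernel
  hE1' := by decide +kernel
  hsg := by decide +kernel
  big := big3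
  covers :=
    ((covers_one (by decide +kernel) row3_0_ok).append
      ((covers_one (by decide +kernel) row3_1_ok).append
      ((covers_one (by decide +kernel) row3_2_ok).append
      ((covers_one (by decide +kernel) row3_3_ok).append
      (covers_one (by decide +kernel) row3_4_ok)))))

theorem big4 : Big cell4.a.real := by
  refine ⟨?_, ?_, ?_, ?_, ?_, ?_, ?_, ?_, fun X hX => ?_, fun X hX => ?_⟩
  case refine_9 =>
    simp only [cell4, Par.real, List.map]
    refine poly_big ?_ ?_ ?_ hX <;> norm_num [rv, Sg.v, U]
  case refine_10 =>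
    simp only [cell4, Par.real, List.map]
    refine cubic_big ?_ ?_ hX <;> norm_num [rv, Sg.v, U]
  all_goals norm_num [cell4, Par.real, rv, Sg.v, U, Set.mem_Icc]

theorem cellOk4 : CellOk cell4 55574528 17083462 67108 130056 where
  hk0 := by decide +kernel
  hK := by decide +kernel
  hE0 := by decide +kernel
  hE1 := by decide +kernel
  hE1' := by decide +kernel
  hsg := by decide +kernel
  big := big4
  covers :=
    ((covers_one (by decide +kernel) row4_0_ok).append
      (covers_one (by decide +kernel) row4_1_ok))

theorem big5 : Big cell5.a.real := by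
  refine ⟨?_, ?_, ?_, ?_, ?_, ?_, ?_, ?_, fun X hX => ?_, fun X hX => ?_⟩
  case refine_9 =>
    simp only [cell5, Par.real, List.map]
    refine poly_big ?_ ?_ ?_ hX <;> norm_num [rv, Sg.v, U]
  case refine_10 =>
    simp only [cell5, Par.real, List.map]
    refine cubic_big ?_ ?_ hX <;> norm_num [rv, Sg.v, U]
  all_goals norm_num [cell5, Par.real, rv, Sg.v, U, Set.mem_Icc]

theorem cellOk5 : CellOk cell5 77594624 17102154 0 67108 where
  hk0 := by decide +kernel
  hK := by decide +kernel
  hE0 := by decide +kernel
  hE1 := by decide +kernel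
  hE1' := by decide +kernel
  hsg := by decide +kernel
  big := big5
  covers :=
    ((covers_one (by decide +kernel) row5_0_ok).append
      ((covers_one (by decide +kernel) row5_1_ok).append
      ((covers_one (by decide +kernel) row5_2_ok).append
      (covers_one (by decide +kernel) row5_3_ok))))

theorem big6 : Big cell6.a.real := by
  refine ⟨?_, ?_, ?_, ?_, ?_, ?_, ?_, ?_, fun X hX => ?_, fun X hX => ?_⟩
  case refine_9 =>
    simp only [cell6, Par.real, List.map]
    refine poly_big ?_ ?_ ?_ hX <;> norm_num [rv, Sg.v, U]
  case refine_10 =>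
    simp only [cell6, Par.real, List.map]
    refine cubic_big ?_ ?_ hX <;> norm_num [rv, Sg.v, U]
  all_goals norm_num [cell6, Par.real, rv, Sg.v, U, Set.mem_Icc]

theorem cellOk6 : CellOk cell6 77594624 17418600 67108 130056 where
  hk0 := by decide +kernel
  hK := by decide +kernel
  hE0 := by decide +kernel
  hE1 := by decide +kernel
  hE1' := by decide +kernel
  hsg := by decide +kernel
  big := big6
  covers :=
    (covers_one (by decide +kernel) row6_0_ok)

theorem big7 : Big cell7.a.real := by
  refine ⟨?_, ?_, ?_, ?_, ?_, ?_, ?_, ?_, fun X hX => ?_, fun X hX => ?_⟩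
  case refine_9 =>
    simp only [cell7, Par.real, List.map]
    refine poly_big ?_ ?_ ?_ hX <;> norm_num [rv, Sg.v, U]
  case refine_10 =>
    simp only [cell7, Par.real, List.map]
    refine cubic_big ?_ ?_ hX <;> norm_num [rv, Sg.v, U]
  all_goals norm_num [cell7, Par.real, rv, Sg.v, U, Set.mem_Icc]

theorem cellOk7 : CellOk cell7 159383552 17367712 0 67108 where
  hk0 := by decide +kernel
  hK := by decide +kernel
  hE0 := by decide +kernel
  hE1 := by decide +kernel
  hE1' := by decide +kernel
  hsg := by decide +kernel
  big := big7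
  covers :=
    ((covers_one (by decide +kernel) row7_0_ok).append
      ((covers_one (by decide +kernel) row7_1_ok).append
      ((covers_one (by decide +kernel) row7_2_ok).append
      (covers_one (by decide +kernel) row7_3_ok))))

theorem big8 : Big cell8.a.real := by
  refine ⟨?_, ?_, ?_, ?_, ?_, ?_, ?_, ?_, fun X hX => ?_, fun X hX => ?_⟩
  case refine_9 =>
    simp only [cell8, Par.real, List.map]
    refine poly_big ?_ ?_ ?_ hX <;> norm_num [rv, Sg.v, U]
  case refine_10 =>
    simp only [cell8, Par.real, List.map]
    refine cubic_big ?_ ?_ hX <;> norm_num [rv, Sg.v, U]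
  all_goals norm_num [cell8, Par.real, rv, Sg.v, U, Set.mem_Icc]

theorem cellOk8 : CellOk cell8 159383552 17960673 67108 130056 where
  hk0 := by decide +kernel
  hK := by decide +kernel
  hE0 := by decide +kernel
  hE1 := by decide +kernel
  hE1' := by decide +kernel
  hsg := by decide +kernel
  big := big8
  covers :=
    ((covers_one (by decide +kernel) row8_0_ok).append
      (covers_one (by decide +kernel) row8_1_ok))

/-- A certificate at every common integral of the middle regime, in dimension at least `128`. -/
theorem hasCert_middle (p : ℕ) (hp : 127 ≤ p) (J : ℝ)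
    (lower : exp ((5 / 2) / ((p : ℝ) + 1)) * (2 * mass (p + 1) semi 1) ≤ J)
    (upper : J ≤ exp (17 / ((p : ℝ) + 1)) * (2 * mass (p + 1) semi 1)) : HasCert p J := by
  have hp' : (127 : ℝ) ≤ p := by exact_mod_cast hp
  have h0 : rn 0 ≤ tP p := le_of_eq_of_le (by simp [rn]) (tP_pos p).le
  have h1 : tP p ≤ rn 130056 := (one_div_le_one_div_of_le (by norm_num) (by linarith : (129 : ℝ) ≤ (p : ℝ) + 2)).trans
    (by norm_num [rn, U])
  rcases le_total J (exp (rn 55574528 / ((p : ℝ) + 1)) * (2 * mass (p + 1) semi 1)) with hj1 | hj1
  · rcases le_total (tP p) (rn 67108) with ht | ht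
    · exact hasCert_cell cellOk1 hp h0 ht J (le_trans (le_of_eq (by norm_num [rn, U])) lower) hj1
    · exact hasCert_cell cellOk2 hp ht h1 J (le_trans (le_of_eq (by norm_num [rn, U])) lower) hj1
  rcases le_total J (exp (rn 77594624 / ((p : ℝ) + 1)) * (2 * mass (p + 1) semi 1)) with hj2 | hj2
  · rcases le_total (tP p) (rn 67108) with ht | ht
    · exact hasCert_cell cellOk3 hp h0 ht J hj1 hj2
    · exact hasCert_cell cellOk4 hp ht h1 J hj1 hj2
  rcases le_total J (exp (rn 159383552 / ((p : ℝ) + 1)) * (2 * mass (p + 1) semi 1)) with hj3 | hj3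
  · rcases le_total (tP p) (rn 67108) with ht | ht
    · exact hasCert_cell cellOk5 hp h0 ht J hj2 hj3
    · exact hasCert_cell cellOk6 hp ht h1 J hj2 hj3
  rcases le_total (tP p) (rn 67108) with ht | ht
  · exact hasCert_cell cellOk7 hp h0 ht J hj3 (upper.trans (le_of_eq (by norm_num [rn, U, cell7])))
  · exact hasCert_cell cellOk8 hp ht h1 J hj3 (upper.trans (le_of_eq (by norm_num [rn, U, cell8])))

end Vale.Agent.P237.All.Transport.Middle
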