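import Vale.Agent.P237.All.Middle.Form
import Vale.Agent.P237.All.Mid.Region
import Vale.Agent.P237.All.High.Tail

/-!
P237, every dimension, middle regime: the test of one box of `X = (p + 2) y ^ 2`, `t = 1 / (p + 2)`,
written for evaluation by the kernel.
-/

noncomputable section

namespace Vale.Agent.P237.All.Transport.Middle

open Mid (Sg AF U)

/-- A constant at the scale. -/
def cst (n : ℕ) : AF := AF.const (Sg.ofN n)

/-- One half, exactly. -/
def cHalf : AF := cst 8388608

/-- How the cap on `w` is obtained: at the point itself, from a point below, or from `Reach`. -/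
inductive Cap
  | self (x1 z e : ℕ)
  | shift (xu x1 z e sy : ℕ)
  | wide (x0 x1 sy : ℕ)

/-- The multipliers of a box. -/
inductive Piece
  | bulk (W : ℕ) (c : Cap) (M kh kl : ℕ)
  | tail (W : ℕ) (c : Cap) (Kb l kT gm : ℕ)
  | far (x0 x1 wd kk : ℕ)
  | skip

/-- A cell: the constants, the top of `k`, and the range of `E`. -/
structure Cell where
  a : Par
  K : ℕ
  E0 : ℕ
  E1 : ℕ

/-- The thirty-second power. -/
def pow32 {α : Type} (x : AF) (k : AF → α) : α :=
  (x.mul x).force fun a => (a.mul a).force fun b => (b.mul b).force fun c =>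
  (c.mul c).force fun d => (d.mul d).force k

/-- A test of `exp z ≤ e`. -/
def expOk (z e : ℕ) : Bool :=
  ((cst z).mul (cst 262144)).force fun h => ((cN 1).sub h).force fun d =>
  pow32 d fun m => pow32 ((cN 1).add h) fun q =>
  ps d && nn (((cst e).mul m).sub q)

/-- A test of `log W ≤ l`. -/
def logOk (W l : ℕ) : Bool :=
  ((cst l).mul (cst 524288)).force fun h =>
  pow32 (((cN 1).add h).add ((h.mul h).mul cHalf)) fun q => nn (q.sub (cst W))

/-- The bound on `mills x` from above. -/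
def millsUp (x : ℕ) : AF :=
  (cst x).add ((cst 30198989).mul ((cst x).add (cst 37245419)).inv)

/-- `t / (1 - t)` at the top of `t`. -/
def epsUp (th : ℕ) : AF := (cst th).mul ((cN 1).sub (cst th)).inv

/-- `1 / (1 + ε - k ε / 2)`. -/
def gamUp (K th : ℕ) : AF :=
  (((cN 1).add (epsUp th)).sub (((cst K).mul (epsUp th)).mul cHalf)).inv

/-- The bound on the mass, scaled. -/
def massUp (th : ℕ) : AF := (cst 21027221).mul ((cN 1).add ((epsUp th).mul cHalf))

/-- The bound on `lam`. -/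
def lamUp (K th : ℕ) : AF :=
  (cN 1).add (((cst K).mul ((epsUp th).mul (epsUp th))).scale 2 1)

/-- The bound on `w semi y` from `Reach`, with `x0 ≤ x ≤ x1`. -/
def wideUp {α : Type} (x0 x1 : ℕ) (k : Bool → AF → α) : α :=
  ((cst x0).mul (cst x0)).force fun x2 =>
  ((((((cN 1).add (x2.mul cHalf)).add ((x2.mul x2).mul (cst 2097152))).mul (cst 21026884))).mul
    ((cst x0).add ((cst 30198988).mul ((cst x0).add (cst 37245420)).inv))).force fun d =>
  ((cst 16642998).mul ((cN 1).sub d.inv)).force fun q => (q.mul q).force fun q2 =>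
  (((((cN 1).add q).add (q2.mul cHalf)).add ((q2.mul q).mul (cst 2796202))).add
    ((q2.mul q2).mul (cst 699050))).force fun l =>
  k (ps ((cst x0).add (cst 37245420)) && ps ((cst x1).add (cst 37245419)) &&
      nn (d.sub (cN 1)) && ps d && ps l)
    (((cst 34670117).mul (millsUp x1)).mul l.inv)

/-- A test that `w ≤ W` on the box. -/
def capOk (K xl xh tl th W : ℕ) : Cap → Bool
  | .self x1 z e =>
    ((cN 1).sub ((cst xh).mul (cst th))).force fun d =>
    nn (((cst x1).mul (cst x1)).sub (cst xh)) && ps d &&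
    nn ((((cst z).scale 2 1).mul d).sub (cst xh)) && expOk z e &&
    ps ((cst x1).add (cst 37245419)) &&
    nn ((cst W).sub ((cN 1).add ((epsUp th).mul ((cst K).mul (((epsUp th).add (epsUp th)).add
      ((((lamUp K th).mul (gamUp K th)).mul (massUp th)).mul (millsUp x1) |>.mul (cst e)))))))
  | .shift xu x1 z e sy =>
    ((cst xu).mul (cst xu)).force fun Xu => ((cN 1).sub (Xu.mul (cst th))).force fun d =>
    ((cst xu).mul ((Xu.mul ((cN 1).sub (cst th))).add (cN 3))).force fun den =>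
    nn (((cst x1).mul (cst x1)).sub (cst xh)) && ps d && ps den && ps (cst xu) &&
    nn ((cst xl).sub Xu) && nn ((((cst z).scale 2 1).mul d).sub Xu) && expOk z e &&
    ps ((cst x1).add (cst 37245419)) &&
    nn ((((cst sy).mul (cst sy)).mul ((cN 1).sub (((cst x1).mul (cst x1)).mul (cst th)))).sub (cN 1)) &&
    nn ((cst W).sub ((((lamUp K th).mul (millsUp x1)).mul
      ((((((cst K).mul (gamUp K th)).mul (epsUp th)).mul (massUp th)).mul (cst e)).add
        (((cN 1).sub ((Xu.mul (cst tl)).mul cHalf)).mul ((Xu.add (cN 2)).mul den.inv)))).mul (cst sy)))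
  | .wide x0 x1 sy =>
    wideUp x0 x1 fun ok w =>
    ok && nn (((cst x1).mul (cst x1)).sub (cst xh)) && nn ((cst xl).sub ((cst x0).mul (cst x0))) &&
    nn ((((cst sy).mul (cst sy)).mul ((cN 1).sub (((cst x1).mul (cst x1)).mul (cst th)))).sub (cN 1)) &&
    nn ((cst W).sub (w.mul (cst sy)))

/-- A test of the conditions on one side of `σ = 0`. -/
def sideOk (R C B B2 S Q k P : AF) : Bool :=
  ((k.mul S).mul Q |>.scale 4 1 |>.sub (C.mul C)).force fun D => (C.mul B).force fun CB =>
  ps Q && ps D && nn ((((Q.mul S).mul P).scale 4 1).sub B2) &&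
  (nn ((((Q.mul R).mul S).scale 2 1).add CB).neg' ||
    nn ((D.mul P).sub ((((S.mul Q).mul (R.mul R)).add (R.mul CB)).add (k.mul B2))))

/-- `2 te E S t τ`. -/
def thetaAF (V : Vals) (E1 : ℕ) : AF :=
  (((V.te.scale 2 1).mul (cst E1)).mul (V.S.mul V.t)).mul V.τ

/-- The test of a box in the bulk. -/
def bulkOk (E1 W M kh kl : ℕ) (V : Vals) : Bool :=
  (V.X.mul (V.L.add (V.S.mul V.P1))).force fun B => (B.mul B).force fun B2 =>
  nn V.te.neg' && nn V.P1 && ps (cst W) && ps ((cst W).add (cN 1)) && nn ((cst W).sub (cN 1)) &&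
  nn (((cst M).mul V.S).sub (((V.S.scale 4 1).add V.K1).sub (thetaAF V E1))) &&
  nn ((((cN 4).add (V.τ.mul ((cst W).inv.scale 4 1))).sub
    ((cst M).mul (((cst W).mul ((cst W).add (cN 1)).inv).add (V.τ.mul cHalf)))).sub
      ((cst kh).mul (cst W))) &&
  nn ((((cN 4).add (V.τ.scale 4 1)).sub ((cst M).mul (cHalf.add (V.τ.mul cHalf)))).sub (cst kl)) &&
  sideOk V.R V.C B B2 V.S V.Q (cst kh) V.P0 &&
  sideOk V.R.neg' V.C.neg' B B2 V.S (V.Q.add ((V.X.mul V.t).scale 4 1)) (cst kl) V.P0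

/-- The test of a box in the tail. -/
def tailOk (E0 E1 W Kb l kT gm : ℕ) (V : Vals) : Bool :=
  (((cst W).add (cN 1)).mul cHalf).force fun ρ => (V.R.mul ρ).force fun R1 =>
  ((cst l).mul V.t).force fun lt =>
  (V.X.mul V.t).force fun Xt => (V.C.sub ((cst gm).mul Xt)).force fun cc =>
  ((V.Q.mul V.S).sub ((V.X.mul ((cHalf.sub V.t).add lt)).mul (V.t.mul R1))).force fun Y =>
  (((R1.sub V.L).mul V.S).sub (V.P1.mul (V.S.mul V.S))).force fun b =>
  ((V.C.mul V.S).mul V.X.inv).force fun cf =>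
  ((cf.mul cf).mul (((cN 4).sub (cst Kb)).scale 2 1).inv).force fun cf2 =>
  nn V.te.neg' && nn V.R && ps V.X && nn ((cst W).sub (cN 1)) && logOk W l &&
  ps ((cst W).add (cN 1)) && ps (((cN 4).sub (cst Kb)).scale 2 1) &&
  nn (((cst Kb).mul V.S).sub (V.K1.sub (thetaAF V E1))) &&
  nn (((((cst W).add (cN 1)).inv.scale 4 1).sub
    ((cst Kb).mul (((cst W).mul ((cst W).add (cN 1)).inv).add (V.τ.mul cHalf)))).sub (cst kT)) &&
  nn ((V.L.add (R1.mul (((cN 1).sub (V.t.add V.t)).add (lt.add lt)))).add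
    (((cst gm).mul ((cst W).sub (cN 1))).mul V.S)).neg' &&
  nn cc && nn Y && nn ((((cst kT).mul Y).scale 4 1).sub ((cc.mul cc).mul (cst W))) &&
  nn (V.P0.sub ((b.mul (cst E0)).add (cf2.mul ((cst E0).mul (cst E0))))) &&
  nn (V.P0.sub ((b.mul (cst E1)).add (cf2.mul ((cst E1).mul (cst E1)))))

/-- The test of a box far from zero. -/
def farOk (E0 E1 xl xh x0 x1 wd kk : ℕ) (c : Sg) (V : Vals) : Bool :=
  V.t.inv.force fun ti => (V.S.mul V.S).force fun S2 =>
  (((((V.t.mul V.R).add (cst kk)).mul (cst wd)).add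
    (((cst kk).mul (cst kk)).mul (cst 2097152))).mul ti |>.mul ti).force fun a0 =>
  ((((V.C.mul S2).mul V.X.inv).mul ti).sub ((V.L.mul V.S).add (V.P1.mul S2))).force fun b =>
  wideUp x0 x1 fun ok w =>
  ok && nn (((cst x1).mul (cst x1)).sub (cst xh)) && nn ((cst xl).sub ((cst x0).mul (cst x0))) &&
  nn ((cst wd).sub w) && Sg.le (Sg.ofN 0) c &&
  nn V.te.neg' && nn V.R && nn V.Q && ps V.X && ps V.t &&
  nn ((cst kk).sub (V.K1.sub (thetaAF V E1))) &&
  nn (((V.X.mul V.t).mul V.L).add (V.C.mul (cst wd))).neg' &&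
  nn (V.P0.sub (a0.add (b.mul (cst E0)))) && nn (V.P0.sub (a0.add (b.mul (cst E1))))

/-- The box of given ends. -/
def mkBox (a : Par) (xl xh tl th : ℕ) : Box where
  xc := Nat.div (Nat.add xl xh) 2
  xh := Nat.sub xh (Nat.div (Nat.add xl xh) 2)
  tc := Nat.div (Nat.add tl th) 2
  th := Nat.sub th (Nat.div (Nat.add tl th) 2)
  pa := Nat.ble a.ka.pos xl
  pb := Nat.ble a.kb.pos xl

/-- The evaluation of a box followed by a test. -/
def withVals (c : Cell) (xl xh tl th : ℕ) (k : Vals → Bool) : Bool :=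
  pieceOk c.a (mkBox c.a xl xh tl th) &&
  ps ((cN 1).sub ((mkBox c.a xl xh tl th).afT.add (mkBox c.a xl xh tl th).afT)) &&
  vals c.a (mkBox c.a xl xh tl th) k

/-- The test of one box. -/
def boxOk (c : Cell) (xl xh tl th : ℕ) : Piece → Bool
  | .bulk W cp M kh kl =>
    capOk c.K xl xh tl th W cp && withVals c xl xh tl th (bulkOk c.E1 W M kh kl)
  | .tail W cp Kb l kT gm =>
    capOk c.K xl xh tl th W cp && withVals c xl xh tl th (tailOk c.E0 c.E1 W Kb l kT gm)
  | .far x0 x1 wd kk =>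
    withVals c xl xh tl th (farOk c.E0 c.E1 xl xh x0 x1 wd kk c.a.c)
  | .skip => nn (((cst xl).mul (cst tl)).sub (cN 1))

/-- The test of a slice in `t`: the boxes chain from `lo` to `top`. -/
def sliceOk (c : Cell) (tl th top : ℕ) : List (ℕ × Piece) → ℕ → Bool
  | [], lo => Nat.ble top lo
  | (hi, pc) :: l, lo => Nat.ble lo hi && boxOk c lo hi tl th pc && sliceOk c tl th top l hi

end Vale.Agent.P237.All.Transport.Middle
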