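import Vale.Agent.P237.All.Middle.Pot
import Vale.Agent.P237.All.Mid.Num

/-!
P237, every dimension, middle regime: the reduced coefficients in affine forms over a box of
`X = (p + 2) y ^ 2` and `t = 1 / (p + 2)`, evaluated strictly for the kernel.
-/

noncomputable section

open Real Set

namespace Vale.Agent.P237.All.Transport.Middle

open Mid (Sg AF U U_pos U_ne)

/-- The real number of a scaled constant. -/
def rv (x : Sg) : ℝ := x.v / U

/-- An integer at the scale. -/
def sgi (n : ℕ) : Sg := ⟨n * 16777216, 0⟩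

/-- The constant `n`. -/
def cN (n : ℕ) : AF := AF.const (sgi n)

/-- The constants of a cell at the scale `2 ^ 24`. -/
structure Par where
  g : Sg
  e : Sg
  r0 : Sg
  r1 : Sg
  r2 : Sg
  r3 : Sg
  ka : Sg
  kb : Sg
  c : Sg
  p0 : List Sg
  p1 : List Sg

/-- The constants over the reals. -/
def Par.real (a : Par) : RPar where
  g := rv a.g
  e := rv a.e
  r0 := rv a.r0
  r1 := rv a.r1
  r2 := rv a.r2
  r3 := rv a.r3
  ka := rv a.ka
  kb := rv a.kb
  c := rv a.c
  p0 := a.p0.map rv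
  p1 := a.p1.map rv

/-- A box by centre and half width, and whether it lies beyond each knot. -/
structure Box where
  xc : ℕ
  xh : ℕ
  tc : ℕ
  th : ℕ
  pa : Bool
  pb : Bool

/-- The interval of `X` of a box. -/
def Box.X (B : Box) : Set ℝ := Icc (((B.xc : ℝ) - B.xh) / U) (((B.xc : ℝ) + B.xh) / U)

/-- The interval of `t` of a box. -/
def Box.T (B : Box) : Set ℝ := Icc (((B.tc : ℝ) - B.th) / U) (((B.tc : ℝ) + B.th) / U)

/-- The form of `X`. -/
def Box.afX (B : Box) : AF := ⟨⟨B.xc, 0⟩, ⟨B.xh, 0⟩, ⟨0, 0⟩, 0⟩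

/-- The form of `t`. -/
def Box.afT (B : Box) : AF := ⟨⟨B.tc, 0⟩, ⟨0, 0⟩, ⟨B.th, 0⟩, 0⟩

/-- A polynomial in affine forms. -/
def polyAF {α : Type} (x : AF) : List Sg → (AF → α) → α
  | [], k => k (AF.const ⟨0, 0⟩)
  | n :: l, k => polyAF x l fun v => (x.mul v).force fun w => ((AF.const n).add w).force k

/-- The value of `polyAF`. -/
def polyV (x : AF) : List Sg → AF
  | [] => AF.const ⟨0, 0⟩
  | n :: l => (AF.const n).add (x.mul (polyV x l))

/-- The coefficients on a box. -/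
structure Vals where
  X : AF
  t : AF
  v : AF
  τ : AF
  te : AF
  S : AF
  R : AF
  L : AF
  C : AF
  Q : AF
  K1 : AF
  P0 : AF
  P1 : AF

/-- The test that the box lies on the pieces it claims. -/
def pieceOk (a : Par) (B : Box) : Bool :=
  (bif B.pa then Sg.le (a.ka.add (Sg.ofN B.xh)) (Sg.ofN B.xc)
    else Sg.le ((Sg.ofN B.xc).add (Sg.ofN B.xh)) a.ka) &&
  (bif B.pb then Sg.le (a.kb.add (Sg.ofN B.xh)) (Sg.ofN B.xc)
    else Sg.le ((Sg.ofN B.xc).add (Sg.ofN B.xh)) a.kb)

/-- The knot and its derivative on a piece. -/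
def knotAF (past : Bool) (k : Sg) (X : AF) : AF × AF :=
  bif past then
    ((AF.const (k.smul 2)).mul X |>.sub ((AF.const k).mul (AF.const k)), AF.const (k.smul 2))
  else (X.mul X, X.add X)

/-- The evaluation. -/
def vals {α : Type} (a : Par) (B : Box) (k : Vals → α) : α :=
  B.afX.force fun X => B.afT.force fun t =>
  ((cN 1).sub (t.add t)).force fun v => (t.mul v.inv).force fun τ =>
  (((AF.const a.g).mul ((cN 1).add (t.add t))).sub (cN 1)).force fun te =>
  ((AF.const a.g).add (cN 5) |>.add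
    (((AF.const a.g).add (cN 1) |>.mul τ).scale 4 1)).force fun q =>
  ((cN 1).sub (X.mul t)).force fun S =>
  (knotAF B.pa a.ka X).1.force fun ka => (knotAF B.pa a.ka X).2.force fun ka' =>
  (knotAF B.pb a.kb X).1.force fun kb => (knotAF B.pb a.kb X).2.force fun kb' =>
  (((AF.const a.r0).add ((AF.const a.r1).mul X)).add ((AF.const a.r2).mul ka) |>.add
    ((AF.const a.r3).mul kb)).force fun R =>
  (((AF.const a.r1).add ((AF.const a.r2).mul ka')).add ((AF.const a.r3).mul kb')).force fun R' =>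
  ((((R'.add q).scale 2 1).mul S).add ((te.scale 2 1).mul (((cN 2).sub t).sub X)) |>.sub
    (((cN 1).sub t).mul ((R.add (AF.const a.e)).add (X.mul q)))).force fun L =>
  ((((AF.const a.c).scale 2 1).mul S).sub (((X.scale 2 1).mul te).mul τ)).force fun C =>
  ((AF.const a.c).add (X.mul ((AF.const a.c).sub
    (((AF.const a.g).add (cN 1)).mul ((cN 1).add (t.add t)))))).force fun Q =>
  (((te.scale 2 1).mul ((cN 1).sub t)).add (t.mul ((AF.const a.e).add (X.mul q)))).force fun K1 =>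
  polyAF X a.p0 fun P0 => polyAF X a.p1 fun P1 =>
  k ⟨X, t, v, τ, te, S, R, L, C, Q, K1, P0, P1⟩

/-- The test that a form is nonnegative. -/
def nn (f : AF) : Bool := Sg.le (Sg.ofN 0) f.low

/-- The test that a form is positive. -/
def ps (f : AF) : Bool := Sg.lt (Sg.ofN 0) f.low

variable {S T : ℝ}

theorem nn_sound {f : AF} {u : ℝ} (h : nn f = true) (hf : f.Has S T u) (hS : |S| ≤ 1) (hT : |T| ≤ 1) :
    0 ≤ u := by
  have h1 := (Sg.le_iff h).trans (hf.low_le hS hT)
  rw [Sg.ofN_v, Nat.cast_zero] at h1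
  exact nonneg_of_mul_nonneg_left h1 U_pos

theorem ps_sound {f : AF} {u : ℝ} (h : ps f = true) (hf : f.Has S T u) (hS : |S| ≤ 1) (hT : |T| ≤ 1) :
    0 < u := by
  have h1 := (Sg.lt_iff h).trans_le (hf.low_le hS hT)
  rw [Sg.ofN_v, Nat.cast_zero] at h1
  exact pos_of_mul_pos_left h1 U_pos.le

theorem ps_posPart {f : AF} (h : ps f = true) : 0 < f.low.posPart := by
  simp only [ps, Sg.lt_def, Nat.blt_eq, Sg.ofN] at h
  simp only [Sg.posPart_def]; omega

theorem has_c (x : Sg) : (AF.const x).Has S T (rv x) :=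
  AF.has_const (by rw [rv, div_mul_cancel₀ _ U_ne])

theorem has_cN (n : ℕ) : (cN n).Has S T n :=
  AF.has_const (by simp [sgi, Sg.v, U])

theorem has_scale {f : AF} {u : ℝ} (hf : f.Has S T u) (hS : |S| ≤ 1) (hT : |T| ≤ 1) (n : ℕ) :
    (f.scale n 1).Has S T (n * u) := by
  have := hf.scale hS hT n (d := 1) Nat.one_pos
  rwa [Nat.cast_one, div_one, mul_comm] at this

theorem has_add_self {f : AF} {u : ℝ} (hf : f.Has S T u) : (f.add f).Has S T (2 * u) := by
  rw [two_mul]; exact hf.add hf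

theorem param_mem {c h : ℕ} {x : ℝ} (hx : x ∈ Icc (((c : ℝ) - h) / U) (((c : ℝ) + h) / U)) :
    ∃ s : ℝ, |s| ≤ 1 ∧ x * U = c + h * s := by
  obtain ⟨h0, h1⟩ := hx
  rw [div_le_iff₀ U_pos] at h0
  rw [le_div_iff₀ U_pos] at h1
  rcases Nat.eq_zero_or_pos h with rfl | hh
  · refine ⟨0, by simp, ?_⟩
    rw [Nat.cast_zero] at h0 h1 ⊢
    linarith
  · have hh' : (0 : ℝ) < h := Nat.cast_pos.2 hh
    refine ⟨(x * U - c) / h, ?_, by field_simp; ring⟩
    rw [abs_div, abs_of_pos hh', div_le_one hh', abs_le]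
    constructor <;> linarith

theorem knot_eq {k X : ℝ} (past : Bool) (h : if past then k ≤ X else X ≤ k) :
    knot k X = (bif past then 2 * k * X - k * k else X * X) ∧
      knot' k X = (bif past then 2 * k else X + X) := by
  cases past
  · simp only [Bool.false_eq_true, if_false] at h
    simp [knot, knot', max_eq_left (sub_nonpos.2 h)]; constructor <;> ring
  · simp only [if_true] at h
    simp [knot, knot', max_eq_right (sub_nonneg.2 h)]; constructor <;> ring

theorem has_knot {k : Sg} {X : AF} {x : ℝ} (past : Bool) (hX : X.Has S T x) (hS : |S| ≤ 1) (hT : |T| ≤ 1)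
    (h : if past then rv k ≤ x else x ≤ rv k) :
    (knotAF past k X).1.Has S T (knot (rv k) x) ∧ (knotAF past k X).2.Has S T (knot' (rv k) x) := by
  obtain ⟨e1, e2⟩ := knot_eq past h
  rw [e1, e2]
  cases past
  · exact ⟨hX.mul hX hS hT, hX.add hX⟩
  · have h2 : (AF.const (k.smul 2)).Has S T (2 * rv k) := by
      refine AF.has_const ?_
      rw [Sg.smul_v, rv, mul_assoc, div_mul_cancel₀ _ U_ne]; norm_num
    exact ⟨(h2.mul hX hS hT).sub ((has_c k).mul (has_c k) hS hT), h2⟩

theorem polyAF_eq {α : Type} (X : AF) :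
    ∀ (l : List Sg) (k : AF → α), polyAF X l k = k (polyV X l)
  | [], _ => rfl
  | n :: l, k => by rw [polyAF, polyAF_eq X l, AF.force_eq, AF.force_eq]; rfl

theorem has_poly {X : AF} {x : ℝ} (hX : X.Has S T x) (hS : |S| ≤ 1) (hT : |T| ≤ 1) :
    ∀ l : List Sg, (polyV X l).Has S T (polyR x (l.map rv))
  | [] => by simpa [polyR, polyV, rv, Sg.v] using has_c (S := S) (T := T) ⟨0, 0⟩
  | n :: l => (has_c n).add (hX.mul (has_poly hX hS hT l) hS hT)

/-- The values represent the coefficients. -/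
structure Vals.Has (V : Vals) (a : RPar) (S T x u : ℝ) : Prop where
  X : V.X.Has S T x
  t : V.t.Has S T u
  v : V.v.Has S T (1 - 2 * u)
  τ : V.τ.Has S T (u / (1 - 2 * u))
  te : V.te.Has S T (a.te u)
  S' : V.S.Has S T (1 - x * u)
  R : V.R.Has S T (a.R x)
  L : V.L.Has S T (a.L x u)
  C : V.C.Has S T (a.C x u)
  Q : V.Q.Has S T (a.Q x u)
  K1 : V.K1.Has S T (a.K1 x u)
  P0 : V.P0.Has S T (polyR x a.p0)
  P1 : V.P1.Has S T (polyR x a.p1)

theorem piece_sound {k : Sg} {B : Box} {past : Bool}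
    (h : (bif past then Sg.le (k.add (Sg.ofN B.xh)) (Sg.ofN B.xc)
      else Sg.le ((Sg.ofN B.xc).add (Sg.ofN B.xh)) k) = true) {x : ℝ} (hx : x ∈ B.X) :
    if past then rv k ≤ x else x ≤ rv k := by
  obtain ⟨h0, h1⟩ := hx
  cases past
  · simp only [cond_false] at h
    have := Sg.le_iff h
    rw [Sg.add_v, Sg.ofN_v, Sg.ofN_v] at this
    simp only [Bool.false_eq_true, if_false]
    exact h1.trans (div_le_div_of_nonneg_right this U_pos.le)
  · simp only [cond_true] at h
    have := Sg.le_iff h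
    rw [Sg.add_v, Sg.ofN_v, Sg.ofN_v] at this
    simp only [if_true]
    exact (div_le_div_of_nonneg_right (by linarith) U_pos.le).trans h0

/-- The evaluation represents the coefficients at every point of the box. -/
theorem vals_sound (a : Par) (B : Box) (hB : pieceOk a B = true)
    (hv : ps ((cN 1).sub (B.afT.add B.afT)) = true) {x u : ℝ} (hx : x ∈ B.X) (hu : u ∈ B.T) :
    ∃ V : Vals, (∀ {α : Type} (k : Vals → α), vals a B k = k V) ∧
      ∃ S T : ℝ, |S| ≤ 1 ∧ |T| ≤ 1 ∧ V.Has a.real S T x u := by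
  obtain ⟨S, hS, eS⟩ := param_mem hx
  obtain ⟨T, hT, eT⟩ := param_mem hu
  simp only [pieceOk, Bool.and_eq_true] at hB
  have pa := piece_sound hB.1 hx
  have pb := piece_sound hB.2 hx
  have hX : B.afX.Has S T x := by simp [AF.Has, Box.afX, Sg.v, eS]
  have ht : B.afT.Has S T u := by simp [AF.Has, Box.afT, Sg.v, eT]
  have h1 : (cN 1).Has S T 1 := by simpa using has_cN (S := S) (T := T) 1
  have h2 : (cN 2).Has S T 2 := by simpa using has_cN (S := S) (T := T) 2
  have h5 : (cN 5).Has S T 5 := by simpa using has_cN (S := S) (T := T) 5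
  have htt := has_add_self ht
  have hv' := h1.sub htt
  have hτ : (B.afT.mul ((cN 1).sub (B.afT.add B.afT)).inv).Has S T (u / (1 - 2 * u)) :=
    ht.mul (hv'.inv hS hT (ps_posPart hv)) hS hT
  have hte := ((has_c a.g).mul (h1.add htt) hS hT).sub h1
  have hq := ((has_c (S := S) (T := T) a.g).add h5).add
    (has_scale (((has_c a.g).add h1).mul hτ hS hT) hS hT 4)
  have hS' := h1.sub (hX.mul ht hS hT)
  obtain ⟨hka, hka'⟩ := has_knot B.pa hX hS hT pa
  obtain ⟨hkb, hkb'⟩ := has_knot B.pb hX hS hT pb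
  have hR := (((has_c a.r0).add ((has_c a.r1).mul hX hS hT)).add
    ((has_c a.r2).mul hka hS hT)).add ((has_c a.r3).mul hkb hS hT)
  have hR' := ((has_c a.r1).add ((has_c a.r2).mul hka' hS hT)).add ((has_c a.r3).mul hkb' hS hT)
  have hL := (((has_scale (hR'.add hq) hS hT 2).mul hS' hS hT).add
    ((has_scale hte hS hT 2).mul ((h2.sub ht).sub hX) hS hT)).sub
      ((h1.sub ht).mul ((hR.add (has_c a.e)).add (hX.mul hq hS hT)) hS hT)
  have hC := ((has_scale (has_c a.c) hS hT 2).mul hS' hS hT).sub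
    (((has_scale hX hS hT 2).mul hte hS hT).mul hτ hS hT)
  have hQ := (has_c a.c).add (hX.mul ((has_c a.c).sub (((has_c a.g).add h1).mul (h1.add htt) hS hT))
    hS hT)
  have hK1 := ((has_scale hte hS hT 2).mul (h1.sub ht) hS hT).add
    (ht.mul ((has_c a.e).add (hX.mul hq hS hT)) hS hT)
  have hf0 := has_poly hX hS hT a.p0
  have hf1 := has_poly hX hS hT a.p1
  push_cast at hL hC hK1
  obtain ⟨fL, hfL, eL⟩ : ∃ f : AF, f.Has S T (a.real.L x u) ∧ f = _ :=
    ⟨_, by convert hL using 1; simp only [RPar.L, RPar.te, RPar.q, RPar.R', RPar.R, Par.real]; ring, rfl⟩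
  obtain ⟨fC, hfC, eC⟩ : ∃ f : AF, f.Has S T (a.real.C x u) ∧ f = _ :=
    ⟨_, by convert hC using 1; simp only [RPar.C, RPar.te, Par.real], rfl⟩
  obtain ⟨fK, hfK, eK⟩ : ∃ f : AF, f.Has S T (a.real.K1 x u) ∧ f = _ :=
    ⟨_, by convert hK1 using 1; simp only [RPar.K1, RPar.te, RPar.q, Par.real]; ring, rfl⟩
  subst eL eC eK
  refine ⟨⟨B.afX, B.afT, _, _, _, _, _, _, _, _, _, _, _⟩, fun {α} k => ?_,
    S, T, hS, hT, hX, ht, hv', hτ, hte, hS', hR, hfL, hfC, hQ, hfK, hf0, hf1⟩
  simp only [vals, AF.force_eq]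
  rw [polyAF_eq, polyAF_eq]

end Vale.Agent.P237.All.Transport.Middle
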