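import Vale.Agent.P237.All.Middle.Cap

/-!
P237, every dimension, middle regime: two-sided rational bounds on the tail of the semicircle
masses, and the sharper form of the lower band (`notes/P237h3/middle-m30-02Dec.md`).
-/

noncomputable section

open MeasureTheory Set Filter Real intervalIntegral

namespace Vale.Agent.P237.All.Transport.Middle

/-- A rational bound from above on the reciprocal of the Gaussian Mills ratio. -/
def mills2 (x : ℝ) : ℝ := x + (x + 17 / 4) / (x ^ 2 + 11 / 3 * x + 133 / 25)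

theorem mills2_pos {x : ℝ} (hx : 0 ≤ x) : 0 < mills2 x := by
  unfold mills2
  positivity

/-- The sharper lower bound on the tail. -/
theorem tail_ge3 (p : ℕ) {y : ℝ} (hy : y ∈ Icc (0 : ℝ) 1) :
    semi y ^ (p + 2) / (√((p : ℝ) + 2) * mills2 (√((p : ℝ) + 2) * y)) ≤
      mass p semi 1 - mass p semi y := by
  set A : ℝ := (p : ℝ) + 2 with hA
  have hA0 : 0 < A := by positivity
  have hsA : 0 < √A := Real.sqrt_pos.2 hA0
  set G : ℝ → ℝ := fun u =>
    mass p semi 1 - mass p semi u - semi u ^ (p + 2) / (√A * mills2 (√A * u)) with hG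
  have hden : ∀ u, 0 ≤ u → 0 < √A * mills2 (√A * u) := fun u hu =>
    mul_pos hsA (mills2_pos (mul_nonneg hsA.le hu))
  have hne : ∀ u : ℝ, 0 ≤ u → (√A * u) ^ 2 + 11 / 3 * (√A * u) + 133 / 25 ≠ 0 := fun u hu => by
    positivity
  have hc : ContinuousOn G (Icc 0 1) := by
    refine (continuousOn_const.sub (Continuous.continuousOn (continuous_iff_continuousAt.2
      fun u => (semi_mass_hasDerivAt p u).continuousAt))).sub
      (((semi_continuous.pow _).continuousOn).div ?_ fun u hu => (hden u hu.1).ne')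
    refine continuousOn_const.mul ((continuousOn_const.mul continuousOn_id).add ?_)
    exact ContinuousOn.div (by fun_prop) (by fun_prop) fun u hu => hne u hu.1
  have hd : ∀ u ∈ Ioo (0 : ℝ) 1, HasDerivAt G (-semi u ^ p + semi u ^ p *
      (A * u * (√A * mills2 (√A * u)) + semi u ^ 2 * A *
        (1 - ((√A * u) ^ 2 + 17 / 2 * (√A * u) + 3079 / 300) /
          ((√A * u) ^ 2 + 11 / 3 * (√A * u) + 133 / 25) ^ 2)) /
        (√A * mills2 (√A * u)) ^ 2) u := by
    intro u hu
    have hu' : u ∈ Ioo (-1 : ℝ) 1 := ⟨by linarith [hu.1], hu.2⟩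
    have hl := (hasDerivAt_id u).const_mul √A
    have hden' := (hl.add ((hl.add_const (17 / 4 : ℝ)).div
      (((hl.pow 2).add (hl.const_mul (11 / 3 : ℝ))).add_const (133 / 25 : ℝ))
      (hne u hu.1.le))).const_mul √A
    have h := ((semi_mass_hasDerivAt p u).const_sub (mass p semi 1)).sub
      (((semi_hasDerivAt hu').pow (p + 2)).div hden' (hden u hu.1.le).ne')
    refine h.congr_deriv ?_
    have hs0 := (semi_pos hu').ne'
    have hd0 := (hden u hu.1.le).ne'
    have hn := hne u hu.1.le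
    have hq := sq_sqrt hA0.le
    simp only [Pi.pow_apply, Pi.add_apply, Pi.div_apply, id_eq, mul_one, pow_one,
      show p + 2 - 1 = p + 1 from rfl, show 2 - 1 = 1 from rfl, Nat.cast_add, Nat.cast_ofNat,
      ← hA, mills2] at hd0 hn ⊢
    generalize hs : √A = s at hd0 hn hq ⊢
    rw [← hq]
    field_simp
    ring
  have hanti : AntitoneOn G (Icc 0 1) := by
    refine antitoneOn_of_deriv_nonpos (convex_Icc _ _) hc ?_ ?_
    · intro u hu; rw [interior_Icc] at hu; exact (hd u hu).differentiableAt.differentiableWithinAt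
    · intro u hu
      rw [interior_Icc] at hu
      rw [(hd u hu).deriv, neg_add_nonpos_iff, mul_div_assoc]
      refine mul_le_of_le_one_right (pow_nonneg (Real.sqrt_nonneg _) _) ?_
      rw [div_le_one (pow_pos (hden u hu.1.le) 2)]
      set x := √A * u with hx
      rw [mul_pow √A (mills2 x), sq_sqrt hA0.le]
      have hx0 : 0 ≤ x := mul_nonneg hsA.le hu.1.le
      have e : A * u * (√A * mills2 x) = A * (x * mills2 x) := by rw [hx]; ring
      rw [e, semi_sq ⟨by linarith [hu.1], hu.2.le⟩]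
      have hg : 0 < x ^ 2 + 11 / 3 * x + 133 / 25 := by positivity
      have hd1 : 0 ≤ 1 - (x ^ 2 + 17 / 2 * x + 3079 / 300) / (x ^ 2 + 11 / 3 * x + 133 / 25) ^ 2 := by
        rw [sub_nonneg, div_le_one (by positivity)]
        nlinarith [mul_nonneg hx0 (sq_nonneg x), sq_nonneg (x ^ 2)]
      have key : x * mills2 x +
          (1 - (x ^ 2 + 17 / 2 * x + 3079 / 300) / (x ^ 2 + 11 / 3 * x + 133 / 25) ^ 2) ≤
            mills2 x ^ 2 := by
        simp only [mills2]
        field_simp
        nlinarith [mul_nonneg hx0 (sq_nonneg (x - 81 / 80))]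
      nlinarith [mul_le_mul_of_nonneg_left key hA0.le,
        mul_le_mul_of_nonneg_left (mul_le_of_le_one_left hd1 (show (1 - u ^ 2) ≤ 1 by nlinarith)) hA0.le]
  have h := hanti hy (right_mem_Icc.2 zero_le_one) hy.2
  have h1 : G 1 = 0 := by simp [hG, semi, zero_pow (show p + 2 ≠ 0 by omega)]
  rw [h1] at h
  simp only [hG] at h
  linarith

/-- A rational bound from below on the reciprocal Mills ratio of `semi ^ p` at `u`. -/
def millsLow (p : ℕ) (u : ℝ) : ℝ :=
  √((p : ℝ) + 2) * u + (1 - u ^ 2) * ((√((p : ℝ) + 2) * u + 313 / 100) /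
    ((√((p : ℝ) + 2) * u) ^ 2 + 313 / 100 * (√((p : ℝ) + 2) * u) + 201 / 50))

theorem millsLow_pos (p : ℕ) {u : ℝ} (hu : u ∈ Ico (0 : ℝ) 1) : 0 < millsLow p u := by
  have h : 0 < 1 - u ^ 2 := by nlinarith [hu.1, hu.2]
  have hx : 0 ≤ √((p : ℝ) + 2) * u := mul_nonneg (Real.sqrt_nonneg _) hu.1
  unfold millsLow
  positivity

/-- The sharper upper bound on the tail. -/
theorem tail_le2 {p : ℕ} (hp : 29 ≤ p) {y : ℝ} (hy : y ∈ Ico (0 : ℝ) 1) :
    mass p semi 1 - mass p semi y ≤ semi y ^ (p + 2) / (√((p : ℝ) + 2) * millsLow p y) := by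
  set A : ℝ := (p : ℝ) + 2 with hA
  have hA31 : (31 : ℝ) ≤ A := by
    have : (29 : ℝ) ≤ p := by exact_mod_cast hp
    linarith
  have hA0 : 0 < A := by linarith
  have hsA : 0 < √A := Real.sqrt_pos.2 hA0
  have hq := sq_sqrt hA0.le
  set L : ℝ → ℝ := fun u => millsLow p u with hL
  set G : ℝ → ℝ := fun u =>
    mass p semi 1 - mass p semi u - semi u ^ (p + 2) / (√A * L u) with hG
  have hne : ∀ u : ℝ, 0 ≤ u → (√A * u) ^ 2 + 313 / 100 * (√A * u) + 201 / 50 ≠ 0 := fun u hu => by
    positivity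
  have hLpos : ∀ u ∈ Icc (0 : ℝ) 1, 0 < L u := by
    intro u hu
    rcases hu.2.lt_or_eq with h | h
    · exact millsLow_pos p ⟨hu.1, h⟩
    · subst h; simp [hL, millsLow, ← hA, hsA]
  have hc : ContinuousOn G (Icc 0 1) := by
    refine (continuousOn_const.sub (Continuous.continuousOn (continuous_iff_continuousAt.2
      fun u => (semi_mass_hasDerivAt p u).continuousAt))).sub
      (((semi_continuous.pow _).continuousOn).div ?_ fun u hu => (mul_pos hsA (hLpos u hu)).ne')
    refine continuousOn_const.mul ?_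
    simp only [hL, millsLow, ← hA]
    exact (continuousOn_const.mul continuousOn_id).add ((by fun_prop : ContinuousOn _ _).mul
      (ContinuousOn.div (by fun_prop) (by fun_prop) fun u hu => hne u hu.1))
  set D : ℝ → ℝ := fun x => x ^ 2 + 313 / 100 * x + 201 / 50 with hD
  set L' : ℝ → ℝ := fun u => √A - 2 * u * ((√A * u + 313 / 100) / D (√A * u)) +
    (1 - u ^ 2) * (√A * ((D (√A * u) - (√A * u + 313 / 100) * (2 * (√A * u) + 313 / 100)) /
      D (√A * u) ^ 2)) with hL'
  have hd : ∀ u ∈ Ioo (0 : ℝ) 1, HasDerivAt G (-semi u ^ p + semi u ^ p *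
      (A * u * L u + semi u ^ 2 * L' u) / (√A * L u ^ 2)) u := by
    intro u hu
    have hu' : u ∈ Ioo (-1 : ℝ) 1 := ⟨by linarith [hu.1], hu.2⟩
    have hl := (hasDerivAt_id u).const_mul √A
    have hn := hne u hu.1.le
    have hLd : HasDerivAt L (L' u) u := by
      have h := hl.add ((((hasDerivAt_id u).pow 2).const_sub 1).mul
        ((hl.add_const (313 / 100 : ℝ)).div
          (((hl.pow 2).add (hl.const_mul (313 / 100 : ℝ))).add_const (201 / 50 : ℝ)) hn))
      refine (h.congr_of_eventuallyEq (Eventually.of_forall fun v => ?_)).congr_deriv ?_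
      · simp [hL, millsLow, hA]
      · simp only [Pi.pow_apply, Pi.add_apply, Pi.div_apply, id_eq, mul_one, pow_one, hL', hD,
          show 2 - 1 = 1 from rfl, Nat.cast_ofNat] at hn ⊢
        generalize hd : (√A * u) ^ 2 + 313 / 100 * (√A * u) + 201 / 50 = d at hn ⊢
        field_simp
        rw [← hd]
        ring
    have h := ((semi_mass_hasDerivAt p u).const_sub (mass p semi 1)).sub
      (((semi_hasDerivAt hu').pow (p + 2)).div (hLd.const_mul √A)
        (mul_pos hsA (hLpos u ⟨hu.1.le, hu.2.le⟩)).ne')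
    refine h.congr_deriv ?_
    have hs0 := (semi_pos hu').ne'
    have hd0 := (hLpos u ⟨hu.1.le, hu.2.le⟩).ne'
    have hsA0 := hsA.ne'
    simp only [Pi.pow_apply, show p + 2 - 1 = p + 1 from rfl, Nat.cast_add, Nat.cast_ofNat, ← hA]
    field_simp
    ring
  have hmono : MonotoneOn G (Icc 0 1) := by
    refine monotoneOn_of_deriv_nonneg (convex_Icc _ _) hc ?_ ?_
    · intro u hu; rw [interior_Icc] at hu; exact (hd u hu).differentiableAt.differentiableWithinAt
    · intro u hu
      rw [interior_Icc] at hu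
      have hL0 := hLpos u ⟨hu.1.le, hu.2.le⟩
      rw [(hd u hu).deriv, le_neg_add_iff_le, mul_div_assoc]
      refine le_mul_of_one_le_right (pow_nonneg (Real.sqrt_nonneg _) _) ?_
      rw [one_le_div (mul_pos hsA (pow_pos hL0 2))]
      have hn := hne u hu.1.le
      have hs2 : 0 ≤ 1 - u ^ 2 := by nlinarith [hu.1, hu.2]
      rw [semi_sq ⟨by linarith [hu.1], hu.2.le⟩]
      simp only [hL, millsLow, ← hA, hL', hD]
      generalize hs : √A = s at hn hq hsA ⊢
      have hx0 : 0 ≤ s * u := mul_nonneg hsA.le hu.1.le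
      have hd : 0 < (s * u) ^ 2 + 313 / 100 * (s * u) + 201 / 50 := by positivity
      have ht : 0 ≤ 1 / 31 - 1 / A := sub_nonneg.2 (one_div_le_one_div_of_le (by norm_num) hA31)
      have key : 0 ≤ (201 / 50 - 2) * (s * u) ^ 2 + (201 / 50 - 4) * (313 / 100) * (s * u) +
          ((201 / 50) ^ 2 + 201 / 50 - 2 * (313 / 100) ^ 2) -
          1 / A * (3 * (201 / 50) * (s * u) ^ 2 + 2 * (313 / 100) * (201 / 50) * (s * u)) := by
        nlinarith [mul_nonneg ht (show (0 : ℝ) ≤ 3 * (201 / 50) * (s * u) ^ 2 +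
          2 * (313 / 100) * (201 / 50) * (s * u) by positivity), sq_nonneg (s * u - 23 / 100)]
      have e : A * u * (s * u + (1 - u ^ 2) * ((s * u + 313 / 100) /
          ((s * u) ^ 2 + 313 / 100 * (s * u) + 201 / 50))) + (1 - u ^ 2) * (s - 2 * u *
          ((s * u + 313 / 100) / ((s * u) ^ 2 + 313 / 100 * (s * u) + 201 / 50)) + (1 - u ^ 2) *
          (s * (((s * u) ^ 2 + 313 / 100 * (s * u) + 201 / 50 - (s * u + 313 / 100) *
            (2 * (s * u) + 313 / 100)) / ((s * u) ^ 2 + 313 / 100 * (s * u) + 201 / 50) ^ 2))) -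
          s * (s * u + (1 - u ^ 2) * ((s * u + 313 / 100) /
            ((s * u) ^ 2 + 313 / 100 * (s * u) + 201 / 50))) ^ 2 =
          s * (1 - u ^ 2) * ((201 / 50 - 2) * (s * u) ^ 2 + (201 / 50 - 4) * (313 / 100) * (s * u) +
          ((201 / 50) ^ 2 + 201 / 50 - 2 * (313 / 100) ^ 2) -
          1 / A * (3 * (201 / 50) * (s * u) ^ 2 + 2 * (313 / 100) * (201 / 50) * (s * u))) /
          ((s * u) ^ 2 + 313 / 100 * (s * u) + 201 / 50) ^ 2 := by
        rw [← hq]
        field_simp
        ring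
      have := div_nonneg (mul_nonneg (mul_nonneg hsA.le hs2) key)
        (sq_nonneg ((s * u) ^ 2 + 313 / 100 * (s * u) + 201 / 50))
      linarith
  have h := hmono ⟨hy.1, hy.2.le⟩ (right_mem_Icc.2 zero_le_one) hy.2.le
  have h1 : G 1 = 0 := by simp [hG, semi, zero_pow (show p + 2 ≠ 0 by omega)]
  rw [h1] at h
  simp only [hG, hL] at h
  linarith

/-- The lower mass band with the sharper tail bound. -/
theorem band_back2 {p : ℕ} (hp : 29 ≤ p) {y t lam : ℝ} (hy : y ∈ Ioo (0 : ℝ) 1)
    (ht : t ∈ Ioo (0 : ℝ) 1) (hlam : 1 ≤ lam)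
    (h : mass p semi 1 - mass p semi t ≤ lam ^ p * (mass p semi 1 - mass p semi y)) :
    y - t ≤ (lam ^ p - 1) * (1 - y ^ 2) / (√((p : ℝ) + 2) * millsLow p y) := by
  have hε : 0 ≤ lam ^ p - 1 := sub_nonneg.2 (one_le_pow₀ hlam)
  have hy2 : 0 < 1 - y ^ 2 := by nlinarith [hy.1, hy.2]
  have hA : 0 < √((p : ℝ) + 2) * millsLow p y :=
    mul_pos (Real.sqrt_pos.2 (by positivity)) (millsLow_pos p ⟨hy.1.le, hy.2⟩)
  rcases le_total y t with hyt | hyt
  · exact le_trans (by linarith) (div_nonneg (mul_nonneg hε hy2.le) hA.le)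
  have hs := semi_pos (t := y) ⟨by linarith [hy.1], hy.2⟩
  have hi : ∀ a b : ℝ, IntervalIntegrable (fun v => semi v ^ p) volume a b := fun a b =>
    (semi_continuous.pow p).intervalIntegrable a b
  have h1 : (y - t) * semi y ^ p ≤ mass p semi y - mass p semi t := by
    rw [mass, mass, intervalIntegral.integral_interval_sub_left (hi 0 y) (hi 0 t)]
    refine le_trans (le_of_eq (by rw [intervalIntegral.integral_const, smul_eq_mul]))
      (intervalIntegral.integral_mono_on hyt intervalIntegrable_const (hi t y) fun v hv => ?_)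
    refine pow_le_pow_left₀ hs.le (Real.sqrt_le_sqrt ?_) p
    nlinarith [hv.1, hv.2, ht.1]
  have h2 := mul_le_mul_of_nonneg_left (tail_le2 hp ⟨hy.1.le, hy.2⟩) hε
  have h3 : (y - t) * semi y ^ p ≤
      (lam ^ p - 1) * (semi y ^ p * (1 - y ^ 2) / (√((p : ℝ) + 2) * millsLow p y)) := by
    rw [pow_add, semi_sq ⟨by linarith [hy.1], hy.2.le⟩] at h2
    linarith
  refine le_of_mul_le_mul_right ?_ (pow_pos hs p)
  exact h3.trans (le_of_eq (by ring))

end Vale.Agent.P237.All.Transport.Middle
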