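import Vale.Agent.P237.All.Middle.Mills

/-!
P237, every dimension, middle regime: the ratio of consecutive semicircle masses to second order,
and the sharper bound on `w` from `Reach` (`notes/P237h3/middle-m30-02Dec.md`).
-/

noncomputable section

open MeasureTheory Set Filter Real intervalIntegral

namespace Vale.Agent.P237.All.Transport.Middle

/-- The ratio of consecutive masses, to second order. -/
theorem mass_ratio_le2 (p : ℕ) :
    mass p semi 1 / mass (p + 1) semi 1 ≤ exp (1 / (2 * ((p : ℝ) + 2))) := by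
  set g : ℕ → ℝ := fun q =>
    log (mass q semi 1) - log (mass (q + 1) semi 1) - 1 / (2 * ((q : ℝ) + 2)) with hg
  have step : ∀ q, g q ≤ g (q + 2) := by
    intro q
    have h0 := (mass_one_pos isProfile_semi q).ne'
    have h1 := (mass_one_pos isProfile_semi (q + 1)).ne'
    have a := mass_semi_step q
    have b := mass_semi_step (q + 1)
    have hl : log (((q : ℝ) + 3) ^ 2 / (((q : ℝ) + 2) * ((q : ℝ) + 4))) ≤
        1 / (2 * ((q : ℝ) + 2)) - 1 / (2 * ((q : ℝ) + 4)) := by
      refine (Real.log_le_sub_one_of_pos (by positivity)).trans (le_of_eq ?_)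
      field_simp
      ring
    rw [log_div (by positivity) (by positivity), log_pow, log_mul (by positivity) (by positivity)] at hl
    simp only [hg]
    rw [show q + 2 + 1 = q + 1 + 2 from rfl, a, b, log_mul (by positivity) h0,
      log_mul (by positivity) h1, log_div (by positivity) (by positivity),
      log_div (by positivity) (by positivity)]
    push_cast at hl ⊢
    rw [show (q : ℝ) + 1 + 2 = q + 3 by ring, show (q : ℝ) + 1 + 3 = q + 4 by ring,
      show (q : ℝ) + 2 + 2 = q + 4 by ring]
    linarith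
  have chain : ∀ k, g p ≤ g (p + 2 * k) := by
    intro k
    induction k with
    | zero => simp
    | succ k ih => exact ih.trans (step _)
  have hg0 : g p ≤ 0 := by
    by_contra hc
    rw [not_le] at hc
    obtain ⟨k, hk⟩ := exists_nat_gt (1 / g p)
    have hb : g (p + 2 * k) ≤ 1 / (2 * (((p + 2 * k : ℕ) : ℝ) + 1)) := by
      have h := (Real.log_le_iff_le_exp (div_pos (mass_one_pos isProfile_semi _)
        (mass_one_pos isProfile_semi _))).2 (mass_ratio_le (p + 2 * k))
      rw [log_div (mass_one_pos isProfile_semi _).ne' (mass_one_pos isProfile_semi _).ne'] at h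
      have : (0 : ℝ) ≤ 1 / (2 * (((p + 2 * k : ℕ) : ℝ) + 2)) := by positivity
      simp only [hg]
      linarith
    have hk' := (div_lt_iff₀ hc).1 hk
    have h := (chain k).trans hb
    rw [le_div_iff₀ (by positivity)] at h
    push_cast at h
    have hp : (0 : ℝ) ≤ p := Nat.cast_nonneg p
    have hk0 : (0 : ℝ) ≤ k := Nat.cast_nonneg k
    nlinarith [mul_nonneg hc.le hp, mul_nonneg hc.le hk0]
  simp only [hg] at hg0
  refine (Real.log_le_iff_le_exp (div_pos (mass_one_pos isProfile_semi p)
    (mass_one_pos isProfile_semi (p + 1)))).1 ?_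
  rw [log_div (mass_one_pos isProfile_semi p).ne' (mass_one_pos isProfile_semi (p + 1)).ne']
  linarith

/-- `Reach` bounds `w = r⁻ᵖ` through any lower bound `v₀` on the tail, to second order. -/
theorem reach_log_le2 (p : ℕ) {y r v₀ : ℝ} (hy : y ∈ Ioo (0 : ℝ) 1) (hr : 0 < r) (h : Reach p y r)
    (hv0 : 0 < v₀) (hvv : v₀ ≤ tailFrac p y) :
    -((p : ℝ) * log r) ≤ (p : ℝ) * (log (semi y) + 1 / (2 * ((p : ℝ) + 2)) -
      log v₀ / ((p : ℝ) + 1) - (1 - v₀) / ((p : ℝ) + 2) -
        ((1 - v₀) / ((p : ℝ) + 2)) ^ 2 / 2) := by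
  have hs := semi_pos (t := y) ⟨by linarith [hy.1], hy.2⟩
  have h0 := mass_one_pos isProfile_semi p
  have h1 := mass_one_pos isProfile_semi (p + 1)
  have hρ : log (mass p semi 1) - log (mass (p + 1) semi 1) ≤ 1 / (2 * ((p : ℝ) + 2)) := by
    rw [← Real.log_div h0.ne' h1.ne']
    exact (Real.log_le_iff_le_exp (div_pos h0 h1)).2 (mass_ratio_le2 p)
  set m : ℝ := (p : ℝ) + 1 with hm
  have hm0 : 0 < m := by positivity
  have hA : (p : ℝ) + 2 = m + 1 := by rw [hm]; ring
  rw [Reach, hA] at h
  rw [hA] at hρ ⊢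
  set v := tailFrac p y with hv
  have hvp : 0 < v := hv0.trans_le hvv
  have hv1 : v ≤ 1 := by
    rw [hv, tailFrac, div_le_one h0]
    have : 0 ≤ mass p semi y := intervalIntegral.integral_nonneg hy.1.le fun u _ =>
      pow_nonneg (Real.sqrt_nonneg _) _
    linarith
  set e := 1 / m with he
  have hge : 1 ≤ v ^ (-e) := Real.one_le_rpow_of_pos_of_le_one_of_nonpos hvp hv1 (by
    rw [neg_nonpos]; positivity)
  have hlow : mass (p + 1) semi 1 ≤
      semi y * r * mass p semi 1 * (exp (-(e * log v)) * (m + v)) / (m + 1) := by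
    rw [le_div_iff₀ (by linarith : (0 : ℝ) < m + 1)]
    refine h.trans (mul_le_mul_of_nonneg_left ?_ (by positivity))
    rw [show exp (-(e * log v)) = v ^ (-e) by rw [rpow_def_of_pos hvp]; congr 1; ring]
    nlinarith [mul_le_mul_of_nonneg_left hge hvp.le]
  have hl := Real.log_le_log h1 hlow
  rw [log_div (by positivity) (by linarith : m + 1 ≠ 0), log_mul (by positivity) (by positivity),
    log_mul (exp_pos _).ne' (by linarith : m + v ≠ 0), log_exp, log_mul (by positivity) h0.ne',
    log_mul hs.ne' hr.ne'] at hl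
  have hmono : -(e * log v) + log (m + v) ≤ -(e * log v₀) + log (m + v₀) := by
    have hlog : 1 - v₀ / v ≤ log v - log v₀ := by
      rw [← Real.log_div hvp.ne' hv0.ne']
      have := Real.one_sub_inv_le_log_of_pos (div_pos hvp hv0)
      rwa [inv_div] at this
    have hlog2 : log (m + v) - log (m + v₀) ≤ (v - v₀) / (m + v₀) := by
      rw [← Real.log_div (by linarith) (by linarith)]
      refine (Real.log_le_sub_one_of_pos (div_pos (by linarith) (by linarith))).trans (le_of_eq ?_)
      rw [div_sub_one (by linarith : m + v₀ ≠ 0)]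
      ring
    have he0 : 0 ≤ e := by positivity
    have h2 : (v - v₀) / (m + v₀) ≤ e * (1 - v₀ / v) := by
      rw [he, one_sub_div hvp.ne', div_mul_div_comm, one_mul,
        div_le_div_iff₀ (by linarith) (by positivity)]
      refine mul_le_mul_of_nonneg_left ?_ (sub_nonneg.2 hvv)
      nlinarith
    have h3 := mul_le_mul_of_nonneg_left hlog he0
    linarith
  have hlog1 : log (m + v₀) - log (m + 1) ≤
      -((1 - v₀) / (m + 1)) - ((1 - v₀) / (m + 1)) ^ 2 / 2 := by
    set a := (1 - v₀) / (m + 1) with ha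
    have hv01 : v₀ ≤ 1 := hvv.trans hv1
    have ha0 : 0 ≤ a := div_nonneg (by linarith) (by linarith)
    have ha1 : a < 1 := by rw [ha, div_lt_one (by linarith)]; linarith
    have hs := sum_le_hasSum (Finset.range 2) (fun i _ => by positivity)
      (Real.hasSum_pow_div_log_of_abs_lt_one (x := a) (by rw [abs_of_nonneg ha0]; exact ha1))
    simp only [Finset.sum_range_succ, Finset.sum_range_zero] at hs
    rw [← Real.log_div (by linarith) (by linarith),
      show (m + v₀) / (m + 1) = 1 - a by rw [ha]; field_simp; ring]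
    norm_num at hs
    linarith
  refine (mul_le_mul_of_nonneg_left (show -log r ≤ log (semi y) + 1 / (2 * (m + 1)) - log v₀ / m -
    (1 - v₀) / (m + 1) - ((1 - v₀) / (m + 1)) ^ 2 / 2 by
      rw [show log v₀ / m = e * log v₀ by rw [he]; ring]; linarith) (Nat.cast_nonneg p)).trans_eq' ?_
  ring

end Vale.Agent.P237.All.Transport.Middle
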