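import Vale.Agent.P237.All.TailPoint

/-!
P237, every dimension, middle regime: the reduced inequality in `σ = (w - 1) / tt` and
`ψ = (t - y) / (y tt)`, `tt = 1 / (p + 2)`, from the majorant
(`notes/P237h3/middle-template-b1-02Dec.md`).
-/

noncomputable section

open Real Set

namespace Vale.Agent.P237.All.Transport.Middle

/-- The conditions on one side of `σ = 0`. -/
def Side (R C B S Q κ P : ℝ) : Prop :=
  0 < Q ∧ C ^ 2 < 4 * κ * S * Q ∧ B ^ 2 ≤ 4 * Q * S * P ∧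
    (2 * Q * R * S + C * B ≤ 0 ∨
      S * Q * R ^ 2 + C * R * B + κ * B ^ 2 ≤ (4 * κ * S * Q - C ^ 2) * P)

theorem Side.bound {R C B S Q κ P σ ψ : ℝ} (h : Side R C B S Q κ P) (hS : 0 < S) (hσ : 0 ≤ σ) :
    S * (R * σ + C * σ * ψ - κ * S * σ ^ 2 - Q * ψ ^ 2) + B * ψ ≤ P := by
  obtain ⟨hQ, hd, h0, h1⟩ := h
  set D := 4 * κ * S * Q - C ^ 2 with hD
  set L := 2 * Q * R * S + C * B with hL
  have hD0 : 0 < D := sub_pos.2 hd
  have hsq : 4 * Q * S * (S * (R * σ + C * σ * ψ - κ * S * σ ^ 2 - Q * ψ ^ 2) + B * ψ) ≤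
      B ^ 2 + 2 * (S * σ) * L - D * (S * σ) ^ 2 := by
    rw [hD, hL]; nlinarith [sq_nonneg (2 * Q * S * ψ - B - C * S * σ)]
  have hx : 0 ≤ S * σ := mul_nonneg hS.le hσ
  refine le_of_mul_le_mul_left (hsq.trans ?_) (show 0 < 4 * Q * S by positivity)
  rcases h1 with h1 | h1
  · nlinarith [mul_nonpos_of_nonneg_of_nonpos hx h1, mul_nonneg hD0.le (sq_nonneg (S * σ))]
  · refine le_of_mul_le_mul_left ?_ hD0
    have e : D * B ^ 2 + L ^ 2 = 4 * Q * S * (S * Q * R ^ 2 + C * R * B + κ * B ^ 2) := by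
      rw [hD, hL]; ring
    nlinarith [sq_nonneg (D * (S * σ) - L),
      mul_le_mul_of_nonneg_left h1 (show 0 ≤ 4 * Q * S by positivity)]

/-- The density and the potential in the bulk. -/
theorem bulk_le (p : ℕ) (hp : 2 ≤ p) {g ell lam c2 A LA U LU y t r tt X S R L C Q M W κl κh P0 P1 E : ℝ}
    (hy : y ∈ Ioo (0 : ℝ) 1) (hr : 0 < r) (hg : 0 ≤ g) (hg' : g ≤ 1)
    (htt : tt = 1 / ((p : ℝ) + 2)) (hX : X = ((p : ℝ) + 2) * y ^ 2) (hS : S = 1 - y ^ 2)
    (hRe : majRe p g 1 1 ell c2 A y = tt * R)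
    (hLe : majLe p g 1 1 LA y * y * S = X * tt * L)
    (hCx : majCross p g 1 1 U y * y = C)
    (hQ : ((g + 1) * ((p : ℝ) + 4) + LU) * y ^ 2 = -Q)
    (hKw : majKw p g 1 1 ell c2 y (t - y) ≤ M * S) (hM : 0 ≤ M)
    (hband : (y - t) * X ≤ E * tt * S * y) (hP1 : 0 ≤ P1)
    (hW : r ≤ 1 → (r ^ p)⁻¹ ≤ W) (hW1 : 1 ≤ W) (hκh0 : 0 ≤ κh) (hκl0 : 0 ≤ κl)
    (hκl : κl ≤ 4 * (1 + 1 / (p : ℝ)) - M * (1 / 2 + 1 / (2 * (p : ℝ))))
    (hκh : κh * W ≤ 4 * (1 + 1 / ((p : ℝ) * W)) - M * (W / (W + 1) + 1 / (2 * (p : ℝ))))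
    (hhi : Side R C (X * (L + S * P1)) S Q κh P0)
    (hlo : Side (-R) (-C) (X * (L + S * P1)) S (Q + 4 * X * tt) κl P0) :
    density p 0 g 1 1 ell lam c2 y t r + semi y ^ (p + 1) *
        (LA * (t - y) + A * ((r ^ p)⁻¹ - 1) + LU * (t - y) ^ 2 +
          2 * U * (t - y) * ((r ^ p)⁻¹ - 1)) ≤
      semi y ^ (p + 1) * (majZero p g 1 c2 y + tt ^ 2 * ((P0 + E * P1 * S ^ 2) / S)) := by
  have hp0 : (0 : ℝ) < p := Nat.cast_pos.2 (by omega)
  have hy0 := hy.1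
  have hy' : y ∈ Icc (-1 : ℝ) 1 := ⟨by linarith, hy.2.le⟩
  have hS0 : 0 < S := by rw [hS]; nlinarith only [hy.1, hy.2]
  have htt0 : 0 < tt := by rw [htt]; positivity
  have hX0 : 0 < X := by rw [hX]; positivity
  have hKp : majKp 1 1 y (t - y) = 4 * S := by
    rw [hS, majKp, majC]; ring
  have hcC : (1 : ℝ) * majC 1 1 = 4 := by norm_num [majC]
  set σ := ((r ^ p)⁻¹ - 1) / tt with hσ
  set ψ := (t - y) / (y * tt) with hψ
  have es : (r ^ p)⁻¹ - 1 = tt * σ := by rw [hσ]; field_simp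
  have eθ : t - y = y * tt * ψ := by rw [hψ]; field_simp
  have hσw : 0 ≤ (r ^ p)⁻¹ - 1 → 0 ≤ σ := fun h => div_nonneg h htt0.le
  have hσw' : (r ^ p)⁻¹ - 1 ≤ 0 → σ ≤ 0 := fun h => div_nonpos_of_nonpos_of_nonneg h htt0.le
  clear_value σ ψ
  have hmul : 0 ≤ P1 * (X * ψ + E * S) := by
    refine mul_nonneg hP1 ?_
    have : 0 ≤ (y * tt) * (X * ψ + E * S) := by
      have e1 : (t - y) * X = y * tt * (X * ψ) := by rw [eθ]; ring
      linarith only [hband, e1]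
    exact nonneg_of_mul_nonneg_right this (by positivity)
  -- both sides reduce to this
  have key : ∀ (q κ c : ℝ),
      c * y ^ 2 = -q →
      S * (R * σ + C * σ * ψ - κ * S * σ ^ 2 - q * ψ ^ 2) + X * (L + S * P1) * ψ ≤ P0 →
      majLin p g 1 1 ell c2 A LA U y (t - y) ((r ^ p)⁻¹ - 1) - κ * S * ((r ^ p)⁻¹ - 1) ^ 2 +
        c * (t - y) ^ 2 ≤ tt ^ 2 * ((P0 + E * P1 * S ^ 2) / S) := by
    intro q κ c hc hb
    have hlin : majLin p g 1 1 ell c2 A LA U y (t - y) ((r ^ p)⁻¹ - 1) =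
        majRe p g 1 1 ell c2 A y * ((r ^ p)⁻¹ - 1) + majLe p g 1 1 LA y * (t - y) +
          majCross p g 1 1 U y * (t - y) * ((r ^ p)⁻¹ - 1) := rfl
    rw [hlin, hRe, es, eθ, ← mul_div_assoc, le_div_iff₀ hS0]
    have e : (tt * R * (tt * σ) + majLe p g 1 1 LA y * (y * tt * ψ) +
        majCross p g 1 1 U y * (y * tt * ψ) * (tt * σ) - κ * S * (tt * σ) ^ 2 +
        c * (y * tt * ψ) ^ 2) * S =
        tt ^ 2 * (S * (R * σ + C * σ * ψ - κ * S * σ ^ 2 - q * ψ ^ 2) + X * L * ψ) := by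
      linear_combination (tt * ψ) * hLe + (tt ^ 2 * σ * ψ * S) * hCx + (tt ^ 2 * ψ ^ 2 * S) * hc
    rw [e]
    refine mul_le_mul_of_nonneg_left ?_ (sq_nonneg tt)
    nlinarith only [hb, mul_nonneg hS0.le hmul]
  rcases le_total r 1 with hr1 | hr1
  · refine (density_maj_one_le p (by omega) (LA := LA) (A := A) (U := U) (LU := LU) hy' hr hr1 hg
      zero_le_one zero_le_one (by rw [hKp]; positivity)).trans ?_
    refine mul_le_mul_of_nonneg_left ?_ (pow_nonneg (Real.sqrt_nonneg _) _)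
    have hv0 := pow_pos hr p
    have hw1 : 1 ≤ (r ^ p)⁻¹ := (one_le_inv₀ hv0).2 (pow_le_one₀ hr.le hr1)
    have hσ0 : 0 ≤ σ := hσw (by linarith only [hw1])
    have hk := key Q κh _ hQ (hhi.bound hS0 hσ0)
    have hwW := hW hr1
    set w := (r ^ p)⁻¹ with hw
    rw [hKp]
    have hq : ((g + 1 * 1 ^ 2) * ((p : ℝ) + 4) + LU -
        1 * majC 1 1 * max 0 (1 - ((p : ℝ) + 1) / p * (w - 1))) * (t - y) ^ 2 ≤
        ((g + 1) * ((p : ℝ) + 4) + LU) * (t - y) ^ 2 := by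
      refine mul_le_mul_of_nonneg_right ?_ (sq_nonneg _)
      have := le_max_left 0 (1 - ((p : ℝ) + 1) / p * (w - 1))
      rw [hcC]; linarith only [this]
    have hK : κh * S * (w - 1) ^ 2 ≤ (4 * S * (1 + 1 / ((p : ℝ) * w)) -
        max 0 (majKw p g 1 1 ell c2 y (t - y)) * (w / (w + 1) + 1 / (2 * (p : ℝ)))) *
          ((w - 1) ^ 2 / w) := by
      have h1 : max 0 (majKw p g 1 1 ell c2 y (t - y)) ≤ M * S :=
        max_le (mul_nonneg hM hS0.le) hKw
      have hw0 : 0 < w := by linarith only [hw1]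
      have h2 : w / (w + 1) ≤ W / (W + 1) := by
        rw [div_le_div_iff₀ (by positivity) (by positivity)]; linarith only [hwW]
      have h3 : 1 / ((p : ℝ) * W) ≤ 1 / ((p : ℝ) * w) :=
        one_div_le_one_div_of_le (by positivity) (mul_le_mul_of_nonneg_left hwW hp0.le)
      have h4 : κh * w ≤ 4 * (1 + 1 / ((p : ℝ) * w)) - M * (w / (w + 1) + 1 / (2 * (p : ℝ))) := by
        have := mul_le_mul_of_nonneg_left h2 hM
        have := mul_le_mul_of_nonneg_left hwW hκh0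
        linarith only [this, h3, hκh, mul_le_mul_of_nonneg_left h2 hM]
      have h5 := mul_le_mul_of_nonneg_right h1 (show 0 ≤ w / (w + 1) + 1 / (2 * (p : ℝ)) by positivity)
      have h6 := mul_le_mul_of_nonneg_left h4 hS0.le
      rw [show κh * S * (w - 1) ^ 2 = S * (κh * w) * ((w - 1) ^ 2 / w) by field_simp]
      exact mul_le_mul_of_nonneg_right (by linarith only [h5, h6]) (by positivity)
    linarith only [hk, hq, hK]
  · refine (density_maj_le_one p hp (LA := LA) (A := A) (U := U) (LU := LU) hy' hr1 zero_le_one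
      zero_le_one (by rw [hKp]; positivity) ?_).trans ?_
    · rw [hcC]
      have hp2 : (2 : ℝ) ≤ p := by exact_mod_cast hp
      nlinarith only [hg', hp2]
    refine mul_le_mul_of_nonneg_left ?_ (pow_nonneg (Real.sqrt_nonneg _) _)
    have hv1 : 1 ≤ r ^ p := one_le_pow₀ hr1
    have hw1 : (r ^ p)⁻¹ ≤ 1 := inv_le_one_of_one_le₀ hv1
    have hw0 : 0 < (r ^ p)⁻¹ := inv_pos.2 (by linarith only [hv1])
    have hσ0 : σ ≤ 0 := hσw' (by linarith only [hw1])
    have hb := hlo.bound (ψ := ψ) hS0 (neg_nonneg.2 hσ0)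
    have hk := key (Q + 4 * X * tt) κl ((g + 1) * ((p : ℝ) + 4) + LU - 4)
      (by rw [hX, htt]; field_simp; linear_combination hQ) (by linarith only [hb])
    have hlo' := excessLow_le p hp (Real.sqrt_nonneg ((r ^ p)⁻¹)) (Real.sqrt_le_one.2 hw1)
    set w := (r ^ p)⁻¹ with hw
    rw [hKp]
    have hel : 0 ≤ excessLow p (√w) := by
      have hp2 : (2 : ℝ) ≤ p := by exact_mod_cast hp
      have : (0 : ℝ) ≤ 1 - 2 / p := by rw [sub_nonneg, div_le_one hp0]; exact hp2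
      unfold excessLow; positivity
    have hK : κl * S * (w - 1) ^ 2 ≤ (4 * S * (1 + 1 / (p : ℝ)) -
        max 0 (majKw p g 1 1 ell c2 y (t - y)) * excessLow p (√w)) * ((w - 1) ^ 2 / w) := by
      have h1 := mul_le_mul (max_le (mul_nonneg hM hS0.le) hKw) hlo' hel (mul_nonneg hM hS0.le)
      have h6 := mul_le_mul_of_nonneg_left hκl hS0.le
      refine (mul_le_mul_of_nonneg_left (le_div_self (sq_nonneg _) hw0 hw1)
        (mul_nonneg hκl0 hS0.le)).trans (mul_le_mul_of_nonneg_right ?_ (by positivity))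
      linarith only [h1, h6]
    rw [hcC, show (g + 1 * (1 : ℝ) ^ 2) = g + 1 by ring]
    linarith only [hk, hK]

end Vale.Agent.P237.All.Transport.Middle
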