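import Vale.Agent.P237.All.Middle.Reduce

/-!
P237, every dimension, middle regime: the reduced inequality beyond the bulk.  In the tail
`s ≤ (W + 1) / 2 * log w` lets the ridge pay for the linear term; where `y` is far from zero
crude signs suffice.
-/

noncomputable section

open Real Set

namespace Vale.Agent.P237.All.Transport.Middle

/-- `2 (w - 1) ≤ (W + 1) log w` for `1 ≤ w ≤ W`. -/
theorem chord_log {w W : ℝ} (hw : 1 ≤ w) (hW : w ≤ W) : w - 1 ≤ (W + 1) / 2 * log w := by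
  have h := Real.le_log_one_add_of_nonneg (sub_nonneg.2 hw)
  rw [show 1 + (w - 1) = w by ring, div_le_iff₀ (by linarith)] at h
  have := mul_le_mul_of_nonneg_left (show w - 1 + 2 ≤ W + 1 by linarith) (Real.log_nonneg hw)
  linarith

/-- The density with the potential as the majorant, the excess bounded through `K`. -/
theorem density_excess_le (p : ℕ) (hp : 1 ≤ p) {g ell lam c2 A LA U LU y t r K : ℝ}
    (hy : y ∈ Icc (-1 : ℝ) 1) (hr : 0 < r) (hg : 0 ≤ g) (hg' : g ≤ 1) (hp2 : 2 ≤ p)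
    (hK : majLr p g 1 1 ell c2 y / p + majX p g 1 1 y * (t - y) / p ≤ K) :
    density p 0 g 1 1 ell lam c2 y t r + semi y ^ (p + 1) *
        (LA * (t - y) + A * ((r ^ p)⁻¹ - 1) + LU * (t - y) ^ 2 +
          2 * U * (t - y) * ((r ^ p)⁻¹ - 1)) ≤
      semi y ^ (p + 1) * (majZero p g 1 c2 y +
        (majRe p g 1 1 ell c2 A y * ((r ^ p)⁻¹ - 1) + majLe p g 1 1 LA y * (t - y) +
          majCross p g 1 1 U y * (t - y) * ((r ^ p)⁻¹ - 1) -
          4 * (1 - y ^ 2) * (r ^ (p + 1) - 1 - ((p : ℝ) + 1) * (r - 1)) +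
          K * ((r ^ p)⁻¹ - 1 + p * (r - 1)) + ((g + 1) * ((p : ℝ) + 4) + LU) * (t - y) ^ 2)) := by
  rw [density_quad p hp g 1 1 ell lam c2 A LA U LU hy hr, ← pow_mul_id p hr]
  refine mul_le_mul_of_nonneg_left ?_ (pow_nonneg (Real.sqrt_nonneg _) _)
  have hW0 := excess_nonneg p hr
  have h1 := mul_le_mul_of_nonneg_right hK hW0
  have hKp : majKp 1 1 y (t - y) = 4 * (1 - y ^ 2) := by rw [majKp, majC]; ring
  have hlin : majLin p g 1 1 ell c2 A LA U y (t - y) ((r ^ p)⁻¹ - 1) =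
      majRe p g 1 1 ell c2 A y * ((r ^ p)⁻¹ - 1) + majLe p g 1 1 LA y * (t - y) +
        majCross p g 1 1 U y * (t - y) * ((r ^ p)⁻¹ - 1) := rfl
  have hKw : majKw p g 1 1 ell c2 y (t - y) = majKp 1 1 y (t - y) +
      (majLr p g 1 1 ell c2 y / p + majX p g 1 1 y * (t - y) / p) := by rw [majKw]; ring
  have hcC : (1 : ℝ) * majC 1 1 = 4 := by norm_num [majC]
  have hQ : r * ((g + 1 * (1 : ℝ) ^ 2) * ((p : ℝ) + 4)) - 1 * majC 1 1 * r ^ (p + 1) ≤
      (g + 1) * ((p : ℝ) + 4) := by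
    rw [hcC, show (g + 1 * (1 : ℝ) ^ 2) = g + 1 by ring]
    rcases le_total r 1 with h | h
    · have h1 := mul_le_of_le_one_left (show 0 ≤ (g + 1) * ((p : ℝ) + 4) by positivity) h
      have h2 : 0 ≤ r ^ (p + 1) := pow_nonneg hr.le _
      linarith
    · have h1 := one_add_mul_le_pow (a := r - 1) (by linarith) (p + 1)
      rw [add_sub_cancel] at h1
      push_cast at h1
      have hp2' : (2 : ℝ) ≤ p := by exact_mod_cast hp2
      have h3 := mul_le_mul_of_nonneg_left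
        (show (g + 1) * ((p : ℝ) + 4) ≤ ((p : ℝ) + 1) * 4 by nlinarith only [hg', hp2'])
        (show 0 ≤ r - 1 by linarith)
      linarith
  have h2 := mul_le_mul_of_nonneg_right (add_le_add_right hQ LU) (sq_nonneg (t - y))
  rw [hlin, hKw, hKp]
  linarith

/-- The ridge in `θ = t - y`. -/
theorem ridge_theta (p : ℕ) {y t r lam εL ℓ : ℝ} (hy : y ∈ Ioo (0 : ℝ) 1) (ht : t ∈ Ioo (0 : ℝ) 1)
    (hr : 0 < r) (hlam : 0 < lam) (hridge : semi t ≤ lam * semi y * r)
    (hεL : (p : ℝ) * log lam ≤ εL) (hε0 : 0 ≤ εL) (hℓ : -((p : ℝ) * log r) ≤ ℓ) (hℓ0 : 0 ≤ ℓ) :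
    (0 ≤ t - y → -((p : ℝ) * log r) ≤ εL + ((p : ℝ) + 2 * ℓ) * y / (1 - y ^ 2) * (t - y) +
      ((p : ℝ) / 2 + ℓ) / (1 - y ^ 2) * (t - y) ^ 2) ∧ (t - y ≤ 0 → -((p : ℝ) * log r) ≤ εL) := by
  have hy2 : 0 < 1 - y ^ 2 := by nlinarith [hy.1, hy.2]
  have h := ridge_log_le p hy ht hr hlam hridge hεL hε0 hℓ hℓ0
  constructor <;> intro hθ
  · refine h.trans (le_of_eq ?_)
    rw [max_eq_right (div_nonneg (sub_nonneg.2 (pow_le_pow_left₀ hy.1.le (by linarith) 2)) hy2.le)]
    field_simp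
    ring
  · refine h.trans (le_of_eq ?_)
    rw [max_eq_left (div_nonpos_of_nonpos_of_nonneg
      (sub_nonpos.2 (pow_le_pow_left₀ ht.1.le (by linarith) 2)) hy2.le)]
    ring

/-- The density and the potential in the tail. -/
theorem tail_le (p : ℕ) (hp : 2 ≤ p)
    {g ell lam c2 A LA U LU y t r tt X S R L C Q W ℓ Kb κT γ P0 P1 E : ℝ}
    (hy : y ∈ Ioo (0 : ℝ) 1) (ht : t ∈ Ioo (0 : ℝ) 1) (hr : 0 < r) (hg : 0 ≤ g) (hg' : g ≤ 1)
    (hlam : 1 ≤ lam) (hridge : semi t ≤ lam * semi y * r) (hE : 0 ≤ E)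
    (hεL : (p : ℝ) * log lam ≤ E * tt)
    (htt : tt = 1 / ((p : ℝ) + 2)) (hX : X = ((p : ℝ) + 2) * y ^ 2) (hS : S = 1 - y ^ 2)
    (hRe : majRe p g 1 1 ell c2 A y = tt * R)
    (hLe : majLe p g 1 1 LA y * y * S = X * tt * L)
    (hCx : majCross p g 1 1 U y * y = C)
    (hQ : ((g + 1) * ((p : ℝ) + 4) + LU) * y ^ 2 = -Q)
    (hKb : majLr p g 1 1 ell c2 y / p + majX p g 1 1 y * (t - y) / p ≤ Kb * S) (hKb0 : 0 ≤ Kb)
    (hband : (y - t) * X ≤ E * tt * S * y)
    (hW : r ≤ 1 → (r ^ p)⁻¹ ≤ W) (hW1 : 1 ≤ W) (hWℓ : log W ≤ ℓ)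
    (hR : 0 ≤ R) (hγ : 0 ≤ γ) (hγC : γ * X * tt ≤ C)
    (h1 : L + R * ((W + 1) / 2) * (1 - 2 * tt + 2 * ℓ * tt) + γ * (W - 1) * S ≤ 0)
    (h2 : 0 ≤ Q * S - X * (1 / 2 - tt + ℓ * tt) * (tt * (R * ((W + 1) / 2))))
    (hκT : κT ≤ 4 / (W + 1) - Kb * (W / (W + 1) + 1 / (2 * (p : ℝ)))) (hκT0 : 0 ≤ κT) (hKb4 : Kb < 4)
    (h4 : (C - γ * X * tt) ^ 2 * W ≤
      4 * κT * (Q * S - X * (1 / 2 - tt + ℓ * tt) * (tt * (R * ((W + 1) / 2)))))
    (h5 : R * ((W + 1) / 2) * E * S - L * E * S + C ^ 2 * E ^ 2 * S ^ 2 / (2 * (4 - Kb) * X ^ 2) ≤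
      P0 + E * P1 * S ^ 2) :
    density p 0 g 1 1 ell lam c2 y t r + semi y ^ (p + 1) *
        (LA * (t - y) + A * ((r ^ p)⁻¹ - 1) + LU * (t - y) ^ 2 +
          2 * U * (t - y) * ((r ^ p)⁻¹ - 1)) ≤
      semi y ^ (p + 1) * (majZero p g 1 c2 y + tt ^ 2 * ((P0 + E * P1 * S ^ 2) / S)) := by
  refine (density_excess_le p (by omega) ⟨by linarith [hy.1], hy.2.le⟩ hr hg hg' hp hKb).trans
    (mul_le_mul_of_nonneg_left (add_le_add le_rfl ?_) (pow_nonneg (Real.sqrt_nonneg _) _))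
  rw [← hS]
  have hp0 : (0 : ℝ) < p := Nat.cast_pos.2 (by omega)
  have hy0 := hy.1
  have hS0 : 0 < S := by rw [hS]; nlinarith only [hy.1, hy.2]
  have htt0 : 0 < tt := by rw [htt]; positivity
  have http : tt * ((p : ℝ) + 2) = 1 := by rw [htt]; field_simp
  have hX0 : 0 < X := by rw [hX]; positivity
  have hyX : y ^ 2 = X * tt := by rw [hX]; linear_combination (-y ^ 2) * http
  have hℓ0 : 0 ≤ ℓ := (Real.log_nonneg hW1).trans hWℓ
  set ρ := (W + 1) / 2 with hρ
  have hρ1 : 1 ≤ ρ := by rw [hρ]; linarith only [hW1]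
  set Re := majRe p g 1 1 ell c2 A y
  set Le := majLe p g 1 1 LA y
  set Cx := majCross p g 1 1 U y
  set Q0 := (g + 1) * ((p : ℝ) + 4) + LU
  set w := (r ^ p)⁻¹ with hw
  set η := E * tt * S * y / X with hη
  have hη0 : 0 ≤ η := by rw [hη]; positivity
  have hθ : -η ≤ t - y := by
    rw [hη, neg_le, neg_sub, le_div_iff₀ hX0]; exact hband
  have hL0 : L ≤ 0 := by
    have : 0 ≤ R * ρ * (1 - 2 * tt + 2 * ℓ * tt) := by
      have : 0 ≤ 1 - 2 * tt + 2 * ℓ * tt := by
        have : tt * 2 ≤ 1 := by nlinarith only [http, htt0, hp0]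
        nlinarith only [this, hℓ0, htt0]
      positivity
    have : 0 ≤ γ * (W - 1) * S := mul_nonneg (mul_nonneg hγ (by linarith)) hS0.le
    linarith
  have hLe0 : Le ≤ 0 := by
    have : Le * (y * S) ≤ 0 := by
      rw [← mul_assoc, hLe]; exact mul_nonpos_of_nonneg_of_nonpos (by positivity) hL0
    exact nonpos_of_mul_nonpos_left this (by positivity)
  have hC0 : 0 ≤ C := le_trans (by positivity) hγC
  have hCx0 : 0 ≤ Cx := nonneg_of_mul_nonneg_left (hCx ▸ hC0) hy0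
  have hRe0 : 0 ≤ Re := by rw [show Re = tt * R from hRe]; positivity
  have hLη : |Le| * η = -(tt ^ 2 * L * E) := by
    have e : Le = X * tt * L / (y * S) := by
      rw [eq_div_iff (by positivity), ← mul_assoc, hLe]
    rw [abs_of_nonpos hLe0, hη, e]; field_simp
  have hεT : 0 ≤ E * tt := by positivity
  have htarget : ρ * Re * (E * tt) + |Le| * η +
      Cx ^ 2 * η ^ 2 / (2 * ((4 - Kb) * S)) ≤ tt ^ 2 * ((P0 + E * P1 * S ^ 2) / S) := by
    rw [hLη, show Re = tt * R from hRe, show Cx = C / y by rw [eq_div_iff hy0.ne', hCx], hη,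
      ← mul_div_assoc, le_div_iff₀ hS0]
    refine le_trans (le_of_eq ?_) (mul_le_mul_of_nonneg_left h5 (sq_nonneg tt))
    have : 4 - Kb ≠ 0 := by linarith
    field_simp
    ring
  refine le_trans ?_ htarget
  rcases le_total 1 r with hr1 | hr1
  · have hs : w - 1 ≤ 0 := by linarith [inv_le_one_of_one_le₀ (one_le_pow₀ hr1 (n := p))]
    have h := tail_low (θ := t - y) (εL := E * tt) hRe0 hs hLe0 hCx0
      (mul_pos (sub_pos.2 hKb4) hS0) hθ hη0 hεT (pow_excess_ge_of_one_le p hp hr1)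
    have h' := mul_le_mul_of_nonneg_left (excess_le_deficit p hr1) (mul_nonneg hKb0 hS0.le)
    have h'' : Q0 * (t - y) ^ 2 ≤ 0 := by
      refine mul_nonpos_of_nonpos_of_nonneg ?_ (sq_nonneg _)
      have : 0 ≤ X * (1 / 2 - tt + ℓ * tt) * (tt * (R * ρ)) := by
        have : 0 ≤ 1 / 2 - tt + ℓ * tt := by nlinarith only [http, htt0, hp0, hℓ0]
        positivity
      have hQ0 : 0 ≤ Q * S := by linarith only [h2, this]
      have : Q0 * y ^ 2 ≤ 0 := by
        rw [hQ, neg_nonpos]; exact nonneg_of_mul_nonneg_left hQ0 hS0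
      exact nonpos_of_mul_nonpos_left this (by positivity)
    have h3 : Re * (E * tt) ≤ ρ * Re * (E * tt) :=
      mul_le_mul_of_nonneg_right (le_mul_of_one_le_left hRe0 hρ1) hεT
    linarith only [h, h', h'', h3]
  · have hv0 : 0 < r ^ p := pow_pos hr p
    have hw1 : 1 ≤ w := (one_le_inv₀ hv0).2 (pow_le_one₀ hr.le hr1)
    have hwW := hW hr1
    have hL : log w = -((p : ℝ) * log r) := by rw [hw, Real.log_inv, Real.log_pow]
    have hℓ : -((p : ℝ) * log r) ≤ ℓ := by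
      rw [← hL]; exact (Real.log_le_log (by linarith only [hw1]) hwW).trans hWℓ
    obtain ⟨hLp, hLn⟩ := ridge_theta p hy ht hr (by linarith only [hlam]) hridge hεL hεT hℓ hℓ0
    rw [← hL] at hLp hLn
    have hs : 0 ≤ w - 1 := sub_nonneg.2 hw1
    have hA : Re * (w - 1) ≤ ρ * Re * log w := by
      rw [mul_comm ρ, mul_assoc]
      exact mul_le_mul_of_nonneg_left (chord_log hw1 hwW) hRe0
    have hB : 4 * S / (W + 1) * ((w - 1) ^ 2 / w) ≤
        4 * S * (r ^ (p + 1) - 1 - ((p : ℝ) + 1) * (r - 1)) := by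
      rw [div_mul_eq_mul_div, mul_div_assoc]
      refine mul_le_mul_of_nonneg_left (le_trans ?_ (pow_excess_ge p (by omega) hr.le hr1))
        (by positivity)
      have e : (w - 1) ^ 2 / w / (w + 1) = (1 - r ^ p) ^ 2 / (1 + r ^ p) := by
        rw [hw]; field_simp
      rw [← e]
      exact div_le_div_of_nonneg_left (by positivity) (by positivity) (by linarith only [hwW])
    have hWe : w - 1 + (p : ℝ) * (r - 1) ≤ (W / (W + 1) + 1 / (2 * (p : ℝ))) * ((w - 1) ^ 2 / w) := by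
      refine (excess_le_one_le p (by omega) hr hr1).trans
        (mul_le_mul_of_nonneg_right (add_le_add_left ?_ _) (by positivity))
      rw [div_le_div_iff₀ (by positivity) (by positivity)]; linarith only [hwW]
    have hB' := mul_le_mul_of_nonneg_left hWe (mul_nonneg hKb0 hS0.le)
    have hq := mul_le_mul_of_nonneg_left hκT hS0.le
    have hq' := mul_le_mul_of_nonneg_right hq (show 0 ≤ (w - 1) ^ 2 / w by positivity)
    have hz : Kb * S * (w - 1 + (p : ℝ) * (r - 1)) -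
        4 * S * (r ^ (p + 1) - 1 - ((p : ℝ) + 1) * (r - 1)) ≤ -(κT * S * ((w - 1) ^ 2 / w)) := by
      generalize (w - 1) ^ 2 / w = z at hB hB' hq'
      have e0 : S * (4 / (W + 1) - Kb * (W / (W + 1) + 1 / (2 * (p : ℝ)))) * z =
          4 * S / (W + 1) * z - Kb * S * ((W / (W + 1) + 1 / (2 * (p : ℝ))) * z) := by ring
      linarith only [hB, hB', hq', e0, mul_comm κT S]
    have hC' : κT * S * ((w - 1) ^ 2 / W) ≤ κT * S * ((w - 1) ^ 2 / w) :=
      mul_le_mul_of_nonneg_left (div_le_div_of_nonneg_left (sq_nonneg _) (by linarith only [hw1]) hwW)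
        (by positivity)
    have hrest : 0 ≤ Cx ^ 2 * η ^ 2 / (2 * ((4 - Kb) * S)) :=
      div_nonneg (by positivity) (by nlinarith only [hKb4, hS0])
    have hρR : 0 ≤ ρ * Re := by positivity
    rcases le_total 0 (t - y) with h | h
    · have e1 := mul_le_mul_of_nonneg_left (hLp h) hρR
      set Cl := γ * X * tt / y with hCl
      have hlinθ : (Le + ((p : ℝ) + 2 * ℓ) * y / (1 - y ^ 2) * (ρ * Re) + Cl * (W - 1)) * (t - y) ≤ 0 := by
        refine mul_nonpos_of_nonpos_of_nonneg ?_ h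
        refine nonpos_of_mul_nonpos_left ?_ (show 0 < y * S by positivity)
        have e : (Le + ((p : ℝ) + 2 * ℓ) * y / (1 - y ^ 2) * (ρ * Re) + Cl * (W - 1)) * (y * S) =
            X * tt * (L + R * ρ * (1 - 2 * tt + 2 * ℓ * tt) + γ * (W - 1) * S) := by
          rw [← hS, hCl, show Re = tt * R from hRe]
          have e1' : (Le + ((p : ℝ) + 2 * ℓ) * y / S * (ρ * (tt * R)) + γ * X * tt / y * (W - 1)) * (y * S) =
              Le * y * S + ((p : ℝ) + 2 * ℓ) * y ^ 2 * (ρ * (tt * R)) + γ * X * tt * (W - 1) * S := by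
            field_simp
          rw [e1']
          linear_combination hLe + (((p : ℝ) + 2 * ℓ) * ρ * tt * R) * hyX + (X * tt * ρ * R) * http
        rw [e]
        exact mul_nonpos_of_nonneg_of_nonpos (by positivity) h1
      have e2 := quad_form_nonpos (a := w - 1) (b := t - y) (C := Cx - Cl) (W := W)
        (K := κT * S) (q := -(Q0 + ((p : ℝ) / 2 + ℓ) / (1 - y ^ 2) * (ρ * Re)))
        (by positivity) ?_ (by linarith only [hW1]) ?_
      · have e5 : Cl * (t - y) * (w - 1) ≤ Cl * (t - y) * (W - 1) := by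
          refine mul_le_mul_of_nonneg_left (by linarith only [hwW]) (mul_nonneg ?_ h)
          rw [hCl]; positivity
        have e4 : 0 ≤ |Le| * η := by positivity
        linarith only [hA, hz, hC', e1, e2, hlinθ, e5, e4, hrest]
      · rw [neg_nonneg]
        refine nonpos_of_mul_nonpos_left ?_ (show 0 < y ^ 2 * S by positivity)
        refine le_trans (le_of_eq ?_) (neg_nonpos.2 h2)
        rw [← hS, show Re = tt * R from hRe]
        have e1' : (Q0 + ((p : ℝ) / 2 + ℓ) / S * (ρ * (tt * R))) * (y ^ 2 * S) =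
            Q0 * y ^ 2 * S + ((p : ℝ) / 2 + ℓ) * y ^ 2 * (ρ * (tt * R)) := by field_simp
        rw [e1']
        linear_combination S * hQ + (((p : ℝ) / 2 + ℓ) * ρ * tt * R) * hyX + (X * tt * ρ * R / 2) * http
      · refine le_of_mul_le_mul_right ?_ (show 0 < y ^ 2 by positivity)
        refine le_trans (le_of_eq ?_) (h4.trans (le_of_eq ?_))
        · rw [hCl, ← hCx]; field_simp
        · rw [← hS, show Re = tt * R from hRe]
          have e1' : 4 * (κT * S) * -(Q0 + ((p : ℝ) / 2 + ℓ) / S * (ρ * (tt * R))) * y ^ 2 =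
              -(4 * κT) * (Q0 * y ^ 2 * S + ((p : ℝ) / 2 + ℓ) * y ^ 2 * (ρ * (tt * R))) := by
            field_simp
          rw [e1']
          linear_combination (4 * κT * S) * hQ + (4 * κT * ((p : ℝ) / 2 + ℓ) * ρ * tt * R) * hyX +
            (4 * κT * X * tt * ρ * R / 2) * http
    · have e1 := mul_le_mul_of_nonneg_left (hLn h) hρR
      have e2 : Cx * (t - y) * (w - 1) ≤ 0 :=
        mul_nonpos_of_nonpos_of_nonneg (mul_nonpos_of_nonneg_of_nonpos hCx0 h) hs
      have e3 : Q0 * (t - y) ^ 2 ≤ 0 := by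
        refine mul_nonpos_of_nonpos_of_nonneg ?_ (sq_nonneg _)
        have : 0 ≤ X * (1 / 2 - tt + ℓ * tt) * (tt * (R * ρ)) := by
          have : 0 ≤ 1 / 2 - tt + ℓ * tt := by nlinarith only [http, htt0, hp0, hℓ0]
          positivity
        have hQ0 : 0 ≤ Q * S := by linarith only [h2, this]
        have : Q0 * y ^ 2 ≤ 0 := by
          rw [hQ, neg_nonpos]; exact nonneg_of_mul_nonneg_left hQ0 hS0
        exact nonpos_of_mul_nonpos_left this (by positivity)
      have e4 : Le * (t - y) ≤ |Le| * η := by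
        rw [abs_of_nonpos hLe0, neg_mul, ← mul_neg]
        exact mul_le_mul_of_nonpos_left hθ hLe0
      have e5 : 0 ≤ κT * S * ((w - 1) ^ 2 / W) := by
        have : 0 < W := by linarith only [hW1]
        positivity
      linarith only [hA, hz, hC', e1, e2, e3, e4, e5, hrest]

/-- The density and the potential far from zero. -/
theorem far_le (p : ℕ) (hp : 2 ≤ p)
    {g ell lam c2 A LA U LU y t r tt X S R L C Q wd k P0 P1 E : ℝ}
    (hy : y ∈ Ioo (0 : ℝ) 1) (hr : 0 < r) (hg : 0 ≤ g) (hg' : g ≤ 1) (hE : 0 ≤ E)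
    (htt : tt = 1 / ((p : ℝ) + 2)) (hX : X = ((p : ℝ) + 2) * y ^ 2) (hS : S = 1 - y ^ 2)
    (hRe : majRe p g 1 1 ell c2 A y = tt * R)
    (hLe : majLe p g 1 1 LA y * y * S = X * tt * L)
    (hCx : majCross p g 1 1 U y * y = C)
    (hQ : ((g + 1) * ((p : ℝ) + 4) + LU) * y ^ 2 = -Q)
    (hk : majLr p g 1 1 ell c2 y / p + majX p g 1 1 y * (t - y) / p ≤ k) (hk0 : 0 ≤ k)
    (ht1 : t < 1) (hband : (y - t) * X ≤ E * tt * S * y)
    (hW : r ≤ 1 → (r ^ p)⁻¹ * semi y ≤ wd) (hwd : 0 ≤ wd)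
    (hR : 0 ≤ R) (hC : 0 ≤ C) (hQ0 : 0 ≤ Q) (h1 : X * tt * L + C * wd ≤ 0)
    (h5 : (tt * R + k) * wd + C * E * tt * S ^ 2 / X + k ^ 2 / 8 - tt ^ 2 * L * E * S ≤
      tt ^ 2 * (P0 + E * P1 * S ^ 2)) :
    density p 0 g 1 1 ell lam c2 y t r + semi y ^ (p + 1) *
        (LA * (t - y) + A * ((r ^ p)⁻¹ - 1) + LU * (t - y) ^ 2 +
          2 * U * (t - y) * ((r ^ p)⁻¹ - 1)) ≤
      semi y ^ (p + 1) * (majZero p g 1 c2 y + tt ^ 2 * ((P0 + E * P1 * S ^ 2) / S)) := by
  refine (density_excess_le p (by omega) ⟨by linarith [hy.1], hy.2.le⟩ hr hg hg' hp hk).trans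
    (mul_le_mul_of_nonneg_left (add_le_add le_rfl ?_) (pow_nonneg (Real.sqrt_nonneg _) _))
  rw [← hS]
  have hp0 : (0 : ℝ) < p := Nat.cast_pos.2 (by omega)
  have hy0 := hy.1
  have hS0 : 0 < S := by rw [hS]; nlinarith only [hy.1, hy.2]
  have htt0 : 0 < tt := by rw [htt]; positivity
  have hX0 : 0 < X := by rw [hX]; positivity
  set Re := majRe p g 1 1 ell c2 A y
  set Le := majLe p g 1 1 LA y
  set Cx := majCross p g 1 1 U y
  set Q0 := (g + 1) * ((p : ℝ) + 4) + LU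
  set w := (r ^ p)⁻¹ with hw
  set η := E * tt * S * y / X with hη
  have hη0 : 0 ≤ η := by rw [hη]; positivity
  have hθ : -η ≤ t - y := by
    rw [hη, neg_le, neg_sub, le_div_iff₀ hX0]; exact hband
  have hL0 : L ≤ 0 := by
    have : 0 ≤ C * wd := mul_nonneg hC hwd
    exact nonpos_of_mul_nonpos_right (a := X * tt) (by linarith only [this, h1]) (by positivity)
  have hLe0 : Le ≤ 0 := by
    have : Le * (y * S) ≤ 0 := by
      rw [← mul_assoc, hLe]; exact mul_nonpos_of_nonneg_of_nonpos (by positivity) hL0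
    exact nonpos_of_mul_nonpos_left this (by positivity)
  have hCx0 : 0 ≤ Cx := nonneg_of_mul_nonneg_left (hCx ▸ hC) hy0
  have hRe0 : 0 ≤ Re := by rw [show Re = tt * R from hRe]; positivity
  have hQ' : Q0 * (t - y) ^ 2 ≤ 0 := by
    refine mul_nonpos_of_nonpos_of_nonneg ?_ (sq_nonneg _)
    exact nonpos_of_mul_nonpos_left (show Q0 * y ^ 2 ≤ 0 by rw [hQ]; linarith only [hQ0]) (by positivity)
  have htarget : (Re + k) * (wd / S) + |Le| * η + Cx * η + k ^ 2 / (8 * S) ≤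
      tt ^ 2 * ((P0 + E * P1 * S ^ 2) / S) := by
    rw [show Le = X * tt * L / (y * S) by rw [eq_div_iff (by positivity), ← mul_assoc, hLe],
      abs_of_nonpos (div_nonpos_of_nonpos_of_nonneg
        (mul_nonpos_of_nonneg_of_nonpos (by positivity) hL0) (by positivity)),
      show Re = tt * R from hRe, show Cx = C / y by rw [eq_div_iff hy0.ne', hCx], hη]
    refine le_trans (le_of_eq ?_) ((div_le_div_of_nonneg_right h5 hS0.le).trans (le_of_eq (by ring)))
    field_simp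
    ring
  refine le_trans ?_ htarget
  have hlt : Le * (t - y) ≤ |Le| * η := by
    rw [abs_of_nonpos hLe0, neg_mul, ← mul_neg]
    exact mul_le_mul_of_nonpos_left hθ hLe0
  have hP0 : 0 ≤ r ^ (p + 1) - 1 - ((p : ℝ) + 1) * (r - 1) := by
    have := one_add_mul_le_pow (a := r - 1) (by linarith) (p + 1)
    rw [add_sub_cancel] at this; push_cast at this; linarith
  have hP0' : 0 ≤ 4 * S * (r ^ (p + 1) - 1 - ((p : ℝ) + 1) * (r - 1)) := by positivity
  have hk2 : 0 ≤ k ^ 2 / (8 * S) := by positivity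
  have hCη : 0 ≤ Cx * η := by positivity
  rcases le_total r 1 with hr1 | hr1
  · have hw1 : 1 ≤ w := (one_le_inv₀ (pow_pos hr p)).2 (pow_le_one₀ hr.le hr1)
    have hsS : (w - 1) * S ≤ wd := by
      have hsy : semi y ≤ 1 := Real.sqrt_le_one.2 (by linarith only [sq_nonneg y])
      have h : w * semi y * semi y ≤ wd := by
        refine le_trans ?_ (hW hr1)
        exact mul_le_of_le_one_right (mul_nonneg (by linarith only [hw1]) (Real.sqrt_nonneg _)) hsy
      rw [mul_assoc, ← sq, semi_sq ⟨by linarith only [hy0], hy.2.le⟩, ← hS] at h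
      linarith only [h, hS0]
    have hs : w - 1 ≤ wd / S := (le_div_iff₀ hS0).2 hsS
    have h1' := mul_le_mul_of_nonneg_left hs (show 0 ≤ Re + k by linarith only [hRe0, hk0])
    have h2' : k * (w - 1 + (p : ℝ) * (r - 1)) ≤ k * (w - 1) := by
      refine mul_le_mul_of_nonneg_left ?_ hk0
      have := mul_nonpos_of_nonneg_of_nonpos hp0.le (show r - 1 ≤ 0 by linarith only [hr1])
      linarith only [this]
    rcases le_total 0 (t - y) with h | h
    · have h3 : (Le + Cx * (w - 1)) * (t - y) ≤ 0 := by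
        refine mul_nonpos_of_nonpos_of_nonneg ?_ h
        refine nonpos_of_mul_nonpos_left ?_ (show 0 < y * S by positivity)
        have e : (Le + Cx * (w - 1)) * (y * S) = X * tt * L + C * ((w - 1) * S) := by
          rw [← hLe, ← hCx]; ring
        rw [e]
        linarith only [h1, mul_le_mul_of_nonneg_left hsS hC]
      have h4 : 0 ≤ |Le| * η := by positivity
      linarith only [h1', h2', h3, h4, hQ', hP0', hk2, hCη]
    · have h3 : Cx * (t - y) * (w - 1) ≤ 0 :=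
        mul_nonpos_of_nonpos_of_nonneg (mul_nonpos_of_nonneg_of_nonpos hCx0 h) (by linarith only [hw1])
      linarith only [h1', h2', h3, hlt, hQ', hP0', hk2, hCη]
  · have hw1 : w ≤ 1 := inv_le_one_of_one_le₀ (one_le_pow₀ hr1)
    have hw0 : 0 < w := inv_pos.2 (pow_pos hr p)
    have h1' : Re * (w - 1) ≤ 0 := mul_nonpos_of_nonneg_of_nonpos hRe0 (by linarith only [hw1])
    have h1'' : 0 ≤ (Re + k) * (wd / S) := by positivity
    have h3 : Cx * (t - y) * (w - 1) ≤ Cx * η := by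
      rcases le_total 0 (t - y) with h | h
      · exact le_trans (mul_nonpos_of_nonneg_of_nonpos (mul_nonneg hCx0 h) (by linarith only [hw1])) hCη
      · rw [mul_assoc]
        refine mul_le_mul_of_nonneg_left ?_ hCx0
        nlinarith only [hθ, h, hw1, hw0]
    have h2' : k * (w - 1 + (p : ℝ) * (r - 1)) -
        4 * S * (r ^ (p + 1) - 1 - ((p : ℝ) + 1) * (r - 1)) ≤ k ^ 2 / (8 * S) := by
      have e1 := pow_ge_quadratic (p + 1) (show 0 ≤ r - 1 by linarith only [hr1])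
      rw [add_sub_cancel] at e1
      push_cast at e1
      have e2 : ((p : ℝ) * (r - 1)) ^ 2 / 2 ≤ r ^ (p + 1) - 1 - ((p : ℝ) + 1) * (r - 1) := by
        have := mul_nonneg hp0.le (sq_nonneg (r - 1))
        nlinarith only [e1, this]
      have e3 := mul_le_mul_of_nonneg_left e2 (show 0 ≤ 4 * S by positivity)
      have e4 : k * ((p : ℝ) * (r - 1)) - 2 * S * ((p : ℝ) * (r - 1)) ^ 2 ≤ k ^ 2 / (8 * S) := by
        rw [le_div_iff₀ (by positivity)]
        nlinarith only [sq_nonneg (k - 4 * S * ((p : ℝ) * (r - 1)))]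
      have e5 := mul_le_mul_of_nonneg_left
        (show w - 1 + (p : ℝ) * (r - 1) ≤ (p : ℝ) * (r - 1) by linarith only [hw1]) hk0
      linarith only [e3, e4, e5]
    linarith only [h1', h1'', h2', h3, hlt, hQ']

end Vale.Agent.P237.All.Transport.Middle
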